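import Vale.Agent.P205F.GoodProb.JetAt

/-!
# P205, GoodProb: jet functions along a parameter family

The jet of `F l` at a point is `C²` in `l` with the bounds of the joint derivatives; its
differential is the jet of `dlam F l v`. So jet functions have polynomially bounded `C²` norms.
-/

namespace Vale.Agent.P205F

open scoped ContDiff
open Filter

/-- A temperate function is polynomially bounded in `M`, uniformly on balls of radius `M^e`. -/
theorem temperate_bound {E F : Type*} [NormedAddCommGroup E] [NormedSpace ℝ E]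
    [NormedAddCommGroup F] [NormedSpace ℝ F] {g : E → F} (hg : g.HasTemperateGrowth) (e : ℕ) :
    ∃ A : ℕ, ∀ᶠ M : ℕ in atTop, ∀ z, ‖z‖ ≤ (M : ℝ) ^ e → ‖g z‖ ≤ (M : ℝ) ^ A := by
  obtain ⟨k, C, hC⟩ := hg.2 0
  refine ⟨e * k + 1, ?_⟩
  filter_upwards [eventually_ge_atTop (max 1 ⌈|C| * 2 ^ k⌉₊)] with M hM z hz
  have h1 : (1 : ℝ) ≤ M := by exact_mod_cast le_of_max_le_left hM
  have h2 : |C| * 2 ^ k ≤ M := (Nat.le_ceil _).trans (by exact_mod_cast le_of_max_le_right hM)
  have h3 : (1 : ℝ) ≤ (M : ℝ) ^ e := one_le_pow₀ h1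
  have h := hC z
  rw [norm_iteratedFDeriv_zero] at h
  calc ‖g z‖ ≤ C * (1 + ‖z‖) ^ k := h
    _ ≤ |C| * (2 * (M : ℝ) ^ e) ^ k :=
        mul_le_mul (le_abs_self C) (pow_le_pow_left₀ (by positivity) (by linarith) k)
          (by positivity) (abs_nonneg C)
    _ = |C| * 2 ^ k * (M : ℝ) ^ (e * k) := by rw [mul_pow, ← pow_mul, mul_assoc]
    _ ≤ M * (M : ℝ) ^ (e * k) := by gcongr
    _ = _ := by rw [pow_succ, mul_comm]

theorem norm_jet_mono {N N' : ℕ} (h : N ≤ N') (f : E2 → R4) (x : E2) :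
    ‖jet N f x‖ ≤ ‖jet N' f x‖ :=
  (pi_norm_le_iff_of_nonneg (norm_nonneg _)).2 fun k =>
    norm_le_pi_norm (jet N' f x) (Fin.castLE (Nat.succ_le_succ h) k)

theorem norm_jet_sub_mono {N N' : ℕ} (h : N ≤ N') (f g : E2 → R4) (x : E2) :
    ‖jet N f x - jet N g x‖ ≤ ‖jet N' f x - jet N' g x‖ :=
  (pi_norm_le_iff_of_nonneg (norm_nonneg _)).2 fun k =>
    norm_le_pi_norm (jet N' f x - jet N' g x) (Fin.castLE (Nat.succ_le_succ h) k)

/-- Values and variations of jet functions are polynomially bounded. -/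
theorem JetAt.bound {X : Type*} [NormedAddCommGroup X] [NormedSpace ℝ X] {N : ℕ}
    {c : (E2 → R4) → E2 → X} (hc : JetAt N c) (e : ℕ) :
    ∃ A : ℕ, ∀ᶠ M : ℕ in atTop, ∀ f x, ContDiff ℝ ∞ f → ‖jet N f x‖ ≤ (M : ℝ) ^ e →
      ‖c f x‖ ≤ (M : ℝ) ^ A ∧
      (∀ w, ContDiff ℝ ∞ w → ‖var c f w x‖ ≤ (M : ℝ) ^ A * ‖jet N w x‖) ∧
      ∀ w w', ContDiff ℝ ∞ w → ContDiff ℝ ∞ w' →
        ‖var c f w x - var c f w' x‖ ≤ (M : ℝ) ^ A * ‖jet N w x - jet N w' x‖ := by
  obtain ⟨g, hg, heq⟩ := hc
  obtain ⟨A, hA⟩ := temperate_bound hg e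
  obtain ⟨B, hB⟩ := temperate_bound (hasTemperateGrowth_fderiv hg) e
  refine ⟨A + B, ?_⟩
  filter_upwards [hA, hB, eventually_ge_atTop 1] with M hA hB hM f x hf hj
  have h1 : (1 : ℝ) ≤ M := by exact_mod_cast hM
  have hA' : (M : ℝ) ^ A ≤ (M : ℝ) ^ (A + B) := pow_le_pow_right₀ h1 (Nat.le_add_right _ _)
  have hB' : (M : ℝ) ^ B ≤ (M : ℝ) ^ (A + B) := pow_le_pow_right₀ h1 (Nat.le_add_left _ _)
  refine ⟨?_, fun w hw => ?_, fun w w' hw hw' => ?_⟩
  · rw [heq f x hf]; exact (hA _ hj).trans hA'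
  · rw [var_rep hg heq hf hw]
    exact (ContinuousLinearMap.le_opNorm _ _).trans
      (mul_le_mul_of_nonneg_right ((hB _ hj).trans hB') (norm_nonneg _))
  · rw [var_rep hg heq hf hw, var_rep hg heq hf hw', ← map_sub]
    exact (ContinuousLinearMap.le_opNorm _ _).trans
      (mul_le_mul_of_nonneg_right ((hB _ hj).trans hB') (norm_nonneg _))

section Family

variable {d : ℕ} {F : (Fin d → ℝ) → E2 → R4}

theorem contDiff_slice (hF : ContDiff ℝ ∞ (Function.uncurry F)) (l : Fin d → ℝ) :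
    ContDiff ℝ ∞ (F l) :=
  hF.comp (contDiff_const.prodMk contDiff_id)

theorem pd_slice {G : (Fin d → ℝ) × E2 → R4} (hG : ContDiff ℝ ∞ G) (l : Fin d → ℝ) (x : E2)
    (i : Fin 2) : pd i (fun z => G (l, z)) x = fderiv ℝ G (l, x) (0, ev i) := by
  have h := ((hG.differentiable (by simp) (l, x)).hasFDerivAt).comp x
    ((hasFDerivAt_const l x).prodMk (hasFDerivAt_id x))
  show fderiv ℝ (G ∘ fun z => (l, z)) x (ev i) = _
  rw [h.fderiv]
  simp

theorem dl_slice {G : (Fin d → ℝ) × E2 → R4} (hG : ContDiff ℝ ∞ G) (l v : Fin d → ℝ) (x : E2) :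
    fderiv ℝ (fun l' => G (l', x)) l v = fderiv ℝ G (l, x) (v, 0) := by
  have hp : HasFDerivAt (fun l' : Fin d → ℝ => (l', x))
      ((ContinuousLinearMap.id ℝ (Fin d → ℝ)).prod (0 : (Fin d → ℝ) →L[ℝ] E2)) l :=
    (hasFDerivAt_id l).prodMk (hasFDerivAt_const x l)
  have h := HasFDerivAt.comp l (g := G) (hG.differentiable (by simp) (l, x)).hasFDerivAt hp
  show fderiv ℝ (G ∘ fun l' => (l', x)) l v = _
  rw [h.fderiv]
  simp

/-- Mixed partials are smooth jointly, and commute with the parameter derivative. -/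
theorem pdm_param (hF : ContDiff ℝ ∞ (Function.uncurry F)) (i j : ℕ) :
    ContDiff ℝ ∞ (fun p : (Fin d → ℝ) × E2 => pdm i j (F p.1) p.2) ∧
      ∀ l v x, fderiv ℝ (fun l' => pdm i j (F l') x) l v = pdm i j (dlam F l v) x := by
  have base : ∀ (k : Fin 2) (G : (Fin d → ℝ) × E2 → R4), ContDiff ℝ ∞ G →
      ContDiff ℝ ∞ (fun p : (Fin d → ℝ) × E2 => pd k (fun z => G (p.1, z)) p.2) ∧
      ∀ l v x, fderiv ℝ (fun l' => pd k (fun z => G (l', z)) x) l v =
        pd k (fun z => fderiv ℝ (fun l' => G (l', z)) l v) x := by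
    intro k G hG
    have hd : ContDiff ℝ ∞ (fderiv ℝ G) := hG.fderiv_right (by exact_mod_cast le_top)
    refine ⟨?_, fun l v x => ?_⟩
    · simp only [pd_slice hG]
      exact hd.clm_apply contDiff_const
    · have hsym : IsSymmSndFDerivAt ℝ G (l, x) :=
        ((hG.of_le (WithTop.coe_le_coe.2 le_top) : ContDiff ℝ 2 G).contDiffAt).isSymmSndFDerivAt
          (by simp)
      have hp : HasFDerivAt (fun l' : Fin d → ℝ => (l', x))
          ((ContinuousLinearMap.id ℝ (Fin d → ℝ)).prod (0 : (Fin d → ℝ) →L[ℝ] E2)) l :=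
        (hasFDerivAt_id l).prodMk (hasFDerivAt_const x l)
      have h₁ := HasFDerivAt.comp l (g := fderiv ℝ G)
        (hd.differentiable (by simp) (l, x)).hasFDerivAt hp
      have h₂ := (hd.differentiable (by simp) (l, x)).hasFDerivAt.comp x
        ((hasFDerivAt_const l x).prodMk (hasFDerivAt_id x))
      have h₁' : HasFDerivAt (fun l' => fderiv ℝ G (l', x)) _ l := h₁
      have h₂' : HasFDerivAt (fun z => fderiv ℝ G (l, z)) _ x := h₂
      simp only [pd_slice hG, dl_slice hG]
      rw [show pd k (fun z => fderiv ℝ G (l, z) (v, 0)) x =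
        fderiv ℝ (fun z => fderiv ℝ G (l, z) (v, 0)) x (ev k) from rfl,
        (h₁'.clm_apply (hasFDerivAt_const ((0 : Fin d → ℝ), ev k) l)).fderiv,
        (h₂'.clm_apply (hasFDerivAt_const (v, (0 : E2)) x)).fderiv]
      simpa using hsym.eq (v, 0) (0, ev k)
  induction i with
  | zero =>
    induction j with
    | zero =>
      exact ⟨hF, fun l v x => rfl⟩
    | succ j ih =>
      have h := base 1 _ ih.1
      have e : ∀ g : E2 → R4, pdm 0 (j + 1) g = pd 1 (pdm 0 j g) := fun g => by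
        simp only [pdm, Function.iterate_zero, id_eq, Function.iterate_succ_apply']
      refine ⟨by simpa only [e] using h.1, fun l v x => ?_⟩
      simp only [e]
      exact (h.2 l v x).trans (congrArg (fun g => pd 1 g x) (funext fun z => ih.2 l v z))
  | succ i ih =>
    have h := base 0 _ ih.1
    have e : ∀ g : E2 → R4, pdm (i + 1) j g = pd 0 (pdm i j g) := fun g => (pd0_pdm g i j).symm
    refine ⟨by simpa only [e] using h.1, fun l v x => ?_⟩
    simp only [e]
    exact (h.2 l v x).trans (congrArg (fun g => pd 0 g x) (funext fun z => ih.2 l v z))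

theorem contDiff_dlam (hF : ContDiff ℝ ∞ (Function.uncurry F)) (l v : Fin d → ℝ) :
    ContDiff ℝ ∞ (dlam F l v) := by
  rw [show dlam F l v = fun x => fderiv ℝ (Function.uncurry F) (l, x) (v, 0) from
    funext fun x => dl_slice hF l v x]
  exact ((hF.fderiv_right (m := ∞) (by exact_mod_cast le_top)).comp
    (contDiff_const.prodMk contDiff_id)).clm_apply contDiff_const

/-- The jet as a function of the parameter: its differential. -/
theorem jet_param (hF : ContDiff ℝ ∞ (Function.uncurry F)) (N : ℕ) (x : E2) :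
    ContDiff ℝ ∞ (fun l => jet N (F l) x) ∧
      ∀ l v, fderiv ℝ (fun l' => jet N (F l') x) l v = jet N (dlam F l v) x := by
  have hcomp : ∀ (k : ℕ) (l : Fin d → ℝ), iteratedFDeriv ℝ k (F l) x =
      ContinuousMultilinearMap.compContinuousLinearMapL
        (fun _ : Fin k => ContinuousLinearMap.inr ℝ (Fin d → ℝ) E2)
        (iteratedFDeriv ℝ k (Function.uncurry F) (l, x)) := by
    intro k l
    have e : F l = (fun p => Function.uncurry F ((l, 0) + p)) ∘
        ContinuousLinearMap.inr ℝ (Fin d → ℝ) E2 := by funext z; simp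
    have hG : ContDiff ℝ ∞ fun p => Function.uncurry F ((l, (0 : E2)) + p) := by fun_prop
    rw [e, ContinuousLinearMap.iteratedFDeriv_comp_right _ hG x (by exact_mod_cast le_top),
      iteratedFDeriv_comp_add_left]
    simp only [ContinuousLinearMap.inr_apply, Prod.mk_add_mk, add_zero, zero_add]
    rfl
  have hsm : ∀ k : ℕ, ContDiff ℝ ∞ (fun l => iteratedFDeriv ℝ k (F l) x) := fun k => by
    simp only [hcomp]
    exact (ContinuousLinearMap.contDiff _).comp
      ((hF.iteratedFDeriv_right (by exact_mod_cast le_top)).comp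
        (contDiff_id.prodMk contDiff_const))
  refine ⟨contDiff_pi.2 fun k => hsm k, fun l v => ?_⟩
  funext k
  have hdk : ∀ j : Fin (N + 1), DifferentiableAt ℝ (fun l' => jet N (F l') x j) l := fun j =>
    ((hsm j).differentiable (by simp)) l
  rw [fderiv_pi hdk, ContinuousLinearMap.pi_apply]
  refine ContinuousMultilinearMap.ext fun m => ?_
  have e : m = fun a => ∑ j : Fin 2, (m a) j • ev j := funext fun a => sum_ev (m a)
  rw [congrArg (fderiv ℝ (fun l' => jet N (F l') x k) l v) e,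
    congrArg (jet N (dlam F l v) x k) e, ContinuousMultilinearMap.map_sum,
    ContinuousMultilinearMap.map_sum]
  refine Finset.sum_congr rfl fun σ _ => ?_
  rw [ContinuousMultilinearMap.map_smul_univ, ContinuousMultilinearMap.map_smul_univ]
  refine congrArg _ ?_
  obtain ⟨a, b, _, hσ⟩ := iteratedFDeriv_ev (X := R4) (k : ℕ) σ
  show fderiv ℝ (fun l' => iteratedFDeriv ℝ (k : ℕ) (F l') x) l v (fun c => ev (σ c)) =
    iteratedFDeriv ℝ (k : ℕ) (dlam F l v) x (fun c => ev (σ c))
  rw [hσ _ (contDiff_dlam hF l v), ← (pdm_param hF a b).2 l v x,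
    ← fderiv_continuousMultilinear_apply_const_apply
      (show DifferentiableAt ℝ (fun l' => iteratedFDeriv ℝ (k : ℕ) (F l') x) l from hdk k)]
  exact congrArg (fun G => fderiv ℝ G l v) (funext fun l' => hσ _ (contDiff_slice hF l') x)

/-- The differential of a jet function along the family. -/
theorem fderiv_jetFn {X : Type*} [NormedAddCommGroup X] [NormedSpace ℝ X] {N : ℕ}
    {c : (E2 → R4) → E2 → X} (hc : JetAt N c) (hF : ContDiff ℝ ∞ (Function.uncurry F))
    (l v : Fin d → ℝ) (x : E2) :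
    fderiv ℝ (fun l' => c (F l') x) l v = var c (F l) (dlam F l v) x := by
  obtain ⟨g, hg, e⟩ := hc
  rw [var_rep hg e (contDiff_slice hF l) (contDiff_dlam hF l v),
    show (fun l' => c (F l') x) = g ∘ fun l' => jet N (F l') x from
      funext fun l' => e _ _ (contDiff_slice hF l'),
    fderiv_comp l (hg.1.differentiable (by simp) _)
      ((jet_param hF N x).1.differentiable (by simp) l),
    ContinuousLinearMap.comp_apply, (jet_param hF N x).2]

end Family

end Vale.Agent.P205F
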