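import Vale.Agent.P205F.GoodProb.Orders

/-!
# P205, GoodProb: algebra of the second and third jets

`cross a b c` is trilinear; the quantities `k, D, D₂, b, c, d` are inner products of
`cross f_x f_y f_ij`; their derivatives are these products of third jets plus two junk determinants
`jx, jy`, which vanish with the minors `k, D, D₂`.
-/

namespace Vale.Agent.P205F

open scoped ContDiff RealInnerProductSpace

/-! ### The vector product -/

theorem cross_add₁ (u v b c : R4) : cross (u + v) b c = cross u b c + cross v b c := by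
  ext i; fin_cases i <;> simp [cross] <;> ring
theorem cross_add₂ (a u v c : R4) : cross a (u + v) c = cross a u c + cross a v c := by
  ext i; fin_cases i <;> simp [cross] <;> ring
theorem cross_add₃ (a b u v : R4) : cross a b (u + v) = cross a b u + cross a b v := by
  ext i; fin_cases i <;> simp [cross] <;> ring
theorem cross_smul₁ (t : ℝ) (u b c : R4) : cross (t • u) b c = t • cross u b c := by
  ext i; fin_cases i <;> simp [cross] <;> ring
theorem cross_smul₂ (t : ℝ) (a u c : R4) : cross a (t • u) c = t • cross a u c := by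
  ext i; fin_cases i <;> simp [cross] <;> ring
theorem cross_smul₃ (t : ℝ) (a b u : R4) : cross a b (t • u) = t • cross a b u := by
  ext i; fin_cases i <;> simp [cross] <;> ring
theorem cross_self₁₂ (a c : R4) : cross a a c = 0 := by
  ext i; fin_cases i <;> simp [cross] <;> ring
theorem cross_self₁₃ (a b : R4) : cross a b a = 0 := by
  ext i; fin_cases i <;> simp [cross] <;> ring
theorem cross_self₂₃ (a b : R4) : cross a b b = 0 := by
  ext i; fin_cases i <;> simp [cross] <;> ring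
theorem cross_zero₁ (b c : R4) : cross 0 b c = 0 := by
  simpa using cross_smul₁ (0 : ℝ) 0 b c
theorem cross_zero₂ (a c : R4) : cross a 0 c = 0 := by
  simpa using cross_smul₂ (0 : ℝ) a 0 c
theorem cross_zero₃ (a b : R4) : cross a b 0 = 0 := by
  simpa using cross_smul₃ (0 : ℝ) a b 0
theorem cross_sub₃ (a b u v : R4) : cross a b (u - v) = cross a b u - cross a b v := by
  ext i; fin_cases i <;> simp [cross] <;> ring

/-- The vector product as a continuous trilinear map. -/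
noncomputable def crossL : R4 →L[ℝ] R4 →L[ℝ] R4 →L[ℝ] R4 :=
  LinearMap.toContinuousLinearMap
    { toFun := fun a => LinearMap.toContinuousLinearMap
        { toFun := fun b => LinearMap.toContinuousLinearMap
            { toFun := fun c => cross a b c
              map_add' := cross_add₃ a b
              map_smul' := fun t u => cross_smul₃ t a b u }
          map_add' := fun u v => by ext1 c; exact cross_add₂ a u v c
          map_smul' := fun t u => by ext1 c; exact cross_smul₂ t a u c }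
      map_add' := fun u v => by ext1 b; ext1 c; exact cross_add₁ u v b c
      map_smul' := fun t u => by ext1 b; ext1 c; exact cross_smul₁ t u b c }

theorem crossL_apply (a b c : R4) : crossL a b c = cross a b c := rfl

/-- Lagrange. -/
theorem inner_cross (a b u v : R4) : ⟪cross a b u, cross a b v⟫ =
    (⟪a, a⟫ * ⟪b, b⟫ - ⟪a, b⟫ ^ 2) * ⟪u, v⟫ - ⟪a, a⟫ * (⟪b, u⟫ * ⟪b, v⟫)
      - ⟪b, b⟫ * (⟪a, u⟫ * ⟪a, v⟫) + ⟪a, b⟫ * (⟪a, u⟫ * ⟪b, v⟫ + ⟪a, v⟫ * ⟪b, u⟫) := by
  simp only [inner_R4]; simp [cross]; ring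

/-- The double product. -/
theorem cross_cross (a b u : R4) : cross a b (cross a b u) =
    -(⟪a, a⟫ * ⟪b, b⟫ - ⟪a, b⟫ ^ 2) • u
      + ⟪⟪b, b⟫ • a - ⟪a, b⟫ • b, u⟫ • a + ⟪⟪a, a⟫ • b - ⟪a, b⟫ • a, u⟫ • b := by
  simp only [inner_sub_left, real_inner_smul_left]
  simp only [inner_R4]
  ext i; fin_cases i <;> simp [cross] <;> ring

/-- Five vectors are dependent. -/
theorem five (a b u v w : R4) :
    ⟪cross b u v, w⟫ • a - ⟪cross a u v, w⟫ • b + ⟪cross a b v, w⟫ • u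
      - ⟪cross a b u, w⟫ • v + ⟪cross a b u, v⟫ • w = 0 := by
  simp only [inner_R4]
  ext i; fin_cases i <;> simp [cross] <;> ring

/-! ### Derivatives and variations of products -/

theorem pd_bilin {X Y Z : Type*} [NormedAddCommGroup X] [NormedSpace ℝ X] [NormedAddCommGroup Y]
    [NormedSpace ℝ Y] [NormedAddCommGroup Z] [NormedSpace ℝ Z] {u : E2 → X} {v : E2 → Y}
    (hu : ContDiff ℝ ∞ u) (hv : ContDiff ℝ ∞ v) (B : X →L[ℝ] Y →L[ℝ] Z) (i : Fin 2) (x : E2) :
    pd i (fun z => B (u z) (v z)) x = B (pd i u x) (v x) + B (u x) (pd i v x) := by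
  have h := B.hasFDerivAt_of_bilinear (x := x) (f := u) (g := v)
    (hu.differentiable (by simp) x).hasFDerivAt (hv.differentiable (by simp) x).hasFDerivAt
  simp [pd, h.fderiv, add_comm]

theorem pd_cross {u v w : E2 → R4} (hu : ContDiff ℝ ∞ u) (hv : ContDiff ℝ ∞ v)
    (hw : ContDiff ℝ ∞ w) (i : Fin 2) (x : E2) :
    pd i (fun z => cross (u z) (v z) (w z)) x =
      cross (pd i u x) (v x) (w x) + cross (u x) (pd i v x) (w x)
        + cross (u x) (v x) (pd i w x) := by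
  have h1 : ContDiff ℝ ∞ fun z => crossL (u z) (v z) := by fun_prop
  have e : pd i (fun z => crossL (u z) (v z)) x = crossL (pd i u x) (v x) + crossL (u x) (pd i v x) :=
    pd_bilin hu hv crossL i x
  have h := pd_bilin h1 hw (ContinuousLinearMap.id ℝ (R4 →L[ℝ] R4)) i x
  simp only [ContinuousLinearMap.id_apply, e, add_apply] at h
  exact h

theorem pd_inner {u v : E2 → R4} (hu : ContDiff ℝ ∞ u) (hv : ContDiff ℝ ∞ v) (i : Fin 2) (x : E2) :
    pd i (fun z => ⟪u z, v z⟫) x = ⟪pd i u x, v x⟫ + ⟪u x, pd i v x⟫ :=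
  pd_bilin hu hv (innerSL ℝ) i x

theorem var_cross {a b c : (E2 → R4) → E2 → R4} (ha : JetFn a) (hb : JetFn b) (hc : JetFn c)
    {f w : E2 → R4} (hf : ContDiff ℝ ∞ f) (hw : ContDiff ℝ ∞ w) {x : E2} :
    var (fun f x => cross (a f x) (b f x) (c f x)) f w x =
      cross (var a f w x) (b f x) (c f x) + cross (a f x) (var b f w x) (c f x)
        + cross (a f x) (b f x) (var c f w x) := by
  have h := var_bilin (x := x) (ha.bilin hb crossL) hc hf hw
    (ContinuousLinearMap.id ℝ (R4 →L[ℝ] R4))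
  have e := var_bilin (x := x) ha hb hf hw crossL
  simp only [ContinuousLinearMap.id_apply, e, add_apply] at h
  exact h

/-! ### Second jets -/

/-- The normal product of a vector. -/
noncomputable def nv (f : E2 → R4) (x : E2) (u : R4) : R4 := cross (pd 0 f x) (pd 1 f x) u

section Second

variable (f : E2 → R4) (x : E2)

theorem omega_eq (u v : R4) : omega f x u v = ⟪nv f x u, v⟫ := rfl
theorem omega_swap (u v : R4) : omega f x u v = -omega f x v u := cross_swap _ _ _ _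
theorem nu1_eq : nu1 f x = nv f x (fyy f x) := rfl
theorem nu2_eq : nu2 f x = nv f x (nu1 f x) := rfl

theorem inner_nv_nv (u v : R4) : ⟪nv f x u, v⟫ = -⟪nv f x v, u⟫ := cross_swap _ _ _ _

theorem kk_eq : kk f x = omega f x (fyy f x) (fxx f x) := real_inner_comm _ _
theorem DD_eq : DD f x = 2 * omega f x (fyy f x) (fxy f x) := by
  rw [DD, real_inner_comm]; rfl
theorem E1_eq : E1 f x = DD f x / 2 := by
  rw [DD_eq, E1]; ring
theorem EB_eq : EB f x = -kk f x := by
  rw [kk_eq, EB, omega_swap]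
theorem bb_eq : bb f x = -⟪nu1 f x, nu1 f x⟫ := by
  rw [bb, nu2_eq, real_inner_comm, inner_nv_nv, ← nu1_eq]
theorem dd_eq : dd f x = -⟪nu1 f x, nv f x (fxx f x)⟫ := by
  rw [dd, nu2_eq, real_inner_comm, inner_nv_nv, real_inner_comm]
theorem cc_eq : cc f x = -⟪nu1 f x, nv f x (fxy f x)⟫ := by
  rw [cc, nu2_eq, real_inner_comm, inner_nv_nv, real_inner_comm]

theorem inner_nv₀ (u : R4) : ⟪nv f x u, pd 0 f x⟫ = 0 := cross_orth_left _ _ _
theorem inner_nv₁ (u : R4) : ⟪nv f x u, pd 1 f x⟫ = 0 := cross_orth_mid _ _ _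

theorem inner_nv_nv' (u v : R4) : ⟪nv f x u, nv f x v⟫ =
    gdet f x * ⟪u, v⟫ - ⟪pd 0 f x, pd 0 f x⟫ * (⟪pd 1 f x, u⟫ * ⟪pd 1 f x, v⟫)
      - ⟪pd 1 f x, pd 1 f x⟫ * (⟪pd 0 f x, u⟫ * ⟪pd 0 f x, v⟫)
      + ⟪pd 0 f x, pd 1 f x⟫ * (⟪pd 0 f x, u⟫ * ⟪pd 1 f x, v⟫ + ⟪pd 0 f x, v⟫ * ⟪pd 1 f x, u⟫) :=
  inner_cross _ _ _ _

/-- On normal vectors `nv` is a similarity. -/
theorem inner_nv_normal {u : R4} (h₀ : ⟪pd 0 f x, u⟫ = 0) (h₁ : ⟪pd 1 f x, u⟫ = 0) (v : R4) :
    ⟪nv f x u, nv f x v⟫ = gdet f x * ⟪u, v⟫ := by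
  rw [inner_nv_nv', h₀, h₁]; ring

theorem nv_nv_normal {u : R4} (h₀ : ⟪pd 0 f x, u⟫ = 0) (h₁ : ⟪pd 1 f x, u⟫ = 0) :
    nv f x (nv f x u) = -gdet f x • u := by
  rw [nv, nv, cross_cross, gdet]
  simp [inner_sub_left, real_inner_smul_left, h₀, h₁]

theorem inner_nu1_nu2 : ⟪nu1 f x, nu2 f x⟫ = 0 := by
  rw [nu2_eq, real_inner_comm]; exact cross_orth_right _ _ _

theorem inner_nu2_nu2 : ⟪nu2 f x, nu2 f x⟫ = gdet f x * ⟪nu1 f x, nu1 f x⟫ :=
  inner_nv_normal f x (by rw [real_inner_comm]; exact inner_nv₀ f x _)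
    (by rw [real_inner_comm]; exact inner_nv₁ f x _) _

/-- Junk determinants. -/
noncomputable def jx : ℝ := ⟪cross (pd 0 f x) (fyy f x) (fxx f x), fxy f x⟫
/-- Junk determinants. -/
noncomputable def jy : ℝ := ⟪cross (pd 1 f x) (fyy f x) (fxx f x), fxy f x⟫

theorem five_inner (e : R4) : jy f x * ⟪pd 0 f x, e⟫ - jx f x * ⟪pd 1 f x, e⟫
    + D2 f x * ⟪fyy f x, e⟫ - E1 f x * ⟪fxx f x, e⟫ + kk f x * ⟪fxy f x, e⟫ = 0 := by
  have h := congrArg (fun u => ⟪u, e⟫)
    (five (pd 0 f x) (pd 1 f x) (fyy f x) (fxx f x) (fxy f x))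
  simp only [inner_add_left, inner_sub_left, real_inner_smul_left, inner_zero_left] at h
  rw [kk_eq]
  exact h

/-- `D₂` vanishes with `k, D` where `b ≠ 0`. -/
theorem D2_bb : D2 f x * bb f x = E1 f x * dd f x - kk f x * cc f x := by
  have h := five_inner f x (nu2 f x)
  rw [show ⟪pd 0 f x, nu2 f x⟫ = 0 by rw [real_inner_comm]; exact cross_orth_left _ _ _,
    show ⟪pd 1 f x, nu2 f x⟫ = 0 by rw [real_inner_comm]; exact cross_orth_mid _ _ _] at h
  simp only [bb, dd, cc]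
  linear_combination h

/-- The junk vanishes with the minors. -/
theorem gdet_jy : gdet f x * jy f x =
    -(D2 f x * gam f x 0 2) + DD f x / 2 * gam f x 0 0 - kk f x * gam f x 0 1 / 2 := by
  have h := five_inner f x (tanv f x 0)
  obtain ⟨a, b, -, -⟩ := inner_tanv f x
  simp only [real_inner_comm (tanv f x 0)] at h
  rw [a, b, E1_eq] at h
  simp [gam]
  linear_combination h

/-- The junk vanishes with the minors. -/
theorem gdet_jx : gdet f x * jx f x =
    D2 f x * gam f x 1 2 - DD f x / 2 * gam f x 1 0 + kk f x * gam f x 1 1 / 2 := by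
  have h := five_inner f x (tanv f x 1)
  obtain ⟨-, -, c, d⟩ := inner_tanv f x
  simp only [real_inner_comm (tanv f x 1)] at h
  rw [c, d, E1_eq] at h
  simp [gam]
  linear_combination -h

end Second

theorem JetAt.jx : JetAt 2 P205F.jx := (cross (pd_self 0) fyy fxx).inner fxy
theorem JetAt.jy : JetAt 2 P205F.jy := (cross (pd_self 1) fyy fxx).inner fxy

/-! ### First derivatives -/

variable {f : E2 → R4}

theorem pd_fxx (hf : ContDiff ℝ ∞ f) (x : E2) :
    pd 0 (fxx f) x = pdm 3 0 f x ∧ pd 1 (fxx f) x = pdm 2 1 f x :=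
  ⟨rfl, congrFun (pd1_pdm hf 2 0) x⟩
theorem pd_fxy (hf : ContDiff ℝ ∞ f) (x : E2) :
    pd 0 (fxy f) x = pdm 2 1 f x ∧ pd 1 (fxy f) x = pdm 1 2 f x :=
  ⟨rfl, congrFun (pd1_pdm hf 1 1) x⟩
theorem pd_fyy (f : E2 → R4) (x : E2) :
    pd 0 (fyy f) x = pdm 1 2 f x ∧ pd 1 (fyy f) x = pdm 0 3 f x := ⟨rfl, rfl⟩

theorem pd_omega {u v : E2 → R4} (hf : ContDiff ℝ ∞ f) (hu : ContDiff ℝ ∞ u)
    (hv : ContDiff ℝ ∞ v) (i : Fin 2) (x : E2) :
    pd i (fun z => omega f z (u z) (v z)) x =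
      ⟪cross (pd i (pd 0 f) x) (pd 1 f x) (u x), v x⟫
        + ⟪cross (pd 0 f x) (pd i (pd 1 f) x) (u x), v x⟫
        + omega f x (pd i u x) (v x) + omega f x (u x) (pd i v x) := by
  have h₀ := contDiff_pd hf 0
  have h₁ := contDiff_pd hf 1
  have h : ContDiff ℝ ∞ fun z => crossL (pd 0 f z) (pd 1 f z) (u z) := by fun_prop
  show pd i (fun z => ⟪crossL (pd 0 f z) (pd 1 f z) (u z), v z⟫) x = _
  rw [pd_inner h hv]
  simp only [crossL_apply, pd_cross (contDiff_pd hf 0) (contDiff_pd hf 1) hu, inner_add_left, omega]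

theorem contDiff_second (hf : ContDiff ℝ ∞ f) :
    ContDiff ℝ ∞ (fxx f) ∧ ContDiff ℝ ∞ (fxy f) ∧ ContDiff ℝ ∞ (fyy f) :=
  ⟨contDiff_pd (contDiff_pd hf 0) 0, contDiff_pd (contDiff_pd hf 1) 0,
    contDiff_pd (contDiff_pd hf 1) 1⟩

theorem pd0_kk (hf : ContDiff ℝ ∞ f) (x : E2) : pd 0 (kk f) x =
    jx f x + omega f x (pdm 1 2 f x) (fxx f x) + omega f x (fyy f x) (pdm 3 0 f x) := by
  obtain ⟨hxx, -, hyy⟩ := contDiff_second hf
  rw [show kk f = fun z => omega f z (fyy f z) (fxx f z) from funext (kk_eq f),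
    pd_omega hf hyy hxx, (pd_fyy f x).1, (pd_fxx hf x).1]
  have h₁ : ⟪cross (pd 0 (pd 0 f) x) (pd 1 f x) (fyy f x), fxx f x⟫ = 0 := by
    simp only [inner_R4]; simp [fxx, cross]; ring
  have h₂ : ⟪cross (pd 0 f x) (pd 0 (pd 1 f) x) (fyy f x), fxx f x⟫ = jx f x := by
    simp only [jx, inner_R4]; simp [fxy, cross]; ring
  linear_combination h₁ + h₂

theorem pd1_kk (hf : ContDiff ℝ ∞ f) (x : E2) : pd 1 (kk f) x =
    -jy f x + omega f x (pdm 0 3 f x) (fxx f x) + omega f x (fyy f x) (pdm 2 1 f x) := by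
  obtain ⟨hxx, -, hyy⟩ := contDiff_second hf
  rw [show kk f = fun z => omega f z (fyy f z) (fxx f z) from funext (kk_eq f),
    pd_omega hf hyy hxx, (pd_fyy f x).2, (pd_fxx hf x).2, pd_comm hf 1 0 x]
  have h₁ : ⟪cross (pd 0 (pd 1 f) x) (pd 1 f x) (fyy f x), fxx f x⟫ = -jy f x := by
    simp only [inner_R4, jy]; simp [fxy, cross]; ring
  have h₂ : ⟪cross (pd 0 f x) (pd 1 (pd 1 f) x) (fyy f x), fxx f x⟫ = 0 := by
    simp only [inner_R4]; simp [fyy, cross]; ring
  linear_combination h₁ + h₂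

theorem pd0_DD (hf : ContDiff ℝ ∞ f) (x : E2) : pd 0 (DD f) x =
    2 * (jy f x + omega f x (pdm 1 2 f x) (fxy f x) + omega f x (fyy f x) (pdm 2 1 f x)) := by
  obtain ⟨-, hxy, hyy⟩ := contDiff_second hf
  have hs : ContDiff ℝ ∞ fun z => omega f z (fyy f z) (fxy f z) := JetAt.E1.smooth hf
  rw [show DD f = fun z => 2 * omega f z (fyy f z) (fxy f z) from funext (DD_eq f),
    pd_const_mul _ hs, pd_omega hf hyy hxy, (pd_fyy f x).1, (pd_fxy hf x).1]
  have h₁ : ⟪cross (pd 0 (pd 0 f) x) (pd 1 f x) (fyy f x), fxy f x⟫ = jy f x := by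
    simp only [inner_R4, jy]; simp [fxx, cross]; ring
  have h₂ : ⟪cross (pd 0 f x) (pd 0 (pd 1 f) x) (fyy f x), fxy f x⟫ = 0 := by
    simp only [inner_R4]; simp [fxy, cross]; ring
  linear_combination 2 * h₁ + 2 * h₂

theorem pd1_DD (hf : ContDiff ℝ ∞ f) (x : E2) : pd 1 (DD f) x =
    2 * (omega f x (pdm 0 3 f x) (fxy f x) + omega f x (fyy f x) (pdm 1 2 f x)) := by
  obtain ⟨-, hxy, hyy⟩ := contDiff_second hf
  have hs : ContDiff ℝ ∞ fun z => omega f z (fyy f z) (fxy f z) := JetAt.E1.smooth hf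
  rw [show DD f = fun z => 2 * omega f z (fyy f z) (fxy f z) from funext (DD_eq f),
    pd_const_mul _ hs, pd_omega hf hyy hxy, (pd_fyy f x).2, (pd_fxy hf x).2, pd_comm hf 1 0 x]
  have h₁ : ⟪cross (pd 0 (pd 1 f) x) (pd 1 f x) (fyy f x), fxy f x⟫ = 0 := by
    simp only [inner_R4]; simp [fxy, cross]; ring
  have h₂ : ⟪cross (pd 0 f x) (pd 1 (pd 1 f) x) (fyy f x), fxy f x⟫ = 0 := by
    simp only [inner_R4]; simp [fyy, cross]; ring
  linear_combination 2 * h₁ + 2 * h₂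

end Vale.Agent.P205F
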