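import Vale.Agent.P205F.GoodProb.LinVar

/-!
# P205, GoodProb: variations that fix the tangent plane

If the first jets of `w` are tangential, `var` of every `ω(u,v)` is the trace times it plus the
variation of `u` and `v`. All the quantities of GoodAlg built from `ω` follow.
-/

namespace Vale.Agent.P205F

open scoped ContDiff RealInnerProductSpace

variable {f w : E2 → R4} {x : E2}

theorem gdet_smul_of_nv_zero {u : R4} (h : nv f x u = 0) :
    gdet f x • u = ⟪tanv f x 0, u⟫ • pd 0 f x + ⟪tanv f x 1, u⟫ • pd 1 f x := by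
  have h' := cross_cross (pd 0 f x) (pd 1 f x) u
  rw [show cross (pd 0 f x) (pd 1 f x) u = 0 from h, cross_zero₃] at h'
  have e : ⟪⟪pd 1 f x, pd 1 f x⟫ • pd 0 f x - ⟪pd 0 f x, pd 1 f x⟫ • pd 1 f x, u⟫ = ⟪tanv f x 0, u⟫ :=
    rfl
  have e' : ⟪⟪pd 0 f x, pd 0 f x⟫ • pd 1 f x - ⟪pd 0 f x, pd 1 f x⟫ • pd 0 f x, u⟫ = ⟪tanv f x 1, u⟫ :=
    rfl
  rw [e, e', ← gdet, neg_smul, add_assoc] at h'
  exact (neg_add_eq_zero.1 h'.symm)

/-- The trace of a tangential first jet. -/
noncomputable def tr (f w : E2 → R4) (x : E2) : ℝ :=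
  (⟪tanv f x 0, pd 0 w x⟫ + ⟪tanv f x 1, pd 1 w x⟫) / gdet f x

/-- The tangential case. -/
structure Tan (f w : E2 → R4) (x : E2) : Prop where
  smooth : ContDiff ℝ ∞ f
  smoothW : ContDiff ℝ ∞ w
  gdet_ne : gdet f x ≠ 0
  first : ∀ i : Fin 2, nv f x (pd i w x) = 0

theorem Tan.first_eq (h : Tan f w x) (i : Fin 2) :
    pd i w x = (⟪tanv f x 0, pd i w x⟫ / gdet f x) • pd 0 f x
      + (⟪tanv f x 1, pd i w x⟫ / gdet f x) • pd 1 f x := by
  have e := congrArg (fun v => (gdet f x)⁻¹ • v) (gdet_smul_of_nv_zero (h.first i))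
  simp only [smul_add, smul_smul, inv_mul_cancel₀ h.gdet_ne, one_smul] at e
  exact e.trans (by simp only [div_eq_inv_mul])

theorem JetFn.nv' {u : (E2 → R4) → E2 → R4} (hu : JetFn u) : JetFn fun f x => nv f x (u f x) :=
  JetFn.cross (JetFn.pd_self 0) (JetFn.pd_self 1) hu

/-- The variation of a normal product. -/
theorem Tan.var_nv (h : Tan f w x) {u : (E2 → R4) → E2 → R4} (hu : JetFn u) :
    var (fun f x => nv f x (u f x)) f w x =
      tr f w x • nv f x (u f x) + nv f x (var u f w x) := by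
  rw [show (fun f x => nv f x (u f x)) = fun f x => cross (pd 0 f x) (pd 1 f x) (u f x) from rfl,
    var_cross (JetFn.pd_self 0) (JetFn.pd_self 1) hu h.smooth h.smoothW, var_pd_self h.smooth h.smoothW,
    var_pd_self h.smooth h.smoothW]
  conv_lhs => rw [h.first_eq 0, h.first_eq 1]
  simp only [cross_add₁, cross_add₂, cross_smul₁, cross_smul₂, cross_self₁₂, smul_zero, zero_add,
    add_zero, tr, nv, add_div, add_smul]

theorem Tan.var_omega (h : Tan f w x) {u v : (E2 → R4) → E2 → R4} (hu : JetFn u) (hv : JetFn v) :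
    var (fun f x => omega f x (u f x) (v f x)) f w x =
      tr f w x * omega f x (u f x) (v f x) + omega f x (var u f w x) (v f x)
        + omega f x (u f x) (var v f w x) := by
  rw [show (fun f x => omega f x (u f x) (v f x)) = fun f x => ⟪nv f x (u f x), v f x⟫ from rfl,
    var_inner (JetFn.nv' hu) hv h.smooth h.smoothW, h.var_nv hu, inner_add_left, real_inner_smul_left]
  rfl

theorem Tan.var_gdet (h : Tan f w x) : var gdet f w x = 2 * tr f w x * gdet f x := by
  have hf := h.smooth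
  have hw := h.smoothW
  have g := fun a b : Fin 2 => (JetFn.pd_self a).inner (JetFn.pd_self b)
  rw [var_congr (d := fun f x => ⟪pd 0 f x, pd 0 f x⟫ * ⟪pd 1 f x, pd 1 f x⟫
      - ⟪pd 0 f x, pd 1 f x⟫ * ⟪pd 0 f x, pd 1 f x⟫) (fun f x _ => by simp only [gdet, pow_two]) hf hw,
    var_sub ((g 0 0).mul (g 1 1)) ((g 0 1).mul (g 0 1)) hf hw, var_mul (g 0 0) (g 1 1) hf hw,
    var_mul (g 0 1) (g 0 1) hf hw]
  simp only [var_inner (JetFn.pd_self _) (JetFn.pd_self _) hf hw, var_pd_self hf hw]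
  have e : ∀ i j : Fin 2, ⟪pd i w x, pd j f x⟫ = ⟪tanv f x 0, pd i w x⟫ / gdet f x * ⟪pd 0 f x, pd j f x⟫
      + ⟪tanv f x 1, pd i w x⟫ / gdet f x * ⟪pd 1 f x, pd j f x⟫ := fun i j => by
    conv_lhs => rw [h.first_eq i]
    rw [inner_add_left, real_inner_smul_left, real_inner_smul_left]
  simp only [real_inner_comm (pd _ w x) (pd _ f x), e, tr, real_inner_comm (pd 0 f x) (pd 1 f x)]
  simp only [gdet]
  ring

/-- Variations of the second derivatives. -/
theorem var_second (hf : ContDiff ℝ ∞ f) (hw : ContDiff ℝ ∞ w) :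
    var (fun f x => fxx f x) f w x = fxx w x ∧ var (fun f x => fxy f x) f w x = fxy w x ∧
      var (fun f x => fyy f x) f w x = fyy w x :=
  ⟨var_pd2_self hf hw 0 0, var_pd2_self hf hw 0 1, var_pd2_self hf hw 1 1⟩

theorem Tan.var_nu1 (h : Tan f w x) :
    var (fun f x => nu1 f x) f w x = tr f w x • nu1 f x + nv f x (fyy w x) := by
  rw [show (fun f x => nu1 f x) = fun f x => nv f x (fyy f x) from rfl, h.var_nv JetFn.fyy,
    (var_second h.smooth h.smoothW).2.2]
  rfl

theorem Tan.var_kk (h : Tan f w x) : var kk f w x = tr f w x * kk f x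
    + omega f x (fyy w x) (fxx f x) + ⟪nu1 f x, fxx w x⟫ := by
  obtain ⟨a, -, c⟩ := var_second (x := x) h.smooth h.smoothW
  rw [var_congr (fun f x _ => kk_eq f x) h.smooth h.smoothW, h.var_omega JetFn.fyy JetFn.fxx, a, c,
    ← kk_eq]
  rfl

theorem Tan.var_DD (h : Tan f w x) : var DD f w x = tr f w x * DD f x
    + 2 * omega f x (fyy w x) (fxy f x) + 2 * ⟪nu1 f x, fxy w x⟫ := by
  obtain ⟨-, b, c⟩ := var_second (x := x) h.smooth h.smoothW
  rw [var_congr (fun f x _ => DD_eq f x) h.smooth h.smoothW,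
    var_mul (JetFn.const (2 : ℝ)) (show JetFn fun f x => omega f x (fyy f x) (fxy f x) from JetFn.E1)
      h.smooth h.smoothW, var_const, h.var_omega JetFn.fyy JetFn.fxy, b, c, DD_eq]
  show _ = _ + 2 * ⟪nv f x (fyy f x), fxy w x⟫
  simp only [omega_eq]
  ring

theorem Tan.var_D2 (h : Tan f w x) : var D2 f w x = tr f w x * D2 f x
    + omega f x (fxx w x) (fxy f x) + omega f x (fxx f x) (fxy w x) := by
  obtain ⟨a, b, -⟩ := var_second (x := x) h.smooth h.smoothW
  rw [show D2 = fun f x => omega f x (fxx f x) (fxy f x) from rfl,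
    h.var_omega JetFn.fxx JetFn.fxy, a, b]

theorem Tan.var_bb (h : Tan f w x) : var bb f w x =
    2 * tr f w x * bb f x + 2 * ⟪nu2 f x, fyy w x⟫ := by
  rw [var_congr (fun f x _ => bb_eq f x) h.smooth h.smoothW,
    var_neg (JetFn.nu1.inner JetFn.nu1) h.smooth h.smoothW,
    var_inner JetFn.nu1 JetFn.nu1 h.smooth h.smoothW, h.var_nu1, bb_eq,
    real_inner_comm (nu1 f x) (tr f w x • nu1 f x + nv f x (fyy w x))]
  simp only [inner_add_right, real_inner_smul_right]
  rw [real_inner_comm (nv f x (fyy w x)) (nu1 f x), inner_nv_nv, ← nu2_eq]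
  ring

theorem Tan.var_dd (h : Tan f w x) : var dd f w x = 2 * tr f w x * dd f x
    - ⟪nv f x (fyy w x), nv f x (fxx f x)⟫ + ⟪nu2 f x, fxx w x⟫ := by
  rw [var_congr (fun f x _ => dd_eq f x) h.smooth h.smoothW,
    var_neg (JetFn.nu1.inner (JetFn.nv' JetFn.fxx)) h.smooth h.smoothW,
    var_inner JetFn.nu1 (JetFn.nv' JetFn.fxx) h.smooth h.smoothW, h.var_nu1, h.var_nv JetFn.fxx,
    (var_second h.smooth h.smoothW).1, dd_eq]
  simp only [inner_add_left, inner_add_right, real_inner_smul_left, real_inner_smul_right]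
  rw [real_inner_comm (nv f x (fxx w x)) (nu1 f x), inner_nv_nv f x (fxx w x) (nu1 f x), ← nu2_eq]
  ring

theorem Tan.var_cc (h : Tan f w x) : var cc f w x = 2 * tr f w x * cc f x
    - ⟪nv f x (fyy w x), nv f x (fxy f x)⟫ + ⟪nu2 f x, fxy w x⟫ := by
  rw [var_congr (fun f x _ => cc_eq f x) h.smooth h.smoothW,
    var_neg (JetFn.nu1.inner (JetFn.nv' JetFn.fxy)) h.smooth h.smoothW,
    var_inner JetFn.nu1 (JetFn.nv' JetFn.fxy) h.smooth h.smoothW, h.var_nu1, h.var_nv JetFn.fxy,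
    (var_second h.smooth h.smoothW).2.1, cc_eq]
  simp only [inner_add_left, inner_add_right, real_inner_smul_left, real_inner_smul_right]
  rw [real_inner_comm (nv f x (fxy w x)) (nu1 f x), inner_nv_nv f x (fxy w x) (nu1 f x), ← nu2_eq]
  ring

theorem Tan.var_Del (h : Tan f w x) : var Del f w x =
    6 * tr f w x * Del f x + 4 * gdet f x * bb f x * ⟪nu2 f x, fyy w x⟫ := by
  rw [var_congr (d := fun f x => gdet f x * (bb f x * bb f x))
      (fun f x _ => by simp only [Del, pow_two]) h.smooth h.smoothW,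
    var_mul JetFn.gdet (JetFn.bb.mul JetFn.bb) h.smooth h.smoothW,
    var_mul JetFn.bb JetFn.bb h.smooth h.smoothW, h.var_gdet, h.var_bb, Del]
  ring

theorem Tan.var_A10 (h : Tan f w x) : var A10 f w x = 6 * tr f w x * A10 f x
    + gdet f x * (2 * ⟪nu2 f x, fyy w x⟫ * dd f x
      + bb f x * (⟪nu2 f x, fxx w x⟫ - ⟪nv f x (fyy w x), nv f x (fxx f x)⟫)) := by
  rw [show A10 = fun f x => gdet f x * bb f x * dd f x from rfl,
    var_mul (JetFn.gdet.mul JetFn.bb) JetFn.dd h.smooth h.smoothW,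
    var_mul JetFn.gdet JetFn.bb h.smooth h.smoothW, h.var_gdet, h.var_bb, h.var_dd]
  ring

theorem Tan.var_A11 (h : Tan f w x) : var A11 f w x = 6 * tr f w x * A11 f x
    + 2 * gdet f x * (2 * ⟪nu2 f x, fyy w x⟫ * cc f x
      + bb f x * (⟪nu2 f x, fxy w x⟫ - ⟪nv f x (fyy w x), nv f x (fxy f x)⟫)) := by
  rw [show A11 = fun f x => 2 * gdet f x * bb f x * cc f x from rfl,
    var_mul (((JetFn.const (2 : ℝ)).mul JetFn.gdet).mul JetFn.bb) JetFn.cc h.smooth h.smoothW,
    var_mul ((JetFn.const (2 : ℝ)).mul JetFn.gdet) JetFn.bb h.smooth h.smoothW,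
    var_mul (JetFn.const (2 : ℝ)) JetFn.gdet h.smooth h.smoothW, var_const, h.var_gdet, h.var_bb,
    h.var_cc]
  ring

/-- Rotating a normal product onto `ν₁, ν₂`. -/
theorem nu1_split (f : E2 → R4) (x : E2) (u : R4) : ⟪nu1 f x, nu1 f x⟫ • nv f x u =
    ⟪nv f x u, nu1 f x⟫ • nu1 f x + ⟪u, nu1 f x⟫ • nu2 f x := by
  have h := congrArg (nv f x)
    (five (pd 0 f x) (pd 1 f x) u (fyy f x) (nu1 f x))
  simp only [nv, cross_add₃, cross_sub₃, cross_smul₃, cross_self₁₃, cross_self₂₃, cross_zero₃,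
    smul_zero, sub_zero, zero_add] at h
  have e : ⟪cross (pd 0 f x) (pd 1 f x) u, fyy f x⟫ = -⟪u, nu1 f x⟫ := by
    rw [cross_swap, real_inner_comm]; rfl
  rw [e] at h
  change ⟪nu1 f x, nu1 f x⟫ • nv f x u - ⟪nv f x u, nu1 f x⟫ • nu1 f x
    + -⟪u, nu1 f x⟫ • nu2 f x = 0 at h
  linear_combination (norm := module) h

end Vale.Agent.P205F
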