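import Vale.Agent.P205F.GoodProb.Data
import Vale.Agent.P205F.GoodProb.Var

/-!
# P205, GoodProb: bounds at a point

The Gram determinant is bounded below; quantities built from the first derivatives of the metric
(the trace, `Γ`, Gauss' expression) vary as little as `Lin` does.
-/

namespace Vale.Agent.P205F

open scoped ContDiff RealInnerProductSpace
open Filter

variable {b : Bool} {C : ℝ} {A M : ℕ} {f w : E2 → R4} {x : E2}

theorem gdet_mul (f : E2 → R4) (x : E2) :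
    ⟪pd 0 f x, pd 0 f x⟫ * gdet f x =
      ‖⟪pd 0 f x, pd 1 f x⟫ • pd 0 f x - ⟪pd 0 f x, pd 0 f x⟫ • pd 1 f x‖ ^ 2 := by
  rw [← real_inner_self_eq_norm_sq]
  simp only [inner_sub_left, inner_sub_right, real_inner_smul_left, real_inner_smul_right, gdet,
    real_inner_comm (pd 0 f x) (pd 1 f x)]
  ring

theorem Pt.gdet_ge (h : Pt b C A M f x) : (C ^ 4)⁻¹ ≤ gdet f x := by
  have hC : 0 < C := lt_of_lt_of_le one_pos h.one_le
  have h0 := h.imm (ev 0)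
  have he : ‖(ev 0 : E2)‖ = 1 := by simp [ev]
  rw [he, show fderiv ℝ f x (ev 0) = pd 0 f x from rfl] at h0
  have ha : (C ^ 2)⁻¹ ≤ ⟪pd 0 f x, pd 0 f x⟫ := by
    rw [real_inner_self_eq_norm_sq, inv_le_iff_one_le_mul₀ (by positivity)]
    nlinarith
  set v : E2 := ⟪pd 0 f x, pd 1 f x⟫ • ev 0 - ⟪pd 0 f x, pd 0 f x⟫ • ev 1 with hv
  have h1 := h.imm v
  have hDv : fderiv ℝ f x v =
      ⟪pd 0 f x, pd 1 f x⟫ • pd 0 f x - ⟪pd 0 f x, pd 0 f x⟫ • pd 1 f x := by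
    rw [hv, map_sub, map_smul, map_smul]; rfl
  rw [hDv] at h1
  have h2 : ⟪pd 0 f x, pd 0 f x⟫ ≤ ‖v‖ := by
    refine le_trans ?_ (PiLp.norm_apply_le v 1)
    simp [hv, ev]
  have h3 := gdet_mul f x
  have ha0 : 0 < ⟪pd 0 f x, pd 0 f x⟫ := lt_of_lt_of_le (by positivity) ha
  have h4 : ⟪pd 0 f x, pd 0 f x⟫ ≤ C * ‖⟪pd 0 f x, pd 1 f x⟫ • pd 0 f x
      - ⟪pd 0 f x, pd 0 f x⟫ • pd 1 f x‖ := h2.trans h1
  have h5 : ⟪pd 0 f x, pd 0 f x⟫ ^ 2 ≤ C ^ 2 * (⟪pd 0 f x, pd 0 f x⟫ * gdet f x) := by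
    rw [h3, ← mul_pow]; exact pow_le_pow_left₀ ha0.le h4 2
  have h6 : ⟪pd 0 f x, pd 0 f x⟫ ≤ C ^ 2 * gdet f x :=
    le_of_mul_le_mul_left (by linarith [h5]) ha0
  rw [show (C ^ 4)⁻¹ = (C ^ 2)⁻¹ * (C ^ 2)⁻¹ by ring, inv_mul_le_iff₀ (by positivity)]
  exact ha.trans h6

theorem Pt.gdet_pos (h : Pt b C A M f x) : 0 < gdet f x :=
  lt_of_lt_of_le (inv_pos.2 (pow_pos (lt_of_lt_of_le one_pos h.one_le) 4)) h.gdet_ge

theorem Pt.tan {A' : ℕ} {ζ : ℝ} {τ : ℕ → ℕ → R4} (h : Pt b C A M f x)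
    (hw : SlowDir b C A' ζ M f x τ w) : Tan f w x :=
  ⟨h.smooth, hw.smooth, h.gdet_pos.ne', hw.first⟩

theorem Pt.norm_pd (h : Pt b C A M f x) (i : Fin 2) : ‖pd i f x‖ ≤ C := by
  obtain rfl | rfl : i = 0 ∨ i = 1 := by omega
  · exact (h.low 1 0 (by omega)).trans_eq (by simp)
  · exact (h.low 0 1 (by omega)).trans_eq (by simp)

theorem Pt.norm_second (h : Pt b C A M f x) :
    ‖fxx f x‖ ≤ C * M ∧ ‖fxy f x‖ ≤ C ∧ ‖fyy f x‖ ≤ C :=
  ⟨(h.low 2 0 (by omega)).trans_eq (by simp), (h.low 1 1 (by omega)).trans_eq (by simp),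
    (h.low 0 2 (by omega)).trans_eq (by simp)⟩

/-- The first jet of the metric. -/
noncomputable def mjet (f : E2 → R4) (x : E2) : Fin 9 → ℝ :=
  ![mk3 0 f x, mk3 1 f x, mk3 2 f x, pd 0 (mk3 0 f) x, pd 0 (mk3 1 f) x, pd 0 (mk3 2 f) x,
    pd 1 (mk3 0 f) x, pd 1 (mk3 1 f) x, pd 1 (mk3 2 f) x]

theorem JetAt.mjet : JetAt 2 P205F.mjet := by
  have h : ∀ j : Fin 9, JetAt 2 fun f x => P205F.mjet f x j := by
    intro j
    fin_cases j
    · exact (JetAt.mk3 0).mono one_le_two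
    · exact (JetAt.mk3 1).mono one_le_two
    · exact (JetAt.mk3 2).mono one_le_two
    · exact (JetAt.mk3 0).pd 0
    · exact (JetAt.mk3 1).pd 0
    · exact (JetAt.mk3 2).pd 0
    · exact (JetAt.mk3 0).pd 1
    · exact (JetAt.mk3 1).pd 1
    · exact (JetAt.mk3 2).pd 1
  choose g hg e using h
  exact ⟨fun z => ∑ i, g i z • (Pi.single i (1 : ℝ) : Fin 9 → ℝ),
    Function.HasTemperateGrowth.sum fun i _ => (hg i).smul (Function.HasTemperateGrowth.const _),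
    fun f x hf => funext fun i => by simp [← e _ f x hf, Pi.single_apply]⟩

theorem var_apply {ι : Type*} [Fintype ι] {c : (E2 → R4) → E2 → ι → ℝ} (hc : JetFn c)
    (hf : ContDiff ℝ ∞ f) (hw : ContDiff ℝ ∞ w) (i : ι) :
    var c f w x i = var (fun f x => c f x i) f w x :=
  (var_clm hc hf hw (ContinuousLinearMap.proj (R := ℝ) (φ := fun _ : ι => ℝ) i)).symm

theorem norm_var_mjet (hf : ContDiff ℝ ∞ f) (hw : ContDiff ℝ ∞ w) {ζ : ℝ}
    (h : ∀ i j, i + j ≤ 1 → ‖pdm i j (Lin f w) x‖ ≤ ζ) : ‖var mjet f w x‖ ≤ ζ := by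
  have hζ : 0 ≤ ζ := (norm_nonneg _).trans (h 0 0 (by omega))
  refine (pi_norm_le_iff_of_nonneg hζ).2 fun j => ?_
  rw [var_apply JetAt.mjet.jetFn hf hw, Real.norm_eq_abs]
  fin_cases j
  · exact abs_var_pdm_mk3 hf hw (i := 0) (j := 0) (h 0 0 (by omega)) 0
  · exact abs_var_pdm_mk3 hf hw (i := 0) (j := 0) (h 0 0 (by omega)) 1
  · exact abs_var_pdm_mk3 hf hw (i := 0) (j := 0) (h 0 0 (by omega)) 2
  · exact abs_var_pdm_mk3 hf hw (i := 1) (j := 0) (h 1 0 (by omega)) 0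
  · exact abs_var_pdm_mk3 hf hw (i := 1) (j := 0) (h 1 0 (by omega)) 1
  · exact abs_var_pdm_mk3 hf hw (i := 1) (j := 0) (h 1 0 (by omega)) 2
  · exact abs_var_pdm_mk3 hf hw (i := 0) (j := 1) (h 0 1 (by omega)) 0
  · exact abs_var_pdm_mk3 hf hw (i := 0) (j := 1) (h 0 1 (by omega)) 1
  · exact abs_var_pdm_mk3 hf hw (i := 0) (j := 1) (h 0 1 (by omega)) 2

/-- Functions of the first jet of the metric vary as little as `Lin`. -/
theorem var_metric_small {G : (Fin 9 → ℝ) → ℝ} (hG : G.HasTemperateGrowth) (e : ℕ) :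
    ∃ E : ℕ, ∀ᶠ M : ℕ in atTop, ∀ f w x, ∀ ζ : ℝ, ContDiff ℝ ∞ f → ContDiff ℝ ∞ w →
      ‖jet 2 f x‖ ≤ (M : ℝ) ^ e → (∀ i j, i + j ≤ 1 → ‖pdm i j (Lin f w) x‖ ≤ ζ) →
      |var (fun f x => G (mjet f x)) f w x| ≤ (M : ℝ) ^ E * ζ := by
  obtain ⟨A₁, h₁⟩ := JetAt.mjet.bound e
  obtain ⟨A₂, h₂⟩ := temperate_bound (hasTemperateGrowth_fderiv hG) A₁
  refine ⟨A₂, ?_⟩
  filter_upwards [h₁, h₂] with M h₁ h₂ f w x ζ hf hw hj hL
  have hv := norm_var_mjet hf hw hL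
  rw [var_comp JetAt.mjet.jetFn hf hw (hG.1.differentiable (by simp)), ← Real.norm_eq_abs]
  exact (ContinuousLinearMap.le_opNorm _ _).trans
    (mul_le_mul (h₂ _ (h₁ f x hf hj).1) hv (norm_nonneg _) (by positivity))

/-- The Gram determinant from the metric. -/
def gdetM (m : Fin 9 → ℝ) : ℝ := m 0 * m 2 - m 1 * m 1
/-- `Γ^x_yy` times the Gram determinant, from the metric. -/
noncomputable def gam02M (m : Fin 9 → ℝ) : ℝ := m 2 * (m 7 - m 5 / 2) - m 1 * (m 8 / 2)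
/-- The tangential part of Gauss' expression, from the metric. -/
noncomputable def gaussM (m : Fin 9 → ℝ) : ℝ :=
  m 0 * ((m 4 - m 6 / 2) * (m 8 / 2) - m 5 / 2 * (m 5 / 2))
    + m 2 * (m 3 / 2 * (m 7 - m 5 / 2) - m 6 / 2 * (m 6 / 2))
    - m 1 * (m 3 / 2 * (m 8 / 2) + (m 7 - m 5 / 2) * (m 4 - m 6 / 2) - 2 * (m 6 / 2 * (m 5 / 2)))

theorem temperate_gdetM : gdetM.HasTemperateGrowth := by
  have c : ∀ i : Fin 9, Function.HasTemperateGrowth fun z : Fin 9 → ℝ => z i := fun i =>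
    (ContinuousLinearMap.proj (R := ℝ) (φ := fun _ : Fin 9 => ℝ) i).hasTemperateGrowth
  exact ((c 0).mul (c 2)).sub ((c 1).mul (c 1))

theorem temperate_gam02M : gam02M.HasTemperateGrowth := by
  have c : ∀ i : Fin 9, Function.HasTemperateGrowth fun z : Fin 9 → ℝ => z i := fun i =>
    (ContinuousLinearMap.proj (R := ℝ) (φ := fun _ : Fin 9 => ℝ) i).hasTemperateGrowth
  have d : ∀ i : Fin 9, Function.HasTemperateGrowth fun z : Fin 9 → ℝ => z i / 2 := fun i => by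
    simp only [div_eq_mul_inv]; exact (c i).mul (.const _)
  exact ((c 2).mul ((c 7).sub (d 5))).sub ((c 1).mul (d 8))

theorem temperate_gaussM : gaussM.HasTemperateGrowth := by
  have c : ∀ i : Fin 9, Function.HasTemperateGrowth fun z : Fin 9 → ℝ => z i := fun i =>
    (ContinuousLinearMap.proj (R := ℝ) (φ := fun _ : Fin 9 => ℝ) i).hasTemperateGrowth
  have d : ∀ i : Fin 9, Function.HasTemperateGrowth fun z : Fin 9 → ℝ => z i / 2 := fun i => by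
    simp only [div_eq_mul_inv]; exact (c i).mul (.const _)
  exact (((c 0).mul ((((c 4).sub (d 6)).mul (d 8)).sub ((d 5).mul (d 5)))).add
    ((c 2).mul (((d 3).mul ((c 7).sub (d 5))).sub ((d 6).mul (d 6))))).sub
    ((c 1).mul ((((d 3).mul (d 8)).add (((c 7).sub (d 5)).mul ((c 4).sub (d 6)))).sub
      ((Function.HasTemperateGrowth.const (2 : ℝ)).mul ((d 6).mul (d 5)))))

theorem gdet_eqM (f : E2 → R4) (x : E2) : gdet f x = gdetM (mjet f x) := by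
  simp [gdet, gdetM, mjet, mk3, met, pow_two]

theorem gam02_eqM (hf : ContDiff ℝ ∞ f) : gam f x 0 2 = gam02M (mjet f x) := by
  obtain ⟨-, -, c, -, -, e⟩ := inner_first_second hf x
  simp [gam, tanv, gam02M, mjet, inner_sub_left, real_inner_smul_left, c, e, mk3, met]

theorem gauss_eqM (hf : ContDiff ℝ ∞ f) : gdet f x * gaussE f x =
    -dd f x - ⟪nv f x (fxy f x), nv f x (fxy f x)⟫ + gaussM (mjet f x) := by
  obtain ⟨a, b', c, d, e, g⟩ := inner_first_second hf x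
  rw [gdet_gaussE, dd_eq, real_inner_comm (nu1 f x) (nv f x (fxx f x)), a, b', c, d, e, g]
  simp [gaussM, mjet, mk3, met]
  ring

/-- The trace is as small as `Lin`. -/
theorem tr_small (e : ℕ) : ∃ E : ℕ, ∀ᶠ M : ℕ in atTop, ∀ b C A f w x, ∀ ζ : ℝ,
    Pt b C A M f x → C ≤ M → Tan f w x → ‖jet 2 f x‖ ≤ (M : ℝ) ^ e →
    (∀ i j, i + j ≤ 1 → ‖pdm i j (Lin f w) x‖ ≤ ζ) → |tr f w x| ≤ (M : ℝ) ^ E * ζ := by
  obtain ⟨E, hE⟩ := var_metric_small temperate_gdetM e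
  refine ⟨E + 4, ?_⟩
  filter_upwards [hE] with M hE b C A f w x ζ hP hC hT hj hL
  have h := hE f w x ζ hP.smooth hT.smoothW hj hL
  rw [← var_congr (fun f x _ => gdet_eqM f x) hP.smooth hT.smoothW, hT.var_gdet, abs_mul,
    abs_mul, abs_two, abs_of_pos hP.gdet_pos] at h
  have hC0 : 0 < C := lt_of_lt_of_le one_pos hP.one_le
  have hG : ((M : ℝ) ^ 4)⁻¹ ≤ gdet f x :=
    (inv_anti₀ (by positivity) (pow_le_pow_left₀ hC0.le hC 4)).trans hP.gdet_ge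
  have hM0 : (0 : ℝ) < M := lt_of_lt_of_le hC0 hC
  have h2 : |tr f w x| * ((M : ℝ) ^ 4)⁻¹ ≤ (M : ℝ) ^ E * ζ :=
    le_trans (by nlinarith [abs_nonneg (tr f w x), mul_le_mul_of_nonneg_left hG (abs_nonneg (tr f w x)),
      hP.gdet_pos]) h
  rw [← div_eq_mul_inv, div_le_iff₀ (by positivity)] at h2
  exact h2.trans_eq (by rw [pow_add]; ring)

end Vale.Agent.P205F
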