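import Vale.Agent.P205F.GoodAlg.G2Limit

/-!
# P205, GoodProb: directional derivatives of the two polynomials of G2

`limZ` (the minor at `N = 0`) and `qfZ` are bihomogeneous in `(δ, A₁₀, A₁₁)` and the four third
jets. Their iterated derivatives `hL j`, `hQ j` are bihomogeneous too (Euler's identity), and the
last ones are the nonzero constants `-32 · 8! · 2 · δ^18` and `8 δ²`.
-/

namespace Vale.Agent.P205F

open scoped ContDiff Topology

/-- The seven variables. -/
abbrev Z7 : Type := Fin 7 → ℝ

/-- As a `ZVar`. -/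
def z7var (z : Z7) : ZVar := ⟨z 0, z 1, z 2, z 3, z 4, z 5, z 6⟩

/-- The minor at `N = 0`. -/
def limZ (z : Z7) : ℝ := (z7var z).lim013

/-- `Qf` with `t = 0`. -/
def qfZ (z : Z7) : ℝ := z 0 * (z 0 * (z 5 * z 5) - z 2 * (z 5 * z 6) + z 1 * (z 6 * z 6))

/-- The two scalings. -/
def sc (μ t : ℝ) (z : Z7) : Z7 := ![μ * z 0, μ * z 1, μ * z 2, t * z 3, t * z 4, t * z 5, t * z 6]

/-- Weights of the trace: six and one. -/
def eul (z : Z7) : Z7 := ![6 * z 0, 6 * z 1, 6 * z 2, z 3, z 4, z 5, z 6]

/-- The direction of `∂x³`. -/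
def eP : Z7 := ![0, 0, 0, 1, 0, 0, 0]
/-- The direction of `∂x²∂y`. -/
def eQ : Z7 := ![0, 0, 0, 0, 1, 2, 0]

/-- Bihomogeneous. -/
def Hom (m k : ℕ) (h : Z7 → ℝ) : Prop :=
  ∀ μ t : ℝ, 0 < t → ∀ z, h (sc μ t z) = μ ^ m * t ^ k * h z

/-- A directional derivative. -/
noncomputable def dstep (e : Z7) (h : Z7 → ℝ) : Z7 → ℝ := fun z => fderiv ℝ h z e

/-- Derivatives of `limZ`: eight times in `eP`, then in `eQ`. -/
noncomputable def hL : ℕ → Z7 → ℝ
  | 0 => limZ
  | j + 1 => dstep (if j < 8 then eP else eQ) (hL j)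

/-- Derivatives of `qfZ`. -/
noncomputable def hQ : ℕ → Z7 → ℝ
  | 0 => qfZ
  | j + 1 => dstep eQ (hQ j)

theorem hom_limZ : Hom 18 10 limZ := by
  intro μ t _ z
  set v := z7var z with hv
  set u : ZVar := z7var (sc μ t z) with hu
  have e : u = ⟨μ * v.δ, μ * v.a, μ * v.b, t * v.kx, t * v.ky, t * v.Dx, t * v.Dy⟩ := by
    simp [hu, hv, z7var, sc]
  have g0 : u.g0 = μ ^ 3 * t * v.g0 := by rw [e]; simp only [ZVar.g0]; ring
  have g1 : u.g1 = μ ^ 3 * t * v.g1 := by rw [e]; simp only [ZVar.g1]; ring
  have p0 : u.pu0 = μ ^ 4 * t ^ 2 * v.pu0 := by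
    simp only [ZVar.pu0, g0, g1]; rw [e]; ring
  have p1 : u.pu1 = μ ^ 4 * t ^ 2 * v.pu1 := by
    simp only [ZVar.pu1, g0, g1]; rw [e]; ring
  have p2 : u.pv0 = μ ^ 4 * t ^ 2 * v.pv0 := by
    simp only [ZVar.pv0, g0, g1]; rw [e]; ring
  have p3 : u.pv1 = μ ^ 4 * t ^ 2 * v.pv1 := by
    simp only [ZVar.pv1, g0, g1]; rw [e]; ring
  have q0 : u.q0 = μ ^ 4 * t ^ 2 * v.q0 := p1
  have q1 : u.q1 = μ ^ 4 * t ^ 2 * v.q1 := by simp only [ZVar.q1, p0, p3]; ring
  have q2 : u.q2 = μ ^ 4 * t ^ 2 * v.q2 := by simp only [ZVar.q2, p2]; ring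
  have r0 : u.ru0 = μ ^ 5 * t ^ 3 * v.ru0 := by
    simp only [ZVar.ru0, q0, q1]; rw [e]; ring
  have r1 : u.ru1 = μ ^ 5 * t ^ 3 * v.ru1 := by
    simp only [ZVar.ru1, q0, q1]; rw [e]; ring
  have r2 : u.rv0 = μ ^ 5 * t ^ 3 * v.rv0 := by
    simp only [ZVar.rv0, q1, q2]; rw [e]; ring
  have r3 : u.rv1 = μ ^ 5 * t ^ 3 * v.rv1 := by
    simp only [ZVar.rv1, q1, q2]; rw [e]; ring
  show u.lim013 = μ ^ 18 * t ^ 10 * v.lim013
  simp only [ZVar.lim013, q0, q1, q2, p0, p1, p2, p3, r0, r1, r2, r3]
  ring

theorem hom_qfZ : Hom 2 2 qfZ := by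
  intro μ t _ z
  simp [qfZ, sc]
  ring

theorem tg_mul' {u v : Z7 → ℝ} (hu : Function.HasTemperateGrowth u)
    (hv : Function.HasTemperateGrowth v) : Function.HasTemperateGrowth fun z => u z * v z :=
  hu.mul hv
theorem tg_add' {u v : Z7 → ℝ} (hu : Function.HasTemperateGrowth u)
    (hv : Function.HasTemperateGrowth v) : Function.HasTemperateGrowth fun z => u z + v z :=
  hu.add hv
theorem tg_sub' {u v : Z7 → ℝ} (hu : Function.HasTemperateGrowth u)
    (hv : Function.HasTemperateGrowth v) : Function.HasTemperateGrowth fun z => u z - v z :=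
  hu.sub hv
theorem tg_neg' {u : Z7 → ℝ} (hu : Function.HasTemperateGrowth u) :
    Function.HasTemperateGrowth fun z => -u z :=
  hu.neg

theorem temperate_limZ : Function.HasTemperateGrowth limZ := by
  have c : ∀ i : Fin 7, Function.HasTemperateGrowth fun z : Z7 => z i := fun i =>
    (ContinuousLinearMap.proj (R := ℝ) (φ := fun _ : Fin 7 => ℝ) i).hasTemperateGrowth
  have g0 : Function.HasTemperateGrowth fun z : Z7 => (z7var z).g0 := by
    simp only [ZVar.g0, z7var] at *
    repeat' first | assumption | exact c _ | apply tg_add' | apply tg_sub' | apply tg_neg'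
                  | apply tg_mul' | exact .const _
  have g1 : Function.HasTemperateGrowth fun z : Z7 => (z7var z).g1 := by
    simp only [ZVar.g1, z7var] at *
    repeat' first | assumption | exact c _ | apply tg_add' | apply tg_sub' | apply tg_neg'
                  | apply tg_mul' | exact .const _
  have pu0 : Function.HasTemperateGrowth fun z : Z7 => (z7var z).pu0 := by
    simp only [ZVar.pu0, z7var] at *
    repeat' first | assumption | exact c _ | apply tg_add' | apply tg_sub' | apply tg_neg'
                  | apply tg_mul' | exact .const _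
  have pu1 : Function.HasTemperateGrowth fun z : Z7 => (z7var z).pu1 := by
    simp only [ZVar.pu1, z7var] at *
    repeat' first | assumption | exact c _ | apply tg_add' | apply tg_sub' | apply tg_neg'
                  | apply tg_mul' | exact .const _
  have pv0 : Function.HasTemperateGrowth fun z : Z7 => (z7var z).pv0 := by
    simp only [ZVar.pv0, z7var] at *
    repeat' first | assumption | exact c _ | apply tg_add' | apply tg_sub' | apply tg_neg'
                  | apply tg_mul' | exact .const _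
  have pv1 : Function.HasTemperateGrowth fun z : Z7 => (z7var z).pv1 := by
    simp only [ZVar.pv1, z7var] at *
    repeat' first | assumption | exact c _ | apply tg_add' | apply tg_sub' | apply tg_neg'
                  | apply tg_mul' | exact .const _
  have q0 : Function.HasTemperateGrowth fun z : Z7 => (z7var z).q0 := by
    simp only [ZVar.q0, z7var] at *
    repeat' first | assumption | exact c _ | apply tg_add' | apply tg_sub' | apply tg_neg'
                  | apply tg_mul' | exact .const _
  have q1 : Function.HasTemperateGrowth fun z : Z7 => (z7var z).q1 := by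
    simp only [ZVar.q1, z7var] at *
    repeat' first | assumption | exact c _ | apply tg_add' | apply tg_sub' | apply tg_neg'
                  | apply tg_mul' | exact .const _
  have q2 : Function.HasTemperateGrowth fun z : Z7 => (z7var z).q2 := by
    simp only [ZVar.q2, z7var] at *
    repeat' first | assumption | exact c _ | apply tg_add' | apply tg_sub' | apply tg_neg'
                  | apply tg_mul' | exact .const _
  have ru0 : Function.HasTemperateGrowth fun z : Z7 => (z7var z).ru0 := by
    simp only [ZVar.ru0, z7var] at *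
    repeat' first | assumption | exact c _ | apply tg_add' | apply tg_sub' | apply tg_neg'
                  | apply tg_mul' | exact .const _
  have ru1 : Function.HasTemperateGrowth fun z : Z7 => (z7var z).ru1 := by
    simp only [ZVar.ru1, z7var] at *
    repeat' first | assumption | exact c _ | apply tg_add' | apply tg_sub' | apply tg_neg'
                  | apply tg_mul' | exact .const _
  have rv0 : Function.HasTemperateGrowth fun z : Z7 => (z7var z).rv0 := by
    simp only [ZVar.rv0, z7var] at *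
    repeat' first | assumption | exact c _ | apply tg_add' | apply tg_sub' | apply tg_neg'
                  | apply tg_mul' | exact .const _
  have rv1 : Function.HasTemperateGrowth fun z : Z7 => (z7var z).rv1 := by
    simp only [ZVar.rv1, z7var] at *
    repeat' first | assumption | exact c _ | apply tg_add' | apply tg_sub' | apply tg_neg'
                  | apply tg_mul' | exact .const _
  unfold limZ
  simp only [ZVar.lim013, z7var] at *
  repeat' first | assumption | exact c _ | apply tg_add' | apply tg_sub' | apply tg_neg'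
                | apply tg_mul' | exact .const _

theorem temperate_qfZ : Function.HasTemperateGrowth qfZ := by
  have c : ∀ i : Fin 7, Function.HasTemperateGrowth fun z : Z7 => z i := fun i =>
    (ContinuousLinearMap.proj (R := ℝ) (φ := fun _ : Fin 7 => ℝ) i).hasTemperateGrowth
  unfold qfZ
  repeat' first | assumption | exact c _ | apply tg_add' | apply tg_sub' | apply tg_neg'
                | apply tg_mul'

theorem temperate_dstep {h : Z7 → ℝ} (hh : Function.HasTemperateGrowth h) (e : Z7) :
    Function.HasTemperateGrowth (dstep e h) :=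
  (ContinuousLinearMap.apply ℝ ℝ e).hasTemperateGrowth.comp
    (hasTemperateGrowth_fderiv hh)

theorem temperate_hL : ∀ j, Function.HasTemperateGrowth (hL j)
  | 0 => temperate_limZ
  | j + 1 => temperate_dstep (temperate_hL j) _

theorem temperate_hQ : ∀ j, Function.HasTemperateGrowth (hQ j)
  | 0 => temperate_qfZ
  | j + 1 => temperate_dstep (temperate_hQ j) _

/-- The scaling as a linear map. -/
noncomputable def scL (μ t : ℝ) : Z7 →L[ℝ] Z7 :=
  LinearMap.toContinuousLinearMap
    { toFun := sc μ t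
      map_add' := fun u v => by funext i; fin_cases i <;> simp [sc] <;> ring
      map_smul' := fun c u => by funext i; fin_cases i <;> simp [sc] <;> ring }

theorem Hom.dstep {m k : ℕ} {h : Z7 → ℝ} (hh : Hom m (k + 1) h) (hd : Differentiable ℝ h) {e : Z7}
    (he : ∀ μ t, sc μ t e = t • e) : Hom m k (dstep e h) := by
  intro μ t ht z
  have h1 : HasFDerivAt (fun u => h (sc μ t u)) ((fderiv ℝ h (sc μ t z)).comp (scL μ t)) z :=
    (hd (sc μ t z)).hasFDerivAt.comp z (scL μ t).hasFDerivAt
  have h2 : HasFDerivAt (fun u => h (sc μ t u)) ((μ ^ m * t ^ (k + 1)) • fderiv ℝ h z) z := by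
    rw [show (fun u => h (sc μ t u)) = fun u => μ ^ m * t ^ (k + 1) * h u from funext (hh μ t ht)]
    exact (hd z).hasFDerivAt.const_mul _
  have h3 := congrArg (fun L : Z7 →L[ℝ] ℝ => L e) (h1.unique h2)
  simp only [ContinuousLinearMap.comp_apply, smul_apply, smul_eq_mul] at h3
  rw [show scL μ t e = t • e from he μ t, map_smul, smul_eq_mul] at h3
  apply mul_left_cancel₀ ht.ne'
  show t * fderiv ℝ h (sc μ t z) e = t * (μ ^ m * t ^ k * fderiv ℝ h z e)
  rw [h3]; ring

theorem sc_eP (μ t : ℝ) : sc μ t eP = t • eP := by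
  funext i; fin_cases i <;> simp [sc, eP]
theorem sc_eQ (μ t : ℝ) : sc μ t eQ = t • eQ := by
  funext i; fin_cases i <;> simp [sc, eQ]

theorem hom_hL : ∀ j, j ≤ 10 → Hom 18 (10 - j) (hL j)
  | 0, _ => hom_limZ
  | j + 1, hj => by
    have h : Hom 18 (10 - (j + 1) + 1) (hL j) := by
      rw [show 10 - (j + 1) + 1 = 10 - j by omega]; exact hom_hL j (by omega)
    refine h.dstep ((temperate_hL j).1.differentiable (by simp)) fun μ t => ?_
    split_ifs
    · exact sc_eP μ t
    · exact sc_eQ μ t

theorem hom_hQ : ∀ j, j ≤ 2 → Hom 2 (2 - j) (hQ j)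
  | 0, _ => hom_qfZ
  | j + 1, hj => by
    have h : Hom 2 (2 - (j + 1) + 1) (hQ j) := by
      rw [show 2 - (j + 1) + 1 = 2 - j by omega]; exact hom_hQ j (by omega)
    exact h.dstep ((temperate_hQ j).1.differentiable (by simp)) sc_eQ

/-- Euler. -/
theorem Hom.euler {m k : ℕ} {h : Z7 → ℝ} (hh : Hom m k h) (hd : Differentiable ℝ h) (z : Z7) :
    fderiv ℝ h z (eul z) = (6 * m + k : ℕ) * h z := by
  have hs : HasDerivAt (fun t : ℝ => sc (t ^ 6) t z) (eul z) 1 := by
    refine hasDerivAt_pi.2 fun i => ?_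
    have p := hasDerivAt_pow 6 (1 : ℝ)
    have q := hasDerivAt_id (1 : ℝ)
    fin_cases i <;> simp [sc, eul] <;>
      first
      | simpa using p.mul_const (z 0)
      | simpa using p.mul_const (z 1)
      | simpa using p.mul_const (z 2)
      | simpa using q.mul_const (z 3)
      | simpa using q.mul_const (z 4)
      | simpa using q.mul_const (z 5)
      | simpa using q.mul_const (z 6)
  have h1 : sc ((1 : ℝ) ^ 6) 1 z = z := by funext i; fin_cases i <;> simp [sc]
  have h2 : HasDerivAt (fun t : ℝ => h (sc (t ^ 6) t z)) (fderiv ℝ h z (eul z)) 1 :=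
    HasFDerivAt.comp_hasDerivAt_of_eq 1 (hd z).hasFDerivAt hs h1.symm
  have h3 : HasDerivAt (fun t : ℝ => h (sc (t ^ 6) t z)) ((6 * m + k : ℕ) * h z) 1 := by
    have h4 : HasDerivAt (fun t : ℝ => t ^ (6 * m + k) * h z) ((6 * m + k : ℕ) * h z) 1 := by
      simpa using (hasDerivAt_pow (6 * m + k) (1 : ℝ)).mul_const (h z)
    refine h4.congr_of_eventuallyEq ?_
    filter_upwards [lt_mem_nhds (show (0 : ℝ) < 1 by norm_num)] with t ht
    rw [hh _ t ht, ← pow_mul, ← pow_add]
  exact h2.unique h3

/-- The point with no third jets. -/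
def base7 (z : Z7) : Z7 := ![z 0, z 1, z 2, 0, 0, 0, 0]

/-- A function of degree zero in the third jets does not see them. -/
theorem Hom.const {m : ℕ} {h : Z7 → ℝ} (hh : Hom m 0 h) (hc : Continuous h) (z : Z7) :
    h z = h (base7 z) := by
  have hlim : Filter.Tendsto (fun t : ℝ => h (sc 1 t z)) (𝓝[>] 0) (𝓝 (h (base7 z))) := by
    have hcont : Continuous fun t : ℝ => h (sc 1 t z) := hc.comp (by
      refine continuous_pi fun i => ?_
      fin_cases i <;> simp [sc] <;> fun_prop)
    have h0 : sc 1 0 z = base7 z := by funext i; fin_cases i <;> simp [sc, base7]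
    have := hcont.tendsto 0
    rw [h0] at this
    exact this.mono_left nhdsWithin_le_nhds
  refine tendsto_nhds_unique (tendsto_const_nhds.congr' ?_) hlim
  filter_upwards [self_mem_nhdsWithin] with t ht
  rw [hh 1 t ht]; simp

/-- A derivative along a line of a polynomial. -/
theorem dstep_line {h : Z7 → ℝ} (hd : Differentiable ℝ h) {e r : Z7} {n : ℕ} {A : ℕ → ℝ}
    (hl : ∀ p : ℝ, h (r + p • e) = ∑ i ∈ Finset.range (n + 1), A i * p ^ i) (p : ℝ) :
    dstep e h (r + p • e) = ∑ i ∈ Finset.range n, ((i + 1 : ℕ) * A (i + 1)) * p ^ i := by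
  have hs : HasDerivAt (fun p : ℝ => r + p • e) e p := by
    simpa using ((hasDerivAt_id p).smul_const e).const_add r
  have h1 : HasDerivAt (fun p : ℝ => h (r + p • e)) (dstep e h (r + p • e)) p :=
    (hd _).hasFDerivAt.comp_hasDerivAt p hs
  have h2 : HasDerivAt (fun p : ℝ => h (r + p • e))
      (∑ i ∈ Finset.range (n + 1), A i * ((i : ℝ) * p ^ (i - 1))) p := by
    rw [funext hl]
    exact HasDerivAt.fun_sum fun i _ => (hasDerivAt_pow i p).const_mul _
  rw [h1.unique h2, Finset.sum_range_succ']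
  simp only [Nat.cast_zero, zero_mul, mul_zero, add_zero, Nat.add_sub_cancel]
  exact Finset.sum_congr rfl fun i _ => by ring

theorem hL_line (j : ℕ) (hj : j ≤ 8) (r : Z7) (A : ℕ → ℝ)
    (h : ∀ p : ℝ, limZ (r + p • eP) = ∑ i ∈ Finset.range 9, A i * p ^ i) :
    ∀ p : ℝ, hL j (r + p • eP) =
      ∑ i ∈ Finset.range (9 - j), ((i + j).descFactorial j * A (i + j)) * p ^ i := by
  induction j with
  | zero => simpa [hL] using h
  | succ j ih =>
    intro p
    have ih' : ∀ p : ℝ, hL j (r + p • eP) = ∑ i ∈ Finset.range (9 - (j + 1) + 1),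
        ((i + j).descFactorial j * A (i + j)) * p ^ i := by
      rw [show 9 - (j + 1) + 1 = 9 - j by omega]; exact ih (by omega)
    show dstep _ (hL j) _ = _
    rw [if_pos (by omega), dstep_line ((temperate_hL j).1.differentiable (by simp)) ih']
    refine Finset.sum_congr rfl fun i _ => ?_
    rw [show i + 1 + j = i + (j + 1) by omega, Nat.descFactorial_succ (i + (j + 1)) j,
      show i + (j + 1) - j = i + 1 by omega]
    push_cast
    ring

theorem hL_ten {z : Z7} (hz : z 0 ≠ 0) : hL 10 z = -(2580480 * z 0 ^ 18) := by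
  rw [(hom_hL 10 le_rfl).const (temperate_hL 10).1.continuous z]
  have key : ∀ q : ℝ, hL 8 (base7 z + q • eQ) =
      ∑ i ∈ Finset.range 3, (if i = 2 then -(1290240 * z 0 ^ 18) else 0) * q ^ i := by
    intro q
    obtain ⟨c, hc⟩ : ∃ c, z 2 = 2 * (z 0 * c) := ⟨z 2 / (2 * z 0), by field_simp⟩
    obtain ⟨d, hd⟩ : ∃ d, z 1 = z 0 * d := ⟨z 1 / z 0, by field_simp⟩
    let A : ℕ → ℝ := fun i => z 0 ^ 18 * (match i with
      | 0 => (-23328 * c ^ 2 * d ^ 3 + -186624 * c ^ 4 * d ^ 2) * q ^ 10
      | 1 => (15552 * c * d ^ 3 + 295488 * c ^ 3 * d ^ 2 + 248832 * c ^ 5 * d) * q ^ 9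
      | 2 => (-2592 * d ^ 3 + -163296 * c ^ 2 * d ^ 2 + -404352 * c ^ 4 * d
          + -82944 * c ^ 6) * q ^ 8
      | 3 => (38016 * c * d ^ 2 + 252288 * c ^ 3 * d + 145152 * c ^ 5) * q ^ 7
      | 4 => (-3168 * d ^ 2 + -75744 * c ^ 2 * d + -102528 * c ^ 4) * q ^ 6
      | 5 => (10944 * c * d + 37440 * c ^ 3) * q ^ 5
      | 6 => (-608 * d + -7456 * c ^ 2) * q ^ 4
      | 7 => 768 * c * q ^ 3
      | 8 => -32 * q ^ 2
      | _ => 0)
    have hl : ∀ p : ℝ, limZ ((base7 z + q • eQ) + p • eP) = ∑ i ∈ Finset.range 9, A i * p ^ i := by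
      intro p
      have e : z7var ((base7 z + q • eQ) + p • eP) = ZVar.ofPQ (z 0) c d p q := by
        simp [z7var, ZVar.ofPQ, base7, eQ, eP, hc, hd, mul_comm]
      rw [limZ, e, ZVar.lim013_ofPQ]
      simp only [A, Finset.sum_range_succ, Finset.sum_range_zero]
      ring
    have h := hL_line 8 le_rfl _ A hl 0
    simp only [zero_smul, add_zero] at h
    rw [h]
    simp [A, Nat.descFactorial]
    ring
  have key9 : ∀ q : ℝ, hL 9 (base7 z + q • eQ) =
      ∑ i ∈ Finset.range 2, (if i = 1 then -(2580480 * z 0 ^ 18) else 0) * q ^ i := by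
    intro q
    show dstep _ (hL 8) _ = _
    rw [if_neg (show ¬ (8 : ℕ) < 8 by omega),
      dstep_line ((temperate_hL 8).1.differentiable (by simp)) key]
    simp (config := { decide := true }) only [Finset.sum_range_succ, Finset.sum_range_zero,
      if_false, if_true]
    push_cast
    ring
  have h := dstep_line ((temperate_hL 9).1.differentiable (by simp)) key9 0
  simp only [zero_smul, add_zero] at h
  show dstep _ (hL 9) _ = _
  rw [if_neg (show ¬ (9 : ℕ) < 8 by omega), h]
  simp

theorem hQ_two (z : Z7) : hQ 2 z = 8 * z 0 ^ 2 := by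
  rw [(hom_hQ 2 le_rfl).const (temperate_hQ 2).1.continuous z]
  have key : ∀ q : ℝ, qfZ (base7 z + q • eQ) =
      ∑ i ∈ Finset.range 3, (if i = 2 then 4 * z 0 ^ 2 else 0) * q ^ i := by
    intro q
    simp [qfZ, base7, eQ]
    ring
  have key1 : ∀ q : ℝ, hQ 1 (base7 z + q • eQ) =
      ∑ i ∈ Finset.range 2, (if i = 1 then 8 * z 0 ^ 2 else 0) * q ^ i := by
    intro q
    show dstep _ qfZ _ = _
    rw [dstep_line (temperate_qfZ.1.differentiable (by simp)) key]
    simp (config := { decide := true }) only [Finset.sum_range_succ, Finset.sum_range_zero,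
      if_false, if_true]
    push_cast
    ring
  have h := dstep_line ((temperate_hQ 1).1.differentiable (by simp)) key1 0
  simp only [zero_smul, add_zero] at h
  show dstep _ (hQ 1) _ = _
  rw [h]
  simp

end Vale.Agent.P205F
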