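import Vale.Agent.P205F.GoodProb.Spec

/-!
# P205, GoodProb: events at every point of a compact set

`bad_small`: `n ≥ 3` functions `≤ M^-c'` and finitely many others `≥ M^-c` somewhere in `K`. If at
the nearby centres this gives a triangular system, the parameters with such a point form a small
set: a net of mesh `M^-c'` has `O(M^(2c'))` points and each costs `O(M^(-n c'))`.
-/

namespace Vale.Agent.P205F

open scoped ContDiff
open Filter MeasureTheory Prob

/-- A net of a compact set of the plane, with centres in the set. -/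
theorem exists_net {K : Set E2} (hK : IsCompact K) : ∃ CK : ℝ, ∀ ρ : ℝ, 0 < ρ → ρ ≤ 1 →
    ∃ G : Finset E2, (G.card : ℝ) ≤ CK / ρ ^ 2 ∧ (∀ x ∈ G, x ∈ K) ∧
      ∀ y ∈ K, ∃ x ∈ G, dist x y ≤ ρ := by
  classical
  obtain ⟨R₀, hR₀⟩ := hK.isBounded.subset_closedBall (0 : E2)
  set R := max R₀ 1 with hR
  have hR1 : 1 ≤ R := le_max_right _ _
  have hR0 : 0 < R := by linarith
  refine ⟨(8 * R + 3) ^ 2, fun ρ hρ hρ1 => ?_⟩
  obtain ⟨G₀, hcard, -, hnet⟩ := exists_grid 2 (δ := ρ / (4 * R)) (by positivity)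
  set η := ρ / (4 * R) with hη
  -- one representative for each cell that meets `K`
  set G₁ := G₀.filter fun q => ∃ y ∈ K, ∀ i, |y i / R - q i| ≤ η with hG₁
  have hex : ∀ q ∈ G₁, ∃ y ∈ K, ∀ i, |y i / R - q i| ≤ η := fun q hq => (Finset.mem_filter.1 hq).2
  choose r hr hr' using hex
  refine ⟨G₁.attach.image fun q => r q.1 q.2, ?_, fun x hx => ?_, fun y hy => ?_⟩
  · have h2 : 2 / η + 3 ≤ (8 * R + 3) / ρ := by
      rw [hη, div_div_eq_mul_div, div_add' _ _ _ hρ.ne', div_le_div_iff_of_pos_right hρ]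
      nlinarith
    calc ((G₁.attach.image fun q => r q.1 q.2).card : ℝ) ≤ (G₀.card : ℝ) := by
          refine Nat.cast_le.2 (Finset.card_image_le.trans ?_)
          rw [Finset.card_attach]
          exact Finset.card_filter_le _ _
      _ ≤ (2 / η + 3) ^ 2 := hcard
      _ ≤ ((8 * R + 3) / ρ) ^ 2 := pow_le_pow_left₀ (by positivity) h2 2
      _ = _ := by rw [div_pow]
  · obtain ⟨q, -, rfl⟩ := Finset.mem_image.1 hx
    exact hr _ _
  · have hyR : ∀ i, |y i / R| ≤ 1 := fun i => by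
      rw [abs_div, abs_of_pos hR0, div_le_one hR0]
      refine le_trans ?_ ((mem_closedBall_zero_iff.1 (hR₀ hy)).trans (le_max_left _ _))
      simpa using PiLp.norm_apply_le y i
    obtain ⟨q, hq, hd⟩ := hnet (fun i => y i / R)
      ⟨fun i => (abs_le.1 (hyR i)).1, fun i => (abs_le.1 (hyR i)).2⟩
    have hq1 : q ∈ G₁ := Finset.mem_filter.2 ⟨hq, y, hy, hd⟩
    refine ⟨r q hq1, Finset.mem_image.2 ⟨⟨q, hq1⟩, Finset.mem_attach _ _, rfl⟩, ?_⟩
    have hi : ∀ i, |r q hq1 i - y i| ≤ ρ / 2 := fun i => by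
      have h : |r q hq1 i / R - y i / R| ≤ 2 * η :=
        (abs_sub_le _ (q i) _).trans (by
          have := hr' q hq1 i
          have := hd i
          rw [abs_sub_comm] at this
          linarith)
      rw [← sub_div, abs_div, abs_of_pos hR0, div_le_iff₀ hR0] at h
      refine h.trans_eq ?_
      rw [hη]; field_simp; ring
    rw [dist_eq_norm, EuclideanSpace.norm_eq, Real.sqrt_le_iff]
    refine ⟨hρ.le, ?_⟩
    have h0 := abs_le.1 (hi 0)
    have h1 := abs_le.1 (hi 1)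
    simp only [Fin.sum_univ_two, Real.norm_eq_abs, sq_abs, PiLp.sub_apply]
    nlinarith

theorem continuous_jetFn_param {d N : ℕ} {F : (Fin d → ℝ) → E2 → R4} {c : SF}
    (hc : JetAt N c) (hF : ContDiff ℝ ∞ (Function.uncurry F)) (x : E2) :
    Continuous fun l => c (F l) x := by
  obtain ⟨g, hg, e⟩ := hc
  rw [show (fun l => c (F l) x) = g ∘ fun l => jet N (F l) x from
    funext fun l => e _ x (contDiff_slice hF l)]
  exact hg.1.continuous.comp (jet_param hF N x).1.continuous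

/-- Small sets of parameters from triangular systems. -/
theorem bad_small {n k : ℕ} (hn : 3 ≤ n) (φ : Fin n → SF) (ψ : Fin k → SF)
    (hφ : ∀ i, JetAt 10 (φ i)) (hψ : ∀ j, JetAt 10 (ψ j)) (A E A' c : ℕ) :
    ∃ B L : ℕ, ∀ c' : ℕ, 8 * L + c ≤ c' → ∀ (d : ℕ) (K : Set E2) (δ : ℝ), IsCompact K → 0 < δ →
      ∀ᶠ M : ℕ in atTop, ∀ F : (Fin d → ℝ) → E2 → R4, Bdd F K A M →
        (∀ l ∈ cube d, ∀ x ∈ K, (∀ i, |φ i (F l) x| ≤ ((M : ℝ) ^ (c' - L))⁻¹) →
          (∀ j, ((M : ℝ) ^ (c + 1))⁻¹ ≤ |ψ j (F l) x|) → Tri φ F M E B ((M : ℝ) ^ A') l x) →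
        volume (Bad F K fun f x =>
          (∀ i, |φ i f x| ≤ ((M : ℝ) ^ c')⁻¹) ∧ ∀ j, ((M : ℝ) ^ c)⁻¹ ≤ |ψ j f x|) ≤
          ENNReal.ofReal δ := by
  obtain ⟨B, hB⟩ := event φ hφ A E
  choose Lf hLf using fun i => (hφ i).lip le_rfl A
  choose Lg hLg using fun j => (hψ j).lip le_rfl A
  set L := Finset.univ.sup Lf + Finset.univ.sup Lg + B + 3 * A' + 2 with hL
  refine ⟨B, L, fun c' hc' d K δ hK hδ => ?_⟩
  obtain ⟨CK, hCK⟩ := exists_net hK
  filter_upwards [hB, eventually_all.2 hLf, eventually_all.2 hLg, eventually_ge_atTop 4,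
    (tendsto_natCast_atTop_atTop (R := ℝ)).eventually_ge_atTop (CK * levelConst d n / δ)]
    with M hBM hfM hgM hM hMδ F hF htri
  have hM4 : (4 : ℝ) ≤ M := by exact_mod_cast hM
  have hM1 : (1 : ℝ) ≤ M := by linarith
  have hM0 : (0 : ℝ) < M := by linarith
  set ρ := ((M : ℝ) ^ c')⁻¹ with hρ
  obtain ⟨G, hGc, hGK, hGn⟩ := hCK ρ (by positivity) (inv_le_one_of_one_le₀ (one_le_pow₀ hM1))
  set ε := ((M : ℝ) ^ (c' - L))⁻¹ with hε
  set S : E2 → Set (Fin d → ℝ) := fun x => cube d ∩ {l | (∀ i, |φ i (F l) x| ≤ ε) ∧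
    ∀ j, ((M : ℝ) ^ (c + 1))⁻¹ ≤ |ψ j (F l) x|} with hS
  have hSm : ∀ x, MeasurableSet (S x) := fun x => by
    refine (measurableSet_cube d).inter (IsClosed.measurableSet ?_)
    rw [Set.setOf_and, Set.setOf_forall, Set.setOf_forall]
    exact (isClosed_iInter fun i => isClosed_le (continuous_jetFn_param (hφ i) hF.smooth x).abs
      continuous_const).inter (isClosed_iInter fun j => isClosed_le continuous_const
        (continuous_jetFn_param (hψ j) hF.smooth x).abs)
  have hvol : ∀ x ∈ G, volume (S x) ≤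
      ENNReal.ofReal (levelConst d n * ((M : ℝ) ^ B * ((M : ℝ) ^ A') ^ 3 * ε) ^ n) := fun x hx =>
    hBM d F K hF x (hGK x hx) (S x) _ ε (hSm x) Set.inter_subset_left (one_le_pow₀ hM1)
      (by positivity) (fun l hl => hl.2.1) fun l hl => htri l hl.1 x (hGK x hx) hl.2.1 hl.2.2
  have hcov : Bad F K (fun f x =>
      (∀ i, |φ i f x| ≤ ((M : ℝ) ^ c')⁻¹) ∧ ∀ j, ((M : ℝ) ^ c)⁻¹ ≤ |ψ j f x|) ⊆ ⋃ x ∈ G, S x := by
    rintro l ⟨hl, y, hy, hsm, hbig⟩
    obtain ⟨x, hx, hxy⟩ := hGn y hy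
    have hd : dist x y ≤ 1 := hxy.trans (inv_le_one_of_one_le₀ (one_le_pow₀ hM1))
    refine Set.mem_iUnion₂.2 ⟨x, hx, hl, fun i => ?_, fun j => ?_⟩
    · have h1 := hfM i d F K hF l hl y hy x hd
      rw [Real.norm_eq_abs] at h1
      have hpow : (M : ℝ) ^ Lf i * ρ ≤ (M : ℝ) ^ (L - 1) * ρ := mul_le_mul_of_nonneg_right
        (pow_le_pow_right₀ hM1 (by
          have := Finset.le_sup (f := Lf) (Finset.mem_univ i)
          omega)) (by positivity)
      calc |φ i (F l) x| ≤ ρ + (M : ℝ) ^ (L - 1) * ρ := by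
            have := abs_sub_abs_le_abs_sub (φ i (F l) x) (φ i (F l) y)
            have := mul_le_mul_of_nonneg_left hxy (pow_nonneg hM0.le (Lf i))
            linarith [hsm i]
        _ ≤ (M : ℝ) ^ L * ρ := by
            rw [show (M : ℝ) ^ L = (M : ℝ) ^ (L - 1) * M by
              rw [← pow_succ]; congr 1]
            nlinarith [one_le_pow₀ (n := L - 1) hM1, show 0 < ρ by positivity,
              mul_le_mul_of_nonneg_left hM4 (mul_nonneg (pow_nonneg hM0.le (L - 1)) (show 0 ≤ ρ by positivity))]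
        _ = ε := by
            rw [hε, hρ, ← div_eq_mul_inv, inv_eq_one_div, div_eq_div_iff (by positivity) (by positivity),
              one_mul, ← pow_add]
            congr 1; omega
    · have h1 := hgM j d F K hF l hl y hy x hd
      rw [Real.norm_eq_abs] at h1
      have hpow : (M : ℝ) ^ Lg j * dist x y ≤ ((M : ℝ) ^ (c + 1))⁻¹ := by
        refine (mul_le_mul_of_nonneg_left hxy (by positivity)).trans ?_
        rw [hρ, ← div_eq_mul_inv, inv_eq_one_div, div_le_div_iff₀ (by positivity) (by positivity),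
          one_mul, ← pow_add]
        refine pow_le_pow_right₀ hM1 ?_
        have := Finset.le_sup (f := Lg) (Finset.mem_univ j)
        omega
      have h2 : 2 * ((M : ℝ) ^ (c + 1))⁻¹ ≤ ((M : ℝ) ^ c)⁻¹ := by
        rw [pow_succ, mul_inv, ← mul_assoc, mul_comm 2, mul_assoc]
        refine mul_le_of_le_one_right (by positivity) ?_
        rw [← div_eq_mul_inv, div_le_one hM0]; linarith
      have := abs_sub_abs_le_abs_sub (ψ j (F l) y) (ψ j (F l) x)
      rw [abs_sub_comm] at h1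
      linarith [hbig j]
  refine ((measure_mono hcov).trans (measure_biUnion_finset_le G _)).trans
    ((Finset.sum_le_sum hvol).trans ?_)
  rw [Finset.sum_const, nsmul_eq_mul, ← ENNReal.ofReal_natCast,
    ← ENNReal.ofReal_mul (Nat.cast_nonneg _)]
  refine ENNReal.ofReal_le_ofReal ?_
  set P := levelConst d n with hP
  have hP0 := levelConst_nonneg d n
  set u := (M : ℝ) ^ B * ((M : ℝ) ^ A') ^ 3 * ε with hu
  have hu' : u ≤ ((M : ℝ) ^ (c' - 2 * L))⁻¹ := by
    rw [hu, hε, ← pow_mul, ← pow_add, ← div_eq_mul_inv, inv_eq_one_div,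
      div_le_div_iff₀ (by positivity) (by positivity), one_mul, ← pow_add]
    exact pow_le_pow_right₀ hM1 (by omega)
  have hun : u ^ n ≤ ((M : ℝ) ^ (2 * c' + 1))⁻¹ := by
    refine (pow_le_pow_left₀ (by positivity) hu' n).trans ?_
    rw [inv_pow, ← pow_mul]
    refine inv_anti₀ (by positivity) (pow_le_pow_right₀ hM1 ?_)
    calc 2 * c' + 1 ≤ (c' - 2 * L) * 3 := by omega
      _ ≤ (c' - 2 * L) * n := Nat.mul_le_mul_left _ hn
  calc (G.card : ℝ) * (P * u ^ n) ≤ CK / ρ ^ 2 * (P * ((M : ℝ) ^ (2 * c' + 1))⁻¹) :=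
        mul_le_mul hGc (mul_le_mul_of_nonneg_left hun hP0) (by positivity)
          ((Nat.cast_nonneg _).trans hGc)
    _ = CK * P / M := by
        rw [hρ, inv_pow, ← pow_mul, div_inv_eq_mul, mul_comm c', pow_succ]
        field_simp
    _ ≤ δ := by
        rw [div_le_iff₀ hM0]
        rw [div_le_iff₀ hδ] at hMδ
        linarith

end Vale.Agent.P205F
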