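import Vale.Agent.P205F.GoodProb.Bounds
import Vale.Agent.P205F.GoodProb.Union
import Vale.Agent.P205F.GoodProb.Hom

/-!
# P205, GoodProb: submersive directions at a small `N` with `II(∂y,∂y)` not small

`k`, `D` move with the slow jets `xx`, `xy` along `ν₁`. A homogeneous `h` of the seven variables
moves along `eP` (jet `xxx`) or `eQ` (jet `xxy`): by Euler the trace only adds a multiple of `h`.
-/

namespace Vale.Agent.P205F

open scoped ContDiff RealInnerProductSpace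
open Filter MeasureTheory Prob

/-- The seven variables of a map. -/
noncomputable def zv (f : E2 → R4) (x : E2) : Z7 :=
  ![Del f x, A10 f x, A11 f x, pd 0 (kk f) x, pd 1 (kk f) x, pd 0 (DD f) x, pd 1 (DD f) x]

theorem JetAt.zv : JetAt 3 P205F.zv := by
  have h : ∀ j : Fin 7, JetAt 3 fun f x => P205F.zv f x j := by
    intro j
    fin_cases j
    · exact JetAt.Del.mono (by omega)
    · exact JetAt.A10.mono (by omega)
    · exact JetAt.A11.mono (by omega)
    · exact JetAt.kk.pd 0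
    · exact JetAt.kk.pd 1
    · exact JetAt.DD.pd 0
    · exact JetAt.DD.pd 1
  choose g hg e using h
  exact ⟨fun z => ∑ i, g i z • (Pi.single i (1 : ℝ) : Fin 7 → ℝ),
    Function.HasTemperateGrowth.sum fun i _ => (hg i).smul (Function.HasTemperateGrowth.const _),
    fun f x hf => funext fun i => by simp [← e _ f x hf, Pi.single_apply]⟩

theorem limZ_zv (f : E2 → R4) (x : E2) : limZ (zv f x) = (zvar f x).lim013 := rfl

theorem qfZ_zv (f : E2 → R4) (x : E2) : qfZ (zv f x) = Qf 0 f x := by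
  simp [qfZ, zv, Qf]

/-- A uniform bound for finitely many scalar jet functions and their variations. -/
theorem poly_bounds {n : ℕ} (c : Fin n → SF) (hc : ∀ i, JetAt 10 (c i)) (A : ℕ) :
    ∃ E : ℕ, ∀ᶠ M : ℕ in atTop, ∀ f w x, ContDiff ℝ ∞ f → ContDiff ℝ ∞ w →
      ‖jet 10 f x‖ ≤ (M : ℝ) ^ A → ‖jet 10 w x‖ ≤ (M : ℝ) ^ A →
      ∀ i, |c i f x| ≤ (M : ℝ) ^ E ∧ |var (c i) f w x| ≤ (M : ℝ) ^ E := by
  choose E hE using fun i => (hc i).bound A
  refine ⟨(Finset.univ.sup E) + A, ?_⟩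
  filter_upwards [eventually_all.2 hE, eventually_ge_atTop 1] with M hM hM1 f w x hf hw hjf hjw i
  have h1 : (1 : ℝ) ≤ M := by exact_mod_cast hM1
  have hi : E i ≤ Finset.univ.sup E := Finset.le_sup (Finset.mem_univ i)
  obtain ⟨hv, hvar, -⟩ := hM i f x hf hjf
  refine ⟨hv.trans (pow_le_pow_right₀ h1 (by omega)), (hvar w hw).trans ?_⟩
  rw [pow_add]
  exact mul_le_mul (pow_le_pow_right₀ h1 hi) hjw (norm_nonneg _) (by positivity)

theorem norm_pdm_le_jet {f : E2 → R4} (hf : ContDiff ℝ ∞ f) (x : E2) {N i j : ℕ} (h : i + j ≤ N) :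
    ‖pdm i j f x‖ ≤ ‖jet N f x‖ := by
  have key : ∀ k (σ : Fin k → Fin 2), k ≤ N →
      ‖iteratedFDeriv ℝ k f x fun a => ev (σ a)‖ ≤ ‖jet N f x‖ := fun k σ hk =>
    ((ContinuousMultilinearMap.le_opNorm _ _).trans_eq
      (show _ = ‖jet N f x ⟨k, Nat.lt_succ_of_le hk⟩‖ by simp [ev, jet])).trans
      (norm_le_pi_norm (jet N f x) ⟨k, Nat.lt_succ_of_le hk⟩)
  have pat : ∀ i j, ∃ k : ℕ, k = i + j ∧ ∃ σ : Fin k → Fin 2, ∀ g : E2 → R4, ContDiff ℝ ∞ g → ∀ y,
      iteratedFDeriv ℝ k g y (fun a => ev (σ a)) = pdm i j g y := by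
    have cons : ∀ (k : ℕ) (σ : Fin k → Fin 2) (c : Fin 2) (g : E2 → R4), ContDiff ℝ ∞ g → ∀ y,
        iteratedFDeriv ℝ (k + 1) g y (fun a => ev ((Fin.cons c σ : Fin (k + 1) → Fin 2) a)) =
          pd c (fun z => iteratedFDeriv ℝ k g z fun a => ev (σ a)) y := by
      intro k σ c g hg y
      rw [iteratedFDeriv_succ_apply_left, pd, fderiv_continuousMultilinear_apply_const_apply
        (((hg.iteratedFDeriv_right (m := ∞) (by exact_mod_cast le_top)).differentiable (by simp)) y)]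
      rfl
    intro i j
    induction i with
    | zero =>
      induction j with
      | zero => exact ⟨0, rfl, Fin.elim0, fun g _ y => by simp [pdm]⟩
      | succ j ih =>
        obtain ⟨k, hk, σ, hσ⟩ := ih
        refine ⟨k + 1, by omega, Fin.cons 1 σ, fun g hg y => ?_⟩
        rw [cons k σ 1 g hg, funext (hσ g hg), ← pd1_pdm hg]
    | succ i ih =>
      obtain ⟨k, hk, σ, hσ⟩ := ih
      refine ⟨k + 1, by omega, Fin.cons 0 σ, fun g hg y => ?_⟩
      rw [cons k σ 0 g hg, funext (hσ g hg), ← pd0_pdm]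
  obtain ⟨k, hk, σ, hσ⟩ := pat i j
  rw [← hσ f hf x]
  exact key k σ (by omega)

section Powers

variable {M : ℕ} (hM : 2 ≤ (M : ℝ))
include hM

/-- Small times large is small. -/
theorem pw_small {σ E B : ℕ} (h : E + B ≤ σ) {r : ℝ} (hr : |r| ≤ (M : ℝ) ^ E * ((M : ℝ) ^ σ)⁻¹) :
    |r| ≤ ((M : ℝ) ^ B)⁻¹ := by
  refine hr.trans ?_
  rw [mul_inv_le_iff₀ (by positivity), inv_mul_eq_div, le_div_iff₀ (by positivity), ← pow_add]
  exact pow_le_pow_right₀ (by linarith) h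

/-- A large main term survives a small error. -/
theorem pw_diag {E E' : ℕ} (h : E < E') {a r : ℝ} (ha : ((M : ℝ) ^ E)⁻¹ ≤ |a|)
    (hr : |r| ≤ ((M : ℝ) ^ E')⁻¹) : ((M : ℝ) ^ E')⁻¹ ≤ |a + r| := by
  have h1 : 2 * ((M : ℝ) ^ E')⁻¹ ≤ ((M : ℝ) ^ E)⁻¹ := by
    rw [← div_eq_mul_inv, div_le_iff₀ (by positivity), inv_mul_eq_div, le_div_iff₀ (by positivity)]
    calc 2 * (M : ℝ) ^ E ≤ M * (M : ℝ) ^ E := by gcongr
      _ ≤ (M : ℝ) ^ E' := by rw [← pow_succ']; exact pow_le_pow_right₀ (by linarith) h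
  calc ((M : ℝ) ^ E')⁻¹ ≤ |a| - |r| := by linarith
    _ ≤ |a + r| := by simpa using abs_sub_abs_le_abs_sub a (-r)

end Powers

/-- A normal vector of `ν₁`'s direction, scaled to length at most one. -/
noncomputable def unit1 (f : E2 → R4) (x : E2) : R4 := ‖nu1 f x‖⁻¹ • nu1 f x

theorem unit1_props (f : E2 → R4) (x : E2) :
    ‖unit1 f x‖ ≤ 1 ∧ Normal f x (unit1 f x) ∧ ⟪unit1 f x, fyy f x⟫ = 0 ∧
      ⟪unit1 f x, nu1 f x⟫ = ‖nu1 f x‖ ∧ nv f x (unit1 f x) = ‖nu1 f x‖⁻¹ • nu2 f x := by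
  refine ⟨?_, (normal_nv f x _).smul _, ?_, ?_, cross_smul₃ _ _ _ _⟩
  · rw [unit1, norm_smul, norm_inv, norm_norm]
    exact inv_mul_le_one
  · rw [unit1, real_inner_smul_left, show ⟪nu1 f x, fyy f x⟫ = 0 from cross_orth_right _ _ _, mul_zero]
  · rw [unit1, real_inner_smul_left, real_inner_self_eq_norm_sq, pow_two, ← mul_assoc]
    by_cases h : ‖nu1 f x‖ = 0
    · simp [h]
    · rw [inv_mul_cancel₀ h, one_mul]

/-- The prescription with a single jet. -/
noncomputable def single2 (p q : ℕ) (v : R4) : ℕ → ℕ → R4 :=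
  fun i j => if i = p ∧ j = q then v else 0

theorem single2_ok {b : Bool} {f : E2 → R4} {x : E2} {p q : ℕ} {v : R4} (hpq : 2 ≤ p + q)
    (hv : ‖v‖ ≤ 1) (hn : Normal f x v)
    (hb : b = true → (p + q ≤ 2 ∧ p ≤ 1) ∨ ⟪v, fyy f x⟫ = 0) (i j : ℕ) :
    ‖single2 p q v i j‖ ≤ 1 ∧ Normal f x (single2 p q v i j) ∧
      (i + j ≤ 1 → single2 p q v i j = 0) ∧
      (b = true → (i + j ≤ 2 ∧ i ≤ 1) ∨ ⟪single2 p q v i j, fyy f x⟫ = 0) := by
  unfold single2
  split_ifs with h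
  · obtain ⟨rfl, rfl⟩ := h
    exact ⟨hv, hn, fun h => by omega, hb⟩
  · exact ⟨by simp, ⟨inner_zero_right _, inner_zero_right _⟩, fun _ => rfl, fun _ => Or.inr (inner_zero_left _)⟩

/-- Rotation: a vector orthogonal to `ν₁` sees a normal product only through `⟪u, ν₁⟫`. -/
theorem rot_small (f : E2 → R4) (x : E2) (u : R4) {v : R4} (hv : ⟪nu1 f x, v⟫ = 0) :
    ⟪nu1 f x, nu1 f x⟫ * |⟪nv f x u, v⟫| = |⟪u, nu1 f x⟫| * |⟪nu2 f x, v⟫| := by
  have h := congrArg (fun y => ⟪y, v⟫) (nu1_split f x u)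
  simp only [inner_add_left, real_inner_smul_left, hv, mul_zero, zero_add] at h
  rw [← abs_of_nonneg (real_inner_self_nonneg (x := nu1 f x)), ← abs_mul, h, abs_mul]

/-- The absorber component of `xx` when the second jets are prescribed zero. -/
theorem absorber_small (A : ℕ) : ∃ E : ℕ, ∀ᶠ M : ℕ in atTop, ∀ b C f w x τ, ∀ ζ : ℝ,
    Pt b C A M f x → C ≤ M → SlowDir b C A ζ M f x τ w → τ 2 0 = 0 → τ 1 1 = 0 → τ 0 2 = 0 →
    0 ≤ ζ → |⟪nu2 f x, fxx w x⟫| ≤ (M : ℝ) ^ E * ζ := by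
  obtain ⟨E₁, h₁⟩ := var_metric_small temperate_gaussM A
  obtain ⟨E₂, h₂⟩ := tr_small A
  obtain ⟨E₃, h₃⟩ := poly_bounds ![dd, gdet, gaussE,
      fun f x => ⟪nv f x (fxy f x), nv f x (fxy f x)⟫]
    (fun i => by
      fin_cases i
      · exact JetAt.dd.mono (by omega)
      · exact JetAt.gdet.mono (by omega)
      · exact JetAt.gaussE.mono (by omega)
      · exact (((JetAt.cross (JetAt.pd_self 0) (JetAt.pd_self 1) JetAt.fxy).inner
          (JetAt.cross (JetAt.pd_self 0) (JetAt.pd_self 1) JetAt.fxy))).mono (by omega)) A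
  refine ⟨E₁ + E₂ + 2 * E₃ + 4, ?_⟩
  filter_upwards [h₁, h₂, h₃, eventually_ge_atTop 16] with M h₁ h₂ h₃ hM b C f w x τ ζ hP hC hw
    h20 h11 h02 hζ
  have hM' : (16 : ℝ) ≤ M := by exact_mod_cast hM
  have hM1 : (1 : ℝ) ≤ M := by linarith
  have hf := hP.smooth
  have hsw := hw.smooth
  have hT := hP.tan hw
  have hj2 : ‖jet 2 f x‖ ≤ (M : ℝ) ^ A := (norm_jet_mono (by omega) f x).trans hP.jets
  have nyy : nv f x (fyy w x) = 0 := (hw.two 0 2 le_rfl (by omega)).trans (by rw [h02]; exact cross_zero₃ _ _)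
  have nxy : nv f x (fxy w x) = 0 := (hw.two 1 1 le_rfl le_rfl).trans (by rw [h11]; exact cross_zero₃ _ _)
  cases b with
  | false =>
    have nxx : nv f x (fxx w x) = 0 :=
      (hw.all rfl 2 0 (by omega)).trans (by rw [h20]; exact cross_zero₃ _ _)
    rw [nu2_eq, inner_nv_nv, nxx, inner_zero_left, neg_zero, abs_zero]
    positivity
  | true =>
    have hL := hw.linT rfl
    have htr := h₂ true C A f w x ζ hP hC hT hj2 fun i j h => hL i j (by omega)
    have hgm := h₁ f w x ζ hf hsw hj2 fun i j h => hL i j (by omega)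
    obtain ⟨hdd, -⟩ := h₃ f w x hf hsw hP.jets hw.jets 0
    obtain ⟨hG, -⟩ := h₃ f w x hf hsw hP.jets hw.jets 1
    obtain ⟨hgE, -⟩ := h₃ f w x hf hsw hP.jets hw.jets 2
    obtain ⟨hn, -⟩ := h₃ f w x hf hsw hP.jets hw.jets 3
    change |dd f x| ≤ _ at hdd; change |gdet f x| ≤ _ at hG
    change |gaussE f x| ≤ _ at hgE; change |⟪nv f x (fxy f x), nv f x (fxy f x)⟫| ≤ _ at hn
    have hE : |var gaussE f w x| ≤ 2 * ζ := by
      have j := fun a c k => ((JetAt.mk3 k).pdm a c).jetFn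
      rw [var_congr (d := fun f x => (-1 / 2 : ℝ) * (pdm 0 2 (mk3 0 f) x
          - 2 * pdm 1 1 (mk3 1 f) x + pdm 2 0 (mk3 2 f) x)) (fun f x hf => by rw [gaussE_eq hf]; ring) hf hsw,
        var_mul (JetFn.const _) ((((j 0 2 0).sub ((JetFn.const (2 : ℝ)).mul (j 1 1 1)))).add (j 2 0 2)) hf hsw,
        var_const, var_add ((j 0 2 0).sub ((JetFn.const (2 : ℝ)).mul (j 1 1 1))) (j 2 0 2) hf hsw,
        var_sub (j 0 2 0) ((JetFn.const (2 : ℝ)).mul (j 1 1 1)) hf hsw,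
        var_mul (JetFn.const (2 : ℝ)) (j 1 1 1) hf hsw, var_const]
      have a₀ := abs_le.1 (abs_var_pdm_mk3 hf hsw (hL 0 2 le_rfl) 0)
      have a₁ := abs_le.1 (abs_var_pdm_mk3 hf hsw (hL 1 1 le_rfl) 1)
      have a₂ := abs_le.1 (abs_var_pdm_mk3 hf hsw (hL 2 0 le_rfl) 2)
      rw [abs_le]; constructor <;> linarith
    have key : ⟪nu2 f x, fxx w x⟫ = -(2 * tr f w x * dd f x)
        - 2 * tr f w x * ⟪nv f x (fxy f x), nv f x (fxy f x)⟫
        + var (fun f x => gaussM (mjet f x)) f w x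
        - (2 * tr f w x * gdet f x) * gaussE f x - gdet f x * var gaussE f w x := by
      have e := var_congr (fun f x hf => gauss_eqM (x := x) hf) hf hsw (x := x)
      have hn' := (JetFn.nv' JetFn.fxy).inner (JetFn.nv' JetFn.fxy)
      have hgm' := (JetAt.mjet.comp temperate_gaussM).jetFn
      rw [var_mul JetFn.gdet JetAt.gaussE.jetFn hf hsw, var_add (JetFn.dd.neg.sub hn') hgm' hf hsw,
        var_sub JetFn.dd.neg hn' hf hsw, var_neg JetFn.dd hf hsw, hT.var_dd,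
        var_inner (JetFn.nv' JetFn.fxy) (JetFn.nv' JetFn.fxy) hf hsw, hT.var_gdet,
        hT.var_nv JetFn.fxy, (var_second hf hsw).2.1, nxy, nyy, inner_zero_left, add_zero,
        real_inner_smul_left, real_inner_smul_right] at e
      linarith
    rw [key]
    set P := (M : ℝ) ^ (E₁ + E₂ + 2 * E₃) with hPdef
    have hb : ∀ {a c : ℝ} {p q : ℕ}, |a| ≤ (M : ℝ) ^ p * ζ → |c| ≤ (M : ℝ) ^ q → p + q ≤ E₁ + E₂ + 2 * E₃ →
        |a * c| ≤ P * ζ := fun {a c p q} ha hc hpq => by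
      rw [abs_mul]
      refine (mul_le_mul ha hc (abs_nonneg _) (by positivity)).trans ?_
      rw [mul_right_comm, ← pow_add, hPdef]
      exact mul_le_mul_of_nonneg_right (pow_le_pow_right₀ hM1 hpq) hζ
    have b₁ := abs_le.1 (hb htr hdd (by omega))
    have b₂ := abs_le.1 (hb htr hn (by omega))
    have b₃ : |var (fun f x => gaussM (mjet f x)) f w x| ≤ P * ζ :=
      hgm.trans (mul_le_mul_of_nonneg_right (pow_le_pow_right₀ hM1 (by omega)) hζ)
    have b₄ : |tr f w x * (gdet f x * gaussE f x)| ≤ P * ζ := by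
      refine hb htr (?_ : |gdet f x * gaussE f x| ≤ (M : ℝ) ^ (E₃ + E₃)) (by omega)
      rw [abs_mul, pow_add]
      exact mul_le_mul hG hgE (abs_nonneg _) (by positivity)
    have b₅ : |gdet f x * var gaussE f w x| ≤ 2 * (P * ζ) := by
      rw [abs_mul]
      refine (mul_le_mul (hG.trans (pow_le_pow_right₀ hM1 (show E₃ ≤ E₁ + E₂ + 2 * E₃ by omega))) hE
        (abs_nonneg _) (by positivity)).trans_eq ?_
      rw [← hPdef]; ring
    have b₃' := abs_le.1 b₃
    have b₄' := abs_le.1 b₄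
    have b₅' := abs_le.1 b₅
    have hPζ : 0 ≤ P * ζ := by positivity
    calc |_| ≤ 16 * (P * ζ) := by rw [abs_le]; constructor <;> linarith
      _ ≤ (M : ℝ) ^ 4 * (P * ζ) := by
          refine mul_le_mul_of_nonneg_right (hM'.trans (le_self_pow₀ hM1 (by omega))) hPζ
      _ = _ := by rw [hPdef, pow_add _ (E₁ + E₂ + 2 * E₃) 4]; ring

set_option maxHeartbeats 2000000 in
/-- Junk of the seven variables when only a third jet along `ν₁` is prescribed. -/
theorem zv_var (A a : ℕ) : ∃ E : ℕ, ∀ᶠ M : ℕ in atTop, ∀ b C f w x τ, ∀ δ : ℝ,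
    Pt b C A M f x → C ≤ M → SlowDir b C A δ M f x τ w →
    τ 2 0 = 0 → τ 1 1 = 0 → τ 0 2 = 0 → τ 1 2 = 0 → τ 0 3 = 0 →
    ((M : ℝ) ^ a)⁻¹ ≤ ⟪nu1 f x, nu1 f x⟫ → |kk f x| ≤ δ → |DD f x| ≤ δ →
    ‖var zv f w x - (tr f w x • eul (zv f x)
      + ![0, 0, 0, ⟪τ 3 0, nu1 f x⟫, ⟪τ 2 1, nu1 f x⟫, 2 * ⟪τ 2 1, nu1 f x⟫, 0])‖
      ≤ (M : ℝ) ^ E * δ := by
  obtain ⟨E₁, h₁⟩ := absorber_small A
  obtain ⟨E₂, h₂⟩ := tr_small A
  obtain ⟨E₃, h₃⟩ := poly_bounds ![gdet, bb, cc, dd, D2, jx, jy,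
      fun f x => gam f x 1 2, fun f x => gam f x 1 0, fun f x => gam f x 1 1,
      fun f x => gam f x 0 2, fun f x => gam f x 0 0, fun f x => gam f x 0 1]
    (fun i => by
      fin_cases i
      · exact JetAt.gdet.mono (by omega)
      · exact JetAt.bb.mono (by omega)
      · exact JetAt.cc.mono (by omega)
      · exact JetAt.dd.mono (by omega)
      · exact JetAt.D2.mono (by omega)
      · exact JetAt.jx.mono (by omega)
      · exact JetAt.jy.mono (by omega)
      · exact (JetAt.gam 1 2).mono (by omega)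
      · exact (JetAt.gam 1 0).mono (by omega)
      · exact (JetAt.gam 1 1).mono (by omega)
      · exact (JetAt.gam 0 2).mono (by omega)
      · exact (JetAt.gam 0 0).mono (by omega)
      · exact (JetAt.gam 0 1).mono (by omega)) A
  obtain ⟨E₄, h₄⟩ := JetAt.nu1.bound A
  obtain ⟨E₅, h₅⟩ := JetAt.nu2.bound A
  set W := A + a + E₁ + E₂ + E₃ + E₄ + E₅ + 4 with hW
  refine ⟨14 * W, ?_⟩
  filter_upwards [h₁, h₂, h₃, h₄, h₅, eventually_ge_atTop 16] with M h₁ h₂ h₃ h₄ h₅ hM b C f w x τ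
    δ hP hC hw h20 h11 h02 h12 h03 hq hkk hDD
  have hδ : 0 ≤ δ := (abs_nonneg _).trans hkk
  have hM' : (16 : ℝ) ≤ M := by exact_mod_cast hM
  have hM1 : (1 : ℝ) ≤ M := by linarith
  have hM0 : (0 : ℝ) < M := by linarith
  have hf := hP.smooth
  have hsw := hw.smooth
  have hT := hP.tan hw
  set P := (M : ℝ) ^ W with hPdef
  have hP1 : 1 ≤ P := one_le_pow₀ hM1
  have hle : ∀ {p : ℕ}, p ≤ W → (M : ℝ) ^ p ≤ P := fun h => pow_le_pow_right₀ hM1 h
  have nyy : nv f x (fyy w x) = 0 := (hw.two 0 2 le_rfl (by omega)).trans (by rw [h02]; exact cross_zero₃ _ _)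
  have nxy : nv f x (fxy w x) = 0 := (hw.two 1 1 le_rfl le_rfl).trans (by rw [h11]; exact cross_zero₃ _ _)
  have eyy : ⟪nu2 f x, fyy w x⟫ = 0 := by rw [nu2_eq, inner_nv_nv, nyy, inner_zero_left, neg_zero]
  have exy : ⟪nu2 f x, fxy w x⟫ = 0 := by rw [nu2_eq, inner_nv_nv, nxy, inner_zero_left, neg_zero]
  have fxx1 : ⟪nu1 f x, fxx w x⟫ = 0 := by
    rw [real_inner_comm]; exact (hw.free 2 0 (by omega)).trans (by rw [h20, inner_zero_left])
  have fxy1 : ⟪nu1 f x, fxy w x⟫ = 0 := by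
    rw [real_inner_comm]; exact (hw.free 1 1 (by omega)).trans (by rw [h11, inner_zero_left])
  have w12 : ⟪nu1 f x, pdm 1 2 w x⟫ = 0 := by
    rw [real_inner_comm, hw.free 1 2 le_rfl, h12, inner_zero_left]
  have w03 : ⟪nu1 f x, pdm 0 3 w x⟫ = 0 := by
    rw [real_inner_comm, hw.free 0 3 le_rfl, h03, inner_zero_left]
  have hn1 : ‖nu1 f x‖ ≤ P :=
    (h₄ f x hf ((norm_jet_mono (by omega) f x).trans hP.jets)).1.trans (hle (by omega))
  have hn2 : ‖nu2 f x‖ ≤ P :=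
    (h₅ f x hf ((norm_jet_mono (by omega) f x).trans hP.jets)).1.trans (hle (by omega))
  have hwj : ∀ {i j}, i + j ≤ 10 → ‖pdm i j w x‖ ≤ P := fun h =>
    (norm_pdm_le_jet hsw x h).trans (hw.jets.trans (hle (by omega)))
  have hfj : ∀ {i j}, i + j ≤ 10 → ‖pdm i j f x‖ ≤ P := fun h =>
    (norm_pdm_le_jet hf x h).trans (hP.jets.trans (hle (by omega)))
  have hB : ∀ i, _ := fun i => h₃ f w x hf hsw hP.jets hw.jets i
  have bd : ∀ {c : ℝ}, |c| ≤ (M : ℝ) ^ E₃ → |c| ≤ P := fun h => h.trans (hle (by omega))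
  have hqinv : ∀ {r : ℝ}, ⟪nu1 f x, nu1 f x⟫ * |r| ≤ P ^ 2 * δ → |r| ≤ P ^ 3 * δ := fun {r} h => by
    have h1 : ((M : ℝ) ^ a)⁻¹ * |r| ≤ P ^ 2 * δ :=
      (mul_le_mul_of_nonneg_right hq (abs_nonneg r)).trans h
    rw [inv_mul_le_iff₀ (by positivity)] at h1
    calc |r| ≤ (M : ℝ) ^ a * (P ^ 2 * δ) := h1
      _ ≤ P * (P ^ 2 * δ) := by gcongr; exact hle (by omega)
      _ = P ^ 3 * δ := by ring
  have hρ : |⟪nu2 f x, fxx w x⟫| ≤ P * δ :=
    (h₁ b C f w x τ δ hP hC hw h20 h11 h02 hδ).trans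
      (mul_le_mul_of_nonneg_right (hle (by omega)) hδ)
  -- rotations
  have kkP : |kk f x| ≤ P ^ 3 * δ := hkk.trans (le_mul_of_one_le_left hδ (one_le_pow₀ hP1))
  have rot1 : ∀ {v : R4}, ⟪nu1 f x, v⟫ = 0 → ‖v‖ ≤ P →
      |⟪nv f x v, fxx f x⟫| ≤ P ^ 3 * δ ∧ |⟪nv f x v, fxy f x⟫| ≤ P ^ 3 * δ := by
    intro v hv hvP
    have e2 : |⟪nu2 f x, v⟫| ≤ P * P := (abs_real_inner_le_norm _ _).trans
      (mul_le_mul hn2 hvP (norm_nonneg _) (by positivity))
    refine ⟨?_, ?_⟩ <;> rw [inner_nv_nv, abs_neg] <;> refine hqinv ?_ <;>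
      rw [rot_small f x _ hv]
    · calc |⟪fxx f x, nu1 f x⟫| * |⟪nu2 f x, v⟫| ≤ δ * (P * P) :=
            mul_le_mul hkk e2 (abs_nonneg _) hδ
        _ = P ^ 2 * δ := by ring
    · have : |⟪fxy f x, nu1 f x⟫| ≤ δ := by
        have e : DD f x = 2 * ⟪fxy f x, nu1 f x⟫ := rfl
        rw [e, abs_mul, abs_two] at hDD
        linarith [abs_nonneg ⟪fxy f x, nu1 f x⟫]
      calc |⟪fxy f x, nu1 f x⟫| * |⟪nu2 f x, v⟫| ≤ δ * (P * P) :=
            mul_le_mul this e2 (abs_nonneg _) hδ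
        _ = P ^ 2 * δ := by ring
  have rot2 : ∀ {u : R4}, ‖u‖ ≤ P → |⟪nv f x u, fxx w x⟫| ≤ P ^ 4 * δ := by
    intro u hu
    have h1 : ⟪nu1 f x, nu1 f x⟫ * |⟪nv f x u, fxx w x⟫| ≤ P ^ 3 * δ := by
      rw [rot_small f x u fxx1]
      calc |⟪u, nu1 f x⟫| * |⟪nu2 f x, fxx w x⟫| ≤ (P * P) * (P * δ) :=
            mul_le_mul ((abs_real_inner_le_norm _ _).trans
              (mul_le_mul hu hn1 (norm_nonneg _) (by positivity))) hρ (abs_nonneg _) (by positivity)
        _ = P ^ 3 * δ := by ring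
    have h2 : ((M : ℝ) ^ a)⁻¹ * |⟪nv f x u, fxx w x⟫| ≤ P ^ 3 * δ :=
      (mul_le_mul_of_nonneg_right hq (abs_nonneg _)).trans h1
    rw [inv_mul_le_iff₀ (by positivity)] at h2
    calc _ ≤ (M : ℝ) ^ a * (P ^ 3 * δ) := h2
      _ ≤ P * (P ^ 3 * δ) := by gcongr; exact hle (by omega)
      _ = P ^ 4 * δ := by ring
  -- the junk
  have hG0 := hP.gdet_pos
  have hGinv : (gdet f x)⁻¹ ≤ P := by
    refine (inv_le_comm₀ hG0 (by positivity)).2 (le_trans ?_ hP.gdet_ge)
    refine inv_anti₀ (pow_pos (lt_of_lt_of_le one_pos hP.one_le) 4) ?_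
    exact (pow_le_pow_left₀ (by linarith [hP.one_le]) hC 4).trans (hle (by omega))
  have htr : |tr f w x| ≤ P := by
    refine ((h₂ b C A f w x (C / M) hP hC hT ((norm_jet_mono (by omega) f x).trans hP.jets)
      hw.linF).trans ?_)
    exact (mul_le_of_le_one_right (by positivity) ((div_le_one hM0).2 hC)).trans (hle (by omega))
  have hD2 : |D2 f x| ≤ P ^ 4 * δ := by
    have hb : ⟪nu1 f x, nu1 f x⟫ * |D2 f x| ≤ P ^ 2 * δ := by
      have e := D2_bb f x
      rw [E1_eq, bb_eq] at e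
      calc ⟪nu1 f x, nu1 f x⟫ * |D2 f x| = |DD f x / 2 * dd f x - kk f x * cc f x| := by
            rw [← abs_of_nonneg (real_inner_self_nonneg (x := nu1 f x)), ← abs_mul, ← abs_neg]
            congr 1; linear_combination e
        _ ≤ δ * P + δ * P := by
            refine (abs_sub _ _).trans (add_le_add ?_ ?_) <;> rw [abs_mul]
            · refine mul_le_mul ?_ (bd (hB 3).1) (abs_nonneg _) hδ
              rw [abs_div, abs_two]; linarith [abs_nonneg (DD f x)]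
            · exact mul_le_mul hkk (bd (hB 2).1) (abs_nonneg _) hδ
        _ ≤ P ^ 2 * δ := by
            have : 2 ≤ P := (by linarith : (2 : ℝ) ≤ M).trans (le_self_pow₀ hM1 (by omega))
            nlinarith [mul_nonneg hδ (by linarith : (0 : ℝ) ≤ P)]
    exact (hqinv hb).trans (mul_le_mul_of_nonneg_right (pow_le_pow_right₀ hP1 (by omega)) hδ)
  have vkk : |var kk f w x| ≤ P ^ 4 * δ := by
    rw [hT.var_kk, fxx1, omega_eq, nyy, inner_zero_left, add_zero, add_zero, abs_mul]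
    calc |tr f w x| * |kk f x| ≤ P * δ := mul_le_mul htr hkk (abs_nonneg _) (by positivity)
      _ ≤ _ := mul_le_mul_of_nonneg_right (le_self_pow₀ hP1 (by omega)) hδ
  have vDD : |var DD f w x| ≤ P ^ 4 * δ := by
    rw [hT.var_DD, fxy1, omega_eq, nyy, inner_zero_left, mul_zero, add_zero, add_zero, abs_mul]
    calc |tr f w x| * |DD f x| ≤ P * δ := mul_le_mul htr hDD (abs_nonneg _) (by positivity)
      _ ≤ _ := mul_le_mul_of_nonneg_right (le_self_pow₀ hP1 (by omega)) hδ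
  have vD2 : |var D2 f w x| ≤ P ^ 6 * δ := by
    rw [hT.var_D2, omega_eq f x (fxx f x), inner_nv_nv f x (fxx f x) (fxy w x), nxy, inner_zero_left,
      neg_zero, add_zero, omega_eq, inner_nv_nv]
    refine (abs_add_le _ _).trans ?_
    rw [abs_mul, abs_neg]
    have h1 := mul_le_mul htr hD2 (abs_nonneg _) (by positivity)
    have h2 := rot2 (hfj (i := 1) (j := 1) (by omega))
    rw [show pdm 1 1 f x = fxy f x from rfl] at h2
    calc |tr f w x| * |D2 f x| + |⟪nv f x (fxy f x), fxx w x⟫| ≤ P * (P ^ 4 * δ) + P ^ 4 * δ :=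
          add_le_add h1 h2
      _ ≤ P ^ 6 * δ := by
          have : 2 ≤ P := (by linarith : (2 : ℝ) ≤ M).trans (le_self_pow₀ hM1 (by omega))
          nlinarith [mul_nonneg (mul_nonneg hδ (pow_nonneg (by linarith : (0 : ℝ) ≤ P) 4))
            (by nlinarith : (0 : ℝ) ≤ P ^ 2 - P - 1)]
  have hjunk : ∀ (j g₀ g₁ g₂ : SF) (s : ℝ), JetAt 2 j → JetAt 2 g₀ → JetAt 2 g₁ → JetAt 2 g₂ →
      |s| = 1 →
      (∀ f x, gdet f x * j f x = s * (D2 f x * g₀ f x)
        + -s * (DD f x * ((1 / 2 : ℝ) * g₁ f x)) + s * (kk f x * ((1 / 2 : ℝ) * g₂ f x))) →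
      |j f x| ≤ P → |g₀ f x| ≤ P → |g₁ f x| ≤ P → |g₂ f x| ≤ P →
      |var g₀ f w x| ≤ P → |var g₁ f w x| ≤ P → |var g₂ f w x| ≤ P →
      |var j f w x - tr f w x * j f x| ≤ P ^ 9 * (16 * δ) := by
    intro j g₀ g₁ g₂ s hj hg₀ hg₁ hg₂ hs e bj b₀ b₁ b₂ v₀ v₁ v₂
    have h := var_congr (fun f x _ => e f x) hf hsw (x := x)
    have half := JetFn.const (1 / 2 : ℝ)
    rw [var_mul JetFn.gdet hj.jetFn hf hsw, hT.var_gdet,
      var_add (((JetFn.const s).mul (JetFn.D2.mul hg₀.jetFn)).add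
        ((JetFn.const (-s)).mul (JetFn.DD.mul (half.mul hg₁.jetFn))))
        ((JetFn.const s).mul (JetFn.kk.mul (half.mul hg₂.jetFn))) hf hsw,
      var_add ((JetFn.const s).mul (JetFn.D2.mul hg₀.jetFn))
        ((JetFn.const (-s)).mul (JetFn.DD.mul (half.mul hg₁.jetFn))) hf hsw,
      var_mul (JetFn.const s) (JetFn.D2.mul hg₀.jetFn) hf hsw,
      var_mul (JetFn.const (-s)) (JetFn.DD.mul (half.mul hg₁.jetFn)) hf hsw,
      var_mul (JetFn.const s) (JetFn.kk.mul (half.mul hg₂.jetFn)) hf hsw,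
      var_mul JetFn.D2 hg₀.jetFn hf hsw, var_mul JetFn.DD (half.mul hg₁.jetFn) hf hsw,
      var_mul JetFn.kk (half.mul hg₂.jetFn) hf hsw, var_mul half hg₁.jetFn hf hsw,
      var_mul half hg₂.jetFn hf hsw, var_const, var_const, var_const] at h
    have m : ∀ {u v : ℝ}, |u| ≤ P ^ 6 * δ → |v| ≤ P → |s * (u * v)| ≤ P ^ 7 * δ := fun {u v} hu hv => by
      rw [abs_mul, hs, one_mul, abs_mul]
      calc |u| * |v| ≤ P ^ 6 * δ * P := mul_le_mul hu hv (abs_nonneg _) (by positivity)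
        _ = P ^ 7 * δ := by ring
    have up : ∀ {u : ℝ}, |u| ≤ P ^ 4 * δ → |u| ≤ P ^ 6 * δ := fun h =>
      h.trans (mul_le_mul_of_nonneg_right (pow_le_pow_right₀ hP1 (by omega)) hδ)
    have up0 : ∀ {u : ℝ}, |u| ≤ δ → |u| ≤ P ^ 6 * δ := fun h =>
      h.trans (le_mul_of_one_le_left hδ (one_le_pow₀ hP1))
    have t1 := abs_le.1 (m vD2 b₀)
    have t2 := abs_le.1 (m (up hD2) v₀)
    have half_le' : ∀ {v : ℝ}, |v| ≤ P → |(1 / 2 : ℝ) * v| ≤ P := fun {v} hv => by
      rw [abs_mul, abs_of_pos (by norm_num : (0 : ℝ) < 1 / 2)]; linarith [abs_nonneg v]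
    have t3 := abs_le.1 (m (up vDD) (half_le' b₁))
    have t4 := abs_le.1 (m (up0 hDD) (half_le' v₁))
    have t5 := abs_le.1 (m (up vkk) (half_le' b₂))
    have t6 := abs_le.1 (m (up0 hkk) (half_le' v₂))
    have hGj : |gdet f x * j f x| ≤ 3 * (P ^ 7 * δ) := by
      rw [e]
      have half_le : ∀ {v : ℝ}, |v| ≤ P → |(1 / 2 : ℝ) * v| ≤ P := fun {v} hv => by
        rw [abs_mul, abs_of_pos (by norm_num : (0 : ℝ) < 1 / 2)]; linarith [abs_nonneg v]
      have u1 := abs_le.1 (m (up hD2) b₀)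
      have u2 := abs_le.1 (m (up0 hDD) (half_le b₁))
      have u3 := abs_le.1 (m (up0 hkk) (half_le b₂))
      rw [abs_le]; constructor <;> linarith
    have hk : |tr f w x * (gdet f x * j f x)| ≤ 3 * (P ^ 8 * δ) := by
      rw [abs_mul]
      calc |tr f w x| * |gdet f x * j f x| ≤ P * (3 * (P ^ 7 * δ)) :=
            mul_le_mul htr hGj (abs_nonneg _) (by positivity)
        _ = _ := by ring
    have h78 : P ^ 7 * δ ≤ P ^ 8 * δ :=
      mul_le_mul_of_nonneg_right (pow_le_pow_right₀ hP1 (by omega)) hδ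
    have hk' := abs_le.1 hk
    have hGd : |gdet f x * (var j f w x - tr f w x * j f x)| ≤ 16 * (P ^ 8 * δ) := by
      rw [abs_le]; constructor <;> linarith
    rw [abs_mul, abs_of_pos hG0] at hGd
    calc |var j f w x - tr f w x * j f x|
        = (gdet f x)⁻¹ * (gdet f x * |var j f w x - tr f w x * j f x|) := by
          rw [← mul_assoc, inv_mul_cancel₀ hG0.ne', one_mul]
      _ ≤ P * (16 * (P ^ 8 * δ)) := mul_le_mul hGinv hGd (by positivity) (by positivity)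
      _ = _ := by ring
  have hjx : |var jx f w x - tr f w x * jx f x| ≤ P ^ 9 * (16 * δ) :=
    hjunk jx (fun f x => gam f x 1 2) (fun f x => gam f x 1 0) (fun f x => gam f x 1 1) 1 JetAt.jx
      (JetAt.gam 1 2) (JetAt.gam 1 0) (JetAt.gam 1 1) abs_one
      (fun f x => by rw [gdet_jx]; ring)
      (bd (hB 5).1) (bd (hB 7).1) (bd (hB 8).1) (bd (hB 9).1)
      (bd (hB 7).2) (bd (hB 8).2) (bd (hB 9).2)
  have hjy : |var jy f w x - tr f w x * jy f x| ≤ P ^ 9 * (16 * δ) :=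
    hjunk jy (fun f x => gam f x 0 2) (fun f x => gam f x 0 0) (fun f x => gam f x 0 1) (-1) JetAt.jy
      (JetAt.gam 0 2) (JetAt.gam 0 0) (JetAt.gam 0 1) (by simp)
      (fun f x => by rw [gdet_jy]; ring)
      (bd (hB 6).1) (bd (hB 10).1) (bd (hB 11).1) (bd (hB 12).1)
      (bd (hB 10).2) (bd (hB 11).2) (bd (hB 12).2)
  have J30 : JetFn fun f x => pdm 3 0 f x := ((JetFn.pd_self 0).pd 0).pd 0
  have J21 : JetFn fun f x => pdm 2 1 f x := ((JetFn.pd_self 1).pd 0).pd 0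
  have J12 : JetFn fun f x => pdm 1 2 f x := ((JetFn.pd_self 1).pd 1).pd 0
  have J03 : JetFn fun f x => pdm 0 3 f x := ((JetFn.pd_self 1).pd 1).pd 1
  have v30 : var (fun f x => pdm 3 0 f x) f w x = pdm 3 0 w x := var_pd3_self hf hsw 0 0 0
  have v21 : var (fun f x => pdm 2 1 f x) f w x = pdm 2 1 w x := var_pd3_self hf hsw 0 0 1
  have v12 : var (fun f x => pdm 1 2 f x) f w x = pdm 1 2 w x := var_pd3_self hf hsw 0 1 1
  have v03 : var (fun f x => pdm 0 3 f x) f w x = pdm 0 3 w x := var_pd3_self hf hsw 1 1 1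
  obtain ⟨sxx, sxy, syy⟩ := var_second (x := x) hf hsw
  have r12 := rot1 w12 (hwj (i := 1) (j := 2) (by omega))
  have r03 := rot1 w03 (hwj (i := 0) (j := 3) (by omega))
  have q12 := rot2 (hfj (i := 1) (j := 2) (by omega))
  have q03 := rot2 (hfj (i := 0) (j := 3) (by omega))
  have zxy : ∀ u, ⟪nv f x u, fxy w x⟫ = 0 := fun u => by
    rw [inner_nv_nv, nxy, inner_zero_left, neg_zero]
  have zyy : ∀ u, omega f x (fyy w x) u = 0 := fun u => by rw [omega_eq, nyy, inner_zero_left]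
  have t30 : omega f x (fyy f x) (pdm 3 0 w x) = ⟪τ 3 0, nu1 f x⟫ := by
    rw [← hw.free 3 0 le_rfl, real_inner_comm]; rfl
  have t21 : omega f x (fyy f x) (pdm 2 1 w x) = ⟪τ 2 1, nu1 f x⟫ := by
    rw [← hw.free 2 1 le_rfl, real_inner_comm]; rfl
  have t12 : omega f x (fyy f x) (pdm 1 2 w x) = 0 := w12
  have hkx : var (fun f x => pd 0 (kk f) x) f w x - tr f w x * pd 0 (kk f) x =
      (var jx f w x - tr f w x * jx f x) + ⟪nv f x (pdm 1 2 w x), fxx f x⟫
        + ⟪nv f x (pdm 1 2 f x), fxx w x⟫ + ⟪τ 3 0, nu1 f x⟫ := by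
    rw [var_congr (fun f x hf => pd0_kk hf x) hf hsw,
      var_add (JetAt.jx.jetFn.add (JetFn.omega J12 JetFn.fxx)) (JetFn.omega JetFn.fyy J30) hf hsw,
      var_add JetAt.jx.jetFn (JetFn.omega J12 JetFn.fxx) hf hsw, hT.var_omega J12 JetFn.fxx,
      hT.var_omega JetFn.fyy J30, v12, v30, sxx, syy, zyy, t30, pd0_kk hf]
    simp only [omega_eq]
    ring
  have hky : var (fun f x => pd 1 (kk f) x) f w x - tr f w x * pd 1 (kk f) x =
      -(var jy f w x - tr f w x * jy f x) + ⟪nv f x (pdm 0 3 w x), fxx f x⟫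
        + ⟪nv f x (pdm 0 3 f x), fxx w x⟫ + ⟪τ 2 1, nu1 f x⟫ := by
    rw [var_congr (fun f x hf => pd1_kk hf x) hf hsw,
      var_add (JetAt.jy.jetFn.neg.add (JetFn.omega J03 JetFn.fxx)) (JetFn.omega JetFn.fyy J21) hf hsw,
      var_add JetAt.jy.jetFn.neg (JetFn.omega J03 JetFn.fxx) hf hsw, var_neg JetAt.jy.jetFn hf hsw,
      hT.var_omega J03 JetFn.fxx, hT.var_omega JetFn.fyy J21, v03, v21, sxx, syy, zyy, t21,
      pd1_kk hf]
    simp only [omega_eq]
    ring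
  have hDx : var (fun f x => pd 0 (DD f) x) f w x - tr f w x * pd 0 (DD f) x =
      2 * ((var jy f w x - tr f w x * jy f x) + ⟪nv f x (pdm 1 2 w x), fxy f x⟫)
        + 2 * ⟪τ 2 1, nu1 f x⟫ := by
    rw [var_congr (fun f x hf => pd0_DD hf x) hf hsw,
      var_mul (JetFn.const (2 : ℝ))
        ((JetAt.jy.jetFn.add (JetFn.omega J12 JetFn.fxy)).add (JetFn.omega JetFn.fyy J21)) hf hsw,
      var_const,
      var_add (JetAt.jy.jetFn.add (JetFn.omega J12 JetFn.fxy)) (JetFn.omega JetFn.fyy J21) hf hsw,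
      var_add JetAt.jy.jetFn (JetFn.omega J12 JetFn.fxy) hf hsw,
      hT.var_omega J12 JetFn.fxy, hT.var_omega JetFn.fyy J21, v12, v21, sxy, syy, zyy, t21,
      omega_eq f x (pdm 1 2 f x) (fxy w x), zxy, pd0_DD hf]
    simp only [omega_eq]
    ring
  have hDy : var (fun f x => pd 1 (DD f) x) f w x - tr f w x * pd 1 (DD f) x =
      2 * ⟪nv f x (pdm 0 3 w x), fxy f x⟫ := by
    rw [var_congr (fun f x hf => pd1_DD hf x) hf hsw,
      var_mul (JetFn.const (2 : ℝ))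
        ((JetFn.omega J03 JetFn.fxy).add (JetFn.omega JetFn.fyy J12)) hf hsw,
      var_const, var_add (JetFn.omega J03 JetFn.fxy) (JetFn.omega JetFn.fyy J12) hf hsw,
      hT.var_omega J03 JetFn.fxy, hT.var_omega JetFn.fyy J12, v03, v12, sxy, syy, zyy, t12,
      omega_eq f x (pdm 0 3 f x) (fxy w x), zxy, pd1_DD hf]
    simp only [omega_eq]
    ring
  have hA : |gdet f x * (bb f x * ⟪nu2 f x, fxx w x⟫)| ≤ P ^ 9 * δ := by
    rw [abs_mul, abs_mul]
    calc |gdet f x| * (|bb f x| * |⟪nu2 f x, fxx w x⟫|) ≤ P * (P * (P * δ)) :=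
          mul_le_mul (bd (hB 0).1) (mul_le_mul (bd (hB 1).1) hρ (abs_nonneg _) (by positivity))
            (by positivity) (by positivity)
      _ ≤ P ^ 9 * δ := by
          rw [← mul_assoc, ← mul_assoc, ← pow_two, ← pow_succ]
          exact mul_le_mul_of_nonneg_right (pow_le_pow_right₀ hP1 (by omega)) hδ
  have h49 : P ^ 4 * δ ≤ P ^ 9 * δ :=
    mul_le_mul_of_nonneg_right (pow_le_pow_right₀ hP1 (by omega)) hδ
  have h39 : P ^ 3 * δ ≤ P ^ 9 * δ :=
    mul_le_mul_of_nonneg_right (pow_le_pow_right₀ hP1 (by omega)) hδ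
  have hfin : 64 * (P ^ 9 * δ) ≤ (M : ℝ) ^ (14 * W) * δ := by
    rw [← mul_assoc]
    refine mul_le_mul_of_nonneg_right ?_ hδ
    have hPM : (M : ℝ) ≤ P := le_self_pow₀ hM1 (by omega)
    calc 64 * P ^ 9 ≤ (P * P) * P ^ 9 := by
          refine mul_le_mul_of_nonneg_right ?_ (by positivity)
          nlinarith
      _ = P ^ 11 := by ring
      _ ≤ _ := by rw [hPdef, ← pow_mul]; exact pow_le_pow_right₀ hM1 (by omega)
  have hz : 0 ≤ (M : ℝ) ^ (14 * W) * δ := by positivity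
  refine (pi_norm_le_iff_of_nonneg hz).2 fun i => ?_
  rw [Pi.sub_apply, Pi.add_apply, Pi.smul_apply, smul_eq_mul, var_apply JetAt.zv.jetFn hf hsw,
    Real.norm_eq_abs]
  have z9 : 0 ≤ P ^ 9 * δ := by positivity
  have jx' := abs_le.1 hjx
  have jy' := abs_le.1 hjy
  have a1 := abs_le.1 r12.1
  have a2 := abs_le.1 r12.2
  have a3 := abs_le.1 r03.1
  have a4 := abs_le.1 r03.2
  have a5 := abs_le.1 q12
  have a6 := abs_le.1 q03
  fin_cases i
  · simp [zv, eul, hT.var_Del, eyy]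
    rw [abs_le]; constructor <;> linarith
  · simp [zv, eul, hT.var_A10, eyy, nyy]
    have hA' := abs_le.1 hA
    rw [abs_le]; constructor <;> linarith
  · simp [zv, eul, hT.var_A11, exy, eyy, nyy]
    rw [abs_le]; constructor <;> linarith
  · simp [zv, eul]
    rw [abs_le]; constructor <;> linarith
  · simp [zv, eul]
    rw [abs_le]; constructor <;> linarith
  · simp [zv, eul]
    rw [abs_le]; constructor <;> linarith
  · simp [zv, eul]
    rw [abs_le]; constructor <;> linarith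

theorem SlowDir.mono {b : Bool} {C : ℝ} {A : ℕ} {ζ ζ' : ℝ} {M : ℕ} {f : E2 → R4} {x : E2}
    {τ : ℕ → ℕ → R4} {w : E2 → R4} (h : SlowDir b C A ζ M f x τ w) (hz : ζ ≤ ζ') :
    SlowDir b C A ζ' M f x τ w :=
  ⟨h.smooth, h.jets, h.first, h.all, h.two, h.free, fun hb i j hij => (h.linT hb i j hij).trans hz,
    h.linF⟩

/-- The squared size of `ν₁`. -/
noncomputable def q1sq : SF := fun f x => ⟪nu1 f x, nu1 f x⟫

theorem JetAt.q1sq : JetAt 2 P205F.q1sq := JetAt.nu1.inner JetAt.nu1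

/-- The direction of a third jet. -/
noncomputable def eDir (r : Bool) : Z7 := if r then eQ else eP

/-- One step of the hierarchy: `h` small and its derivative not small. -/
theorem stepA {m k : ℕ} {h : Z7 → ℝ} (hh : Hom m k h) (hg : h.HasTemperateGrowth) (r : Bool)
    (A c : ℕ) : ∃ c' S : ℕ, ∀ (b : Bool) (σ s V d : ℕ) (K : Set E2) (C δ : ℝ), S ≤ σ → S ≤ s →
      IsCompact K → 0 < δ → ∀ᶠ M : ℕ in atTop, ∀ F : (Fin d → ℝ) → E2 → R4,
        Setup b F K C A V s M → volume (Bad F K fun f x =>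
          max |kk f x| |DD f x| ≤ ((M : ℝ) ^ σ)⁻¹ ∧ |h (zv f x)| ≤ ((M : ℝ) ^ c')⁻¹ ∧
          ((M : ℝ) ^ c)⁻¹ ≤ q1sq f x ∧ ((M : ℝ) ^ c)⁻¹ ≤ |dstep (eDir r) h (zv f x)|)
          ≤ ENNReal.ofReal δ := by
  obtain ⟨E₁, h₁⟩ := zv_var A (c + 1)
  obtain ⟨E₂, h₂⟩ := tr_small A
  obtain ⟨E₄, h₄⟩ := JetAt.nu1.bound A
  obtain ⟨Ez, hz⟩ := JetAt.zv.bound A
  obtain ⟨Eh, hh'⟩ := temperate_bound (hasTemperateGrowth_fderiv hg) Ez
  set Em := 2 * (c + 1) + E₄ with hEm
  set E := A + Em + 2 with hE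
  set φ : Fin 3 → SF := ![kk, DD, fun f x => h (zv f x)] with hφdef
  have hφ : ∀ i, JetAt 10 (φ i) := fun i => by
    fin_cases i
    · exact JetAt.kk.mono (by omega)
    · exact JetAt.DD.mono (by omega)
    · exact (JetAt.zv.comp hg).mono (by omega)
  set ψ : Fin 2 → SF := ![q1sq, fun f x => dstep (eDir r) h (zv f x)] with hψdef
  have hψ : ∀ i, JetAt 10 (ψ i) := fun i => by
    fin_cases i
    · exact JetAt.q1sq.mono (by omega)
    · exact (JetAt.zv.comp (temperate_dstep hg _)).mono (by omega)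
  obtain ⟨B, L, hBL⟩ := bad_small le_rfl φ ψ hφ hψ A E A c
  set c' := 8 * L + c + B + E + E₁ + E₂ + Eh + 3 with hc'
  refine ⟨c', c', fun b σ s V d K C δ hσ hs hK hδ => ?_⟩
  filter_upwards [h₁, h₂, h₄, hz, hh', hBL c' (by omega) d K δ hK hδ,
    eventually_ge_atTop (max 4 (6 * m + k)),
    (tendsto_natCast_atTop_atTop (R := ℝ)).eventually_ge_atTop C]
    with M h₁ h₂ h₄ hz hh' hM' hM hCM F hF
  have hM4 : (4 : ℝ) ≤ M := by exact_mod_cast le_of_max_le_left hM
  have hM2 : (2 : ℝ) ≤ M := by linarith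
  have hM1 : (1 : ℝ) ≤ M := by linarith
  have hMk : ((6 * m + k : ℕ) : ℝ) ≤ M := by exact_mod_cast le_of_max_le_right hM
  have hpow : ∀ {p q : ℕ}, p ≤ q → ((M : ℝ) ^ q)⁻¹ ≤ ((M : ℝ) ^ p)⁻¹ := fun h =>
    inv_anti₀ (by positivity) (pow_le_pow_right₀ hM1 h)
  refine (measure_mono ?_).trans (hM' F hF.bdd ?_)
  · rintro l ⟨hl, x, hx, hkD, hsm, hq, hd⟩
    refine ⟨hl, x, hx, fun i => ?_, fun j => ?_⟩
    · fin_cases i
      · exact (le_max_left _ _).trans (hkD.trans (hpow hσ))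
      · exact (le_max_right _ _).trans (hkD.trans (hpow hσ))
      · exact hsm
    · fin_cases j
      · exact hq.trans (le_abs_self _)
      · exact hd
  intro l hl x hx hsm hbig
  set f := F l with hfdef
  have hP := hF.pt l hl x hx
  have hf := hP.smooth
  set ζ := ((M : ℝ) ^ (c' - L))⁻¹ with hζ
  have hζ0 : 0 ≤ ζ := by positivity
  have hkk : |kk f x| ≤ ζ := hsm 0
  have hDD : |DD f x| ≤ ζ := hsm 1
  have hh0 : |h (zv f x)| ≤ ζ := hsm 2
  have hq : ((M : ℝ) ^ (c + 1))⁻¹ ≤ ⟪nu1 f x, nu1 f x⟫ :=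
    (hbig 0).trans_eq (abs_of_nonneg real_inner_self_nonneg)
  have hd : ((M : ℝ) ^ (c + 1))⁻¹ ≤ |dstep (eDir r) h (zv f x)| := hbig 1
  obtain ⟨hu, hun, hu0, hun1, -⟩ := unit1_props f x
  have hn : ((M : ℝ) ^ (c + 1 + E₄))⁻¹ ≤ ‖nu1 f x‖ := by
    have hb := (h₄ f x hf ((norm_jet_mono (by omega) f x).trans hP.jets)).1
    rw [real_inner_self_eq_norm_sq, pow_two] at hq
    rw [pow_add, mul_inv, ← div_eq_mul_inv, div_le_iff₀ (by positivity)]
    exact hq.trans (mul_le_mul_of_nonneg_left hb (norm_nonneg _))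
  -- a direction with a single jet
  have dir : ∀ p q, 2 ≤ p + q → p + q ≤ 3 → ∃ v, ‖v‖ ≤ (M : ℝ) ^ A ∧
      ‖jet 10 (dlam F l v) x‖ ≤ (M : ℝ) ^ E ∧
      SlowDir b C A ζ M f x (single2 p q (unit1 f x)) (dlam F l v) ∧
      |tr f (dlam F l v) x| ≤ (M : ℝ) ^ E₂ := by
    intro p q hpq _
    obtain ⟨v, hv, hw⟩ := hF.slow l hl x hx (single2 p q (unit1 f x))
      (single2_ok hpq hu hun fun _ => Or.inr hu0)
    have hw' := hw.mono (hpow (show c' - L ≤ s by omega))
    refine ⟨v, hv, hw.jets.trans (pow_le_pow_right₀ hM1 (by omega)),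
      hw', ?_⟩
    refine (h₂ b C A f (dlam F l v) x (C / M) hP hCM (hP.tan hw)
      ((norm_jet_mono (by omega) f x).trans hP.jets) hw.linF).trans ?_
    exact mul_le_of_le_one_right (by positivity) ((div_le_one (by positivity)).2 hCM)
  have small : ∀ {a t : ℝ}, |t| ≤ ζ → |a| ≤ (M : ℝ) ^ E₂ → |a * t| ≤ ((M : ℝ) ^ B)⁻¹ := fun ht ha => by
    refine pw_small hM2 (σ := c' - L) (E := E₂) (by omega) ?_
    rw [abs_mul]; exact mul_le_mul ha ht (abs_nonneg _) (by positivity)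
  have single_ne : ∀ {p q i j : ℕ}, ¬(i = p ∧ j = q) → single2 p q (unit1 f x) i j = 0 :=
    fun h => if_neg h
  have nyy0 : ∀ {p q v}, ¬(0 = p ∧ 2 = q) →
      SlowDir b C A ζ M f x (single2 p q (unit1 f x)) v → nv f x (fyy v x) = 0 :=
    fun hne hw => (hw.two 0 2 le_rfl (by omega)).trans (by rw [single_ne hne]; exact cross_zero₃ _ _)
  intro j
  fin_cases j
  · obtain ⟨v, hv, hj, hw, htr⟩ := dir 2 0 le_rfl (by omega)
    refine ⟨v, hv, hj, fun i hi => absurd hi (by simp), ?_⟩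
    have e : var (φ 0) f (dlam F l v) x = ‖nu1 f x‖ + tr f (dlam F l v) x * kk f x := by
      show var kk f _ x = _
      rw [(hP.tan hw).var_kk, omega_eq, nyy0 (by omega) hw, inner_zero_left, add_zero,
        real_inner_comm, show ⟪fxx (dlam F l v) x, nu1 f x⟫ = _ from hw.free 2 0 (by omega),
        single2, if_pos ⟨rfl, rfl⟩, hun1, add_comm]
    show _ ≤ |var (φ 0) f _ x|
    rw [e]
    refine pw_diag hM2 (E := c + 1 + E₄) (by omega) (hn.trans (le_abs_self _)) ?_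
    refine pw_small hM2 (σ := c' - L) (E := E₂) (by omega) ?_
    rw [abs_mul]; exact mul_le_mul htr hkk (abs_nonneg _) (by positivity)
  · obtain ⟨v, hv, hj, hw, htr⟩ := dir 1 1 le_rfl (by omega)
    refine ⟨v, hv, hj, fun i hi => ?_, ?_⟩
    · obtain rfl : i = 0 := by
        have h1 : (i : ℕ) < 1 := hi
        exact Fin.ext (by simp; omega)
      show |var kk f _ x| ≤ _
      rw [(hP.tan hw).var_kk, omega_eq, nyy0 (by omega) hw, inner_zero_left, add_zero,
        real_inner_comm, show ⟪fxx (dlam F l v) x, nu1 f x⟫ = _ from hw.free 2 0 (by omega),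
        single_ne (by omega), inner_zero_left, add_zero]
      exact small hkk htr
    · have e : var DD f (dlam F l v) x = 2 * ‖nu1 f x‖ + tr f (dlam F l v) x * DD f x := by
        rw [(hP.tan hw).var_DD, omega_eq, nyy0 (by omega) hw, inner_zero_left, mul_zero, add_zero,
          real_inner_comm, show ⟪fxy (dlam F l v) x, nu1 f x⟫ = _ from hw.free 1 1 (by omega),
          single2, if_pos ⟨rfl, rfl⟩, hun1, add_comm]
      show _ ≤ |var DD f _ x|
      rw [e]
      refine pw_diag hM2 (E := c + 1 + E₄) (by omega) ?_ ?_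
      · rw [abs_of_nonneg (by positivity : (0 : ℝ) ≤ 2 * ‖nu1 f x‖)]; linarith [norm_nonneg (nu1 f x)]
      · refine pw_small hM2 (σ := c' - L) (E := E₂) (by omega) ?_
        rw [abs_mul]; exact mul_le_mul htr hDD (abs_nonneg _) (by positivity)
  · obtain ⟨v, hv, hj, hw, htr⟩ :=
      dir (if r then 2 else 3) (if r then 1 else 0) (by cases r <;> simp) (by cases r <;> simp)
    refine ⟨v, hv, hj, fun i hi => ?_, ?_⟩
    · have n02 := nyy0 (p := if r then 2 else 3) (q := if r then 1 else 0) (by cases r <;> simp) hw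
      fin_cases i
      · show |var kk f _ x| ≤ _
        rw [(hP.tan hw).var_kk, omega_eq, n02, inner_zero_left, add_zero,
          real_inner_comm, show ⟪fxx (dlam F l v) x, nu1 f x⟫ = _ from hw.free 2 0 (by omega),
          single_ne (by cases r <;> simp), inner_zero_left, add_zero]
        exact small hkk htr
      · show |var DD f _ x| ≤ _
        rw [(hP.tan hw).var_DD, omega_eq, n02, inner_zero_left, mul_zero, add_zero,
          real_inner_comm, show ⟪fxy (dlam F l v) x, nu1 f x⟫ = _ from hw.free 1 1 (by omega),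
          single_ne (by cases r <;> simp), inner_zero_left, mul_zero, add_zero]
        exact small hDD htr
      · simp at hi
    · have hz' := h₁ b C f (dlam F l v) x _ ζ hP hCM hw
        (single_ne (by cases r <;> simp)) (single_ne (by cases r <;> simp))
        (single_ne (by cases r <;> simp)) (single_ne (by cases r <;> simp))
        (single_ne (by cases r <;> simp)) hq hkk hDD
      have evec : (![0, 0, 0, ⟪single2 (if r then 2 else 3) (if r then 1 else 0) (unit1 f x) 3 0, nu1 f x⟫,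
          ⟪single2 (if r then 2 else 3) (if r then 1 else 0) (unit1 f x) 2 1, nu1 f x⟫,
          2 * ⟪single2 (if r then 2 else 3) (if r then 1 else 0) (unit1 f x) 2 1, nu1 f x⟫, 0] : Z7)
          = ‖nu1 f x‖ • eDir r := by
        funext i
        cases r <;> fin_cases i <;> simp [single2, eDir, eP, eQ, hun1] <;> ring
      rw [evec] at hz'
      set R := var zv f (dlam F l v) x - (tr f (dlam F l v) x • eul (zv f x) + ‖nu1 f x‖ • eDir r)
      have hdiff : Differentiable ℝ h := hg.1.differentiable (by simp)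
      have e : var (fun f x => h (zv f x)) f (dlam F l v) x =
          ‖nu1 f x‖ * dstep (eDir r) h (zv f x)
            + (tr f (dlam F l v) x * ((6 * m + k : ℕ) * h (zv f x)) + fderiv ℝ h (zv f x) R) := by
        rw [var_comp JetAt.zv.jetFn hf hw.smooth hdiff,
          show var zv f (dlam F l v) x =
            tr f (dlam F l v) x • eul (zv f x) + ‖nu1 f x‖ • eDir r + R by simp [R],
          map_add, map_add, map_smul, map_smul, hh.euler hdiff, smul_eq_mul, smul_eq_mul]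
        simp only [dstep]
        ring
      show _ ≤ |var (fun f x => h (zv f x)) f _ x|
      rw [e]
      refine pw_diag hM2 (E := Em) (by omega) ?_ ?_
      · rw [hEm, show 2 * (c + 1) + E₄ = (c + 1 + E₄) + (c + 1) by ring, pow_add, mul_inv, abs_mul,
          abs_norm]
        exact mul_le_mul hn hd (by positivity) (norm_nonneg _)
      · refine pw_small hM2 (σ := c' - L) (E := E₂ + E₁ + Eh + 2) (by omega) ?_
        refine (abs_add_le _ _).trans ?_
        have t1 : |tr f (dlam F l v) x * ((6 * m + k : ℕ) * h (zv f x))| ≤ (M : ℝ) ^ (E₂ + 1) * ζ := by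
          rw [abs_mul, abs_mul, Nat.abs_cast, pow_succ, mul_assoc]
          exact mul_le_mul htr (mul_le_mul hMk hh0 (abs_nonneg _) (by positivity)) (by positivity)
            (by positivity)
        have t2 : |fderiv ℝ h (zv f x) R| ≤ (M : ℝ) ^ (Eh + E₁) * ζ := by
          rw [← Real.norm_eq_abs, pow_add, mul_assoc]
          exact (ContinuousLinearMap.le_opNorm _ _).trans (mul_le_mul
            (hh' _ (hz f x hf ((norm_jet_mono (by omega) f x).trans hP.jets)).1) hz' (norm_nonneg _)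
            (by positivity))
        refine (add_le_add t1 t2).trans ?_
        rw [← add_mul]
        refine mul_le_mul_of_nonneg_right ?_ hζ0
        calc (M : ℝ) ^ (E₂ + 1) + (M : ℝ) ^ (Eh + E₁)
            ≤ 2 * (M : ℝ) ^ (E₂ + E₁ + Eh + 1) := by
              have := pow_le_pow_right₀ hM1 (show E₂ + 1 ≤ E₂ + E₁ + Eh + 1 by omega)
              have := pow_le_pow_right₀ hM1 (show Eh + E₁ ≤ E₂ + E₁ + Eh + 1 by omega)
              linarith
          _ ≤ M * (M : ℝ) ^ (E₂ + E₁ + Eh + 1) := by gcongr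
          _ = _ := by rw [← pow_succ']

end Vale.Agent.P205F
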