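import Vale.Agent.P205F.GoodProb.CaseA
import Vale.Agent.P205F.GoodAlg.G2Limit

/-!
# P205, GoodProb: bounds modulo `N`

`c ≡ c'` modulo `N` with cofactors of unknown jet order: evaluate them at the Taylor polynomial,
whose jets of all orders are bounded by the `N`-jet of the map.
-/

namespace Vale.Agent.P205F

open scoped ContDiff Nat
open Filter

theorem pdm_sum {X ι : Type*} [NormedAddCommGroup X] [NormedSpace ℝ X] (s : Finset ι)
    {F : ι → E2 → X} (hF : ∀ p ∈ s, ContDiff ℝ ∞ (F p)) (i j : ℕ) (x : E2) :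
    pdm i j (fun z => ∑ p ∈ s, F p z) x = ∑ p ∈ s, pdm i j (F p) x := by
  have step : ∀ (k : Fin 2) (G : ι → E2 → X), (∀ p ∈ s, ContDiff ℝ ∞ (G p)) →
      pd k (fun z => ∑ p ∈ s, G p z) = fun z => ∑ p ∈ s, pd k (G p) z := fun k G hG => by
    funext z
    simp only [pd]
    rw [fderiv_fun_sum fun p hp => (hG p hp).differentiable (by simp) z]
    simp
  have iter : ∀ (k : Fin 2) (n : ℕ) (G : ι → E2 → X), (∀ p ∈ s, ContDiff ℝ ∞ (G p)) →
      (pd k)^[n] (fun z => ∑ p ∈ s, G p z) = fun z => ∑ p ∈ s, (pd k)^[n] (G p) z := by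
    intro k n G hG
    induction n with
    | zero => rfl
    | succ n ih =>
      simp only [Function.iterate_succ_apply', ih]
      exact step k _ fun p hp => contDiff_pd_iter (hG p hp) k n
  show (pd 0)^[i] ((pd 1)^[j] fun z => ∑ p ∈ s, F p z) x = _
  rw [iter 1 j F hF, iter 0 i _ fun p hp => contDiff_pd_iter (hF p hp) 1 j]
  rfl

/-- The Taylor polynomial of order `N`. -/
noncomputable def taylor (N : ℕ) (f : E2 → R4) (x : E2) : E2 → R4 := fun z =>
  ∑ p ∈ (Finset.range (N + 1) ×ˢ Finset.range (N + 1)).filter (fun p => p.1 + p.2 ≤ N),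
    mono x p.1 p.2 (pdm p.1 p.2 f x) z

theorem contDiff_taylor (N : ℕ) (f : E2 → R4) (x : E2) : ContDiff ℝ ∞ (taylor N f x) :=
  ContDiff.sum fun _ _ => contDiff_mono _ _ _ _

theorem pdm_taylor (N : ℕ) (f : E2 → R4) (x : E2) (i j : ℕ) :
    pdm i j (taylor N f x) x = if i + j ≤ N then pdm i j f x else 0 := by
  unfold taylor
  rw [pdm_sum _ (fun p _ => contDiff_mono _ _ _ _)]
  simp only [pdm_mono]
  split_ifs with h
  · rw [Finset.sum_eq_single (i, j)]
    · simp
    · intro p _ hp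
      rw [if_neg fun e => hp (Prod.ext e.1.symm e.2.symm)]
    · intro hn
      exact absurd (by simp; omega) hn
  · refine Finset.sum_eq_zero fun p hp => if_neg fun e => h ?_
    have := (Finset.mem_filter.1 hp).2
    omega

/-- Two functions congruent modulo `N` differ by little when `N` is small. -/
theorem ModN.le_of_small {c c' : SF} (h : ModN c c') {N : ℕ} (hN : 2 ≤ N) (hc : JetAt N c)
    (hc' : JetAt N c') (A : ℕ) :
    ∃ E : ℕ, ∀ᶠ M : ℕ in atTop, ∀ f x, ContDiff ℝ ∞ f → ‖jet N f x‖ ≤ (M : ℝ) ^ A →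
      |c f x - c' f x| ≤ (M : ℝ) ^ E * max |kk f x| |DD f x| := by
  obtain ⟨X, Y, hX, hY, e⟩ := h
  obtain ⟨nX, gX, hgX, eX⟩ := hX
  obtain ⟨nY, gY, hgY, eY⟩ := hY
  obtain ⟨EX, bX⟩ := temperate_bound hgX (A + 1)
  obtain ⟨EY, bY⟩ := temperate_bound hgY (A + 1)
  refine ⟨EX + EY + 1, ?_⟩
  filter_upwards [bX, bY, eventually_ge_atTop (max 2 (2 ^ (nX + nY)))] with M bX bY hM f x hf hj
  have hM2 : (2 : ℝ) ≤ M := by exact_mod_cast le_of_max_le_left hM
  have hM1 : (1 : ℝ) ≤ M := by linarith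
  have hMn : (2 : ℝ) ^ (nX + nY) ≤ M := by exact_mod_cast le_of_max_le_right hM
  set g := taylor N f x with hg
  have hgs : ContDiff ℝ ∞ g := contDiff_taylor N f x
  have heq : jet N g x = jet N f x := by
    refine sub_eq_zero.1 (norm_le_zero_iff.1 ((norm_jet_sub_le hgs hf le_rfl fun i j h => ?_).trans_eq
      (mul_zero _)))
    rw [pdm_taylor, if_pos h, sub_self, norm_zero]
  have hjet : ∀ n, n ≤ nX + nY → ‖jet n g x‖ ≤ (M : ℝ) ^ (A + 1) := fun n hn => by
    refine (pi_norm_le_iff_of_nonneg (by positivity)).2 fun k => ?_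
    have hk : (k : ℕ) ≤ n := Nat.lt_succ_iff.1 k.isLt
    refine (norm_iteratedFDeriv_le_pdm hgs (B := (M : ℝ) ^ A) (by positivity) fun i j _ => ?_).trans ?_
    · rw [pdm_taylor]
      split_ifs with h
      · exact (norm_pdm_le_jet hf x h).trans hj
      · simp
    · rw [pow_succ, mul_comm _ (M : ℝ)]
      exact mul_le_mul_of_nonneg_right
        ((pow_le_pow_right₀ one_le_two (hk.trans hn)).trans hMn) (by positivity)
  have same : ∀ {d : SF} {n : ℕ}, n ≤ N → JetAt n d → d g x = d f x := fun {d n} hn hd => by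
    obtain ⟨u, -, eu⟩ := hd.mono hn
    rw [eu g x hgs, eu f x hf, heq]
  have E1 := e g x hgs
  rw [same le_rfl hc, same le_rfl hc', same hN JetAt.kk, same hN JetAt.DD] at E1
  have b1 : |X g x| ≤ (M : ℝ) ^ EX := by rw [eX g x hgs]; exact bX _ (hjet nX (by omega))
  have b2 : |Y g x| ≤ (M : ℝ) ^ EY := by rw [eY g x hgs]; exact bY _ (hjet nY (by omega))
  rw [E1, show c' f x + kk f x * X g x + DD f x * Y g x - c' f x =
    kk f x * X g x + DD f x * Y g x by ring]
  set m := max |kk f x| |DD f x| with hm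
  have hm0 : 0 ≤ m := (abs_nonneg _).trans (le_max_left _ _)
  have hp1 := pow_le_pow_right₀ hM1 (show EX ≤ EX + EY by omega)
  have hp2 := pow_le_pow_right₀ hM1 (show EY ≤ EX + EY by omega)
  calc |kk f x * X g x + DD f x * Y g x| ≤ m * (M : ℝ) ^ EX + m * (M : ℝ) ^ EY := by
        refine (abs_add_le _ _).trans ?_
        rw [abs_mul, abs_mul]
        exact add_le_add (mul_le_mul (le_max_left _ _) b1 (abs_nonneg _) hm0)
          (mul_le_mul (le_max_right _ _) b2 (abs_nonneg _) hm0)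
    _ ≤ 2 * (M : ℝ) ^ (EX + EY) * m := by nlinarith
    _ ≤ M * (M : ℝ) ^ (EX + EY) * m := by gcongr
    _ = _ := by rw [← pow_succ']

end Vale.Agent.P205F
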