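import Vale.Agent.P205F.GoodProb.G2Spec
import Vale.Agent.P205F.GoodProb.ModNBound

/-!
# P205, GoodProb: case (a) of the small regime

`g2Den` small at a small `N` makes `limZ` or `qfZ` small at the seven variables; their last
derivatives are not small, so some step of a hierarchy applies.
-/

namespace Vale.Agent.P205F

open scoped ContDiff RealInnerProductSpace
open Filter MeasureTheory Prob

/-- The hierarchy: the first function small, the last one not small. -/
theorem chainA (h : ℕ → Z7 → ℝ) (r : ℕ → Bool) (m : ℕ) (k : ℕ → ℕ) (n : ℕ)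
    (hh : ∀ j < n, Hom m (k j) (h j)) (hg : ∀ j < n, (h j).HasTemperateGrowth)
    (hd : ∀ j < n, dstep (eDir (r j)) (h j) = h (j + 1)) (A a c : ℕ) :
    ∃ c₀ S : ℕ, ∀ (b : Bool) (σ s V d : ℕ) (K : Set E2) (C δ : ℝ), S ≤ σ → S ≤ s →
      IsCompact K → 0 < δ → ∀ᶠ M : ℕ in atTop, ∀ F : (Fin d → ℝ) → E2 → R4,
        Setup b F K C A V s M → volume (Bad F K fun f x =>
          max |kk f x| |DD f x| ≤ ((M : ℝ) ^ σ)⁻¹ ∧ ((M : ℝ) ^ a)⁻¹ ≤ q1sq f x ∧
          |h 0 (zv f x)| ≤ ((M : ℝ) ^ c₀)⁻¹ ∧ ((M : ℝ) ^ c)⁻¹ ≤ |h n (zv f x)|)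
          ≤ ENNReal.ofReal δ := by
  induction n generalizing c with
  | zero =>
    refine ⟨c + 1, 0, fun b σ s V d K C δ _ _ _ _ => ?_⟩
    filter_upwards [eventually_ge_atTop 2] with M hM F _
    have hM2 : (2 : ℝ) ≤ M := by exact_mod_cast hM
    refine (measure_mono (t := (∅ : Set (Fin d → ℝ))) ?_).trans (by simp)
    rintro l ⟨-, x, -, -, -, h₁, h₂⟩
    have : ((M : ℝ) ^ (c + 1))⁻¹ < ((M : ℝ) ^ c)⁻¹ :=
      inv_strictAnti₀ (by positivity) (pow_lt_pow_right₀ (by linarith) (by omega))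
    linarith
  | succ n ih =>
    obtain ⟨c', S₁, h₁⟩ := stepA (hh n (by omega)) (hg n (by omega)) (r n) A (max a c)
    obtain ⟨c₀, S₂, h₂⟩ := ih (fun j hj => hh j (by omega)) (fun j hj => hg j (by omega))
      (fun j hj => hd j (by omega)) c'
    refine ⟨c₀, S₁ + S₂, fun b σ s V d K C δ hσ hs hK hδ => ?_⟩
    filter_upwards [h₁ b σ s V d K C (δ / 2) (by omega) (by omega) hK (by positivity),
      h₂ b σ s V d K C (δ / 2) (by omega) (by omega) hK (by positivity), eventually_ge_atTop 1]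
      with M h₁ h₂ hM F hF
    have hM1 : (1 : ℝ) ≤ M := by exact_mod_cast hM
    have hpow : ∀ {p q : ℕ}, p ≤ q → ((M : ℝ) ^ q)⁻¹ ≤ ((M : ℝ) ^ p)⁻¹ := fun h =>
      inv_anti₀ (by positivity) (pow_le_pow_right₀ hM1 h)
    refine (measure_mono ?_).trans (((measure_union_le _ _).trans
      (add_le_add (h₁ F hF) (h₂ F hF))).trans_eq
        (by rw [← ENNReal.ofReal_add (by positivity) (by positivity)]; congr 1; ring))
    rintro l ⟨hl, x, hx, hN, hq, h0, hn⟩
    rcases le_total |h n (zv (F l) x)| ((M : ℝ) ^ c')⁻¹ with h' | h'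
    · refine Or.inl ⟨hl, x, hx, hN, h', (hpow (le_max_left _ _)).trans hq, ?_⟩
      rw [hd n (by omega)]
      exact (hpow (le_max_right _ _)).trans hn
    · exact Or.inr ⟨hl, x, hx, hN, hq, h0, h'⟩

theorem caseAStmt (b : Bool) : CaseAStmt b := by
  intro A a
  set D := 4 + 2 * a with hD
  obtain ⟨cL, SL, hL'⟩ := chainA hL (fun j => decide (8 ≤ j)) 18 (fun j => 10 - j) 10
    (fun j hj => hom_hL j (by omega)) (fun j _ => temperate_hL j)
    (fun j _ => by
      show _ = dstep _ (hL j)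
      congr 1
      by_cases h : j < 8 <;> simp [eDir, h, Nat.not_le.2, Nat.not_lt.1]) A a (18 * D + 1)
  obtain ⟨cQ, SQ, hQ'⟩ := chainA hQ (fun _ => true) 2 (fun j => 2 - j) 2
    (fun j hj => hom_hQ j (by omega)) (fun j _ => temperate_hQ j) (fun j _ => rfl) A a (2 * D + 1)
  obtain ⟨E, hE⟩ := ModN.le_of_small modN_minor (N := 5) (by omega) JetAt.minor013
    (((JetAt.zv.comp temperate_limZ).congr fun f x _ => (limZ_zv f x).symm).mono (by omega)) A
  refine ⟨SL + SQ + E + cL + 1, 4 * (cL + 1) + 3 * cQ + 1, fun σ s V d K C δ hσ hs hK hδ => ?_⟩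
  filter_upwards [hL' b σ s V d K C (δ / 2) (by omega) (by omega) hK (by positivity),
    hQ' b σ s V d K C (δ / 2) (by omega) (by omega) hK (by positivity), hE, eventually_ge_atTop 4,
    (tendsto_natCast_atTop_atTop (R := ℝ)).eventually_ge_atTop C] with M hL' hQ' hE hM hCM F hF
  have hM4 : (4 : ℝ) ≤ M := by exact_mod_cast hM
  have hM1 : (1 : ℝ) ≤ M := by linarith
  have hpow : ∀ {p q : ℕ}, p ≤ q → ((M : ℝ) ^ q)⁻¹ ≤ ((M : ℝ) ^ p)⁻¹ := fun h =>
    inv_anti₀ (by positivity) (pow_le_pow_right₀ hM1 h)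
  refine (measure_mono ?_).trans (((measure_union_le _ _).trans
    (add_le_add (hL' F hF) (hQ' F hF))).trans_eq
      (by rw [← ENNReal.ofReal_add (by positivity) (by positivity)]; congr 1; ring))
  rintro l ⟨hl, x, hx, hN, hq, hg⟩
  set f := F l
  have hP := hF.pt l hl x hx
  have hDel : ((M : ℝ) ^ D)⁻¹ ≤ zv f x 0 := by
    show _ ≤ Del f x
    have hC4 : ((M : ℝ) ^ 4)⁻¹ ≤ gdet f x :=
      (inv_anti₀ (pow_pos (lt_of_lt_of_le one_pos hP.one_le) 4)
        (pow_le_pow_left₀ (by linarith [hP.one_le]) hCM 4)).trans hP.gdet_ge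
    rw [hD, pow_add, mul_inv, Del, bb_eq, neg_sq, show 2 * a = a * 2 from mul_comm _ _, pow_mul]
    exact mul_le_mul hC4 (by rw [← inv_pow]; exact pow_le_pow_left₀ (by positivity) hq 2)
      (by positivity) hP.gdet_pos.le
  have hD0 : 0 < zv f x 0 := lt_of_lt_of_le (by positivity) hDel
  have top : ∀ n : ℕ, ((M : ℝ) ^ (n * D + 1))⁻¹ ≤ zv f x 0 ^ n := fun n => by
    refine (hpow (show n * D ≤ n * D + 1 by omega)).trans ?_
    rw [mul_comm, pow_mul, ← inv_pow]
    exact pow_le_pow_left₀ (by positivity) hDel n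
  by_cases hQs : |qfZ (zv f x)| ≤ ((M : ℝ) ^ cQ)⁻¹
  · refine Or.inr ⟨hl, x, hx, hN, hq, hQs, ?_⟩
    rw [hQ_two, abs_of_nonneg (by positivity)]
    exact (top 2).trans (by nlinarith [pow_pos hD0 2])
  refine Or.inl ⟨hl, x, hx, hN, hq, ?_, ?_⟩
  · have hmin : |minor 0 1 3 f x| ≤ ((M : ℝ) ^ (cL + 1))⁻¹ := by
      by_contra hcon
      rw [not_le] at hcon hQs
      rw [g2Den, ← qfZ_zv] at hg
      set u := minor 0 1 3 f x
      set v := qfZ (zv f x)
      have hbig : ((M : ℝ) ^ (4 * (cL + 1) + 3 * cQ + 1))⁻¹ < |u * u * 2 * v * (u * u * 2 * v) * v| := by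
        rw [show u * u * 2 * v * (u * u * 2 * v) * v = 4 * (u ^ 4 * v ^ 3) by ring, abs_mul,
          abs_mul, abs_pow, abs_pow, abs_of_pos (show (0 : ℝ) < 4 by norm_num)]
        calc ((M : ℝ) ^ (4 * (cL + 1) + 3 * cQ + 1))⁻¹ ≤ ((M : ℝ) ^ (4 * (cL + 1) + 3 * cQ))⁻¹ :=
              hpow (by omega)
          _ = (((M : ℝ) ^ (cL + 1))⁻¹) ^ 4 * (((M : ℝ) ^ cQ)⁻¹) ^ 3 := by
              rw [pow_add, mul_inv, inv_pow, inv_pow, ← pow_mul, ← pow_mul, mul_comm 4, mul_comm 3]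
          _ < |u| ^ 4 * |v| ^ 3 := mul_lt_mul'' (pow_lt_pow_left₀ hcon (by positivity) (by norm_num))
              (pow_lt_pow_left₀ hQs (by positivity) (by norm_num)) (by positivity) (by positivity)
          _ ≤ 4 * (|u| ^ 4 * |v| ^ 3) := le_mul_of_one_le_left (by positivity) (by norm_num)
      linarith
    have he := hE f x hP.smooth ((norm_jet_mono (by omega) f x).trans hP.jets)
    rw [← limZ_zv] at he
    have hsmall : (M : ℝ) ^ E * max |kk f x| |DD f x| ≤ ((M : ℝ) ^ (cL + 1))⁻¹ := by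
      refine (mul_le_mul_of_nonneg_left hN (by positivity)).trans ?_
      rw [← div_eq_mul_inv, inv_eq_one_div, div_le_div_iff₀ (by positivity) (by positivity), one_mul,
        ← pow_add]
      exact pow_le_pow_right₀ hM1 (by omega)
    show |limZ (zv f x)| ≤ _
    have h2 : 2 * ((M : ℝ) ^ (cL + 1))⁻¹ ≤ ((M : ℝ) ^ cL)⁻¹ := by
      rw [pow_succ, mul_inv, ← mul_assoc, mul_comm 2, mul_assoc]
      refine mul_le_of_le_one_right (by positivity) ?_
      rw [← div_eq_mul_inv, div_le_one (by linarith)]; linarith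
    have := abs_sub_abs_le_abs_sub (limZ (zv f x)) (minor 0 1 3 f x)
    rw [abs_sub_comm] at he
    linarith
  · rw [hL_ten hD0.ne', abs_neg, abs_of_nonneg (by positivity)]
    exact (top 18).trans (by nlinarith [pow_pos hD0 18])

end Vale.Agent.P205F
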