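import Vale.Agent.P205F.GoodProb.CaseBAlg

/-!
# P205, GoodProb: case (b) of the small regime

`sDen` small with `D₂` not small makes `ψ` or `D_y` small: two events of three functions
`(k, D, ψ)`, `(k, D, D_y)`, moved by `∂y²` along `nv nv f_xy`, `nv nv f_xx` and by `∂y³`.
-/

namespace Vale.Agent.P205F

open scoped ContDiff RealInnerProductSpace
open Filter MeasureTheory Prob

variable {C : ℝ} {A M : ℕ} {ζ : ℝ} {f w : E2 → R4} {x : E2} {T : R4}

/-- Prescribing `∂y²` moves `k` and `D` by rotations. -/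
theorem var_yy (hP : Pt false C A M f x)
    (hw : SlowDir false C A ζ M f x (single2 0 2 T) w) :
    var kk f w x = tr f w x * kk f x - ⟪nv f x (fxx f x), T⟫ ∧
    var DD f w x = tr f w x * DD f x - 2 * ⟪nv f x (fxy f x), T⟫ := by
  have hT := hP.tan hw
  have z : ∀ {i j}, i + j ≤ 3 → ¬(i = 0 ∧ j = 2) → nv f x (pdm i j w x) = 0 := fun h hne => by
    rw [hw.all rfl _ _ h, single2, if_neg hne]; exact cross_zero₃ _ _
  have nxx : nv f x (fxx w x) = 0 := z (i := 2) (j := 0) (by omega) (by omega)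
  have nxy : nv f x (fxy w x) = 0 := z (i := 1) (j := 1) (by omega) (by omega)
  have nyy : nv f x (fyy w x) = nv f x T := by
    rw [show fyy w x = pdm 0 2 w x from rfl, hw.all rfl 0 2 (by omega), single2, if_pos ⟨rfl, rfl⟩]
  refine ⟨?_, ?_⟩
  · rw [hT.var_kk, omega_eq, nyy, nu1_eq, inner_nv_nv f x (fyy f x) (fxx w x), nxx,
      inner_zero_left, neg_zero, add_zero, inner_nv_nv f x T]
    ring
  · rw [hT.var_DD, omega_eq, nyy, nu1_eq, inner_nv_nv f x (fyy f x) (fxy w x), nxy,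
      inner_zero_left, neg_zero, mul_zero, add_zero, inner_nv_nv f x T]
    ring

/-- One event. -/
theorem stepB (r : Bool) (A cb : ℕ) : ∃ c' : ℕ, ∀ (σ s V d : ℕ) (K : Set E2) (C δ : ℝ), c' ≤ σ →
    IsCompact K → 0 < δ → ∀ᶠ M : ℕ in atTop, ∀ F : (Fin d → ℝ) → E2 → R4,
      Setup false F K C A V s M → volume (Bad F K fun f x =>
        max |kk f x| |DD f x| ≤ ((M : ℝ) ^ σ)⁻¹ ∧ ((M : ℝ) ^ cb)⁻¹ ≤ |D2 f x| ∧
        |(if r then dyB else psiB) f x| ≤ ((M : ℝ) ^ c')⁻¹) ≤ ENNReal.ofReal δ := by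
  obtain ⟨P₁, hP₁⟩ := (JetAt.cross (JetAt.pd_self 0) (JetAt.pd_self 1)
    (JetAt.cross (JetAt.pd_self 0) (JetAt.pd_self 1) JetAt.fxx)).bound A
  obtain ⟨P₂, hP₂⟩ := (JetAt.cross (JetAt.pd_self 0) (JetAt.pd_self 1)
    (JetAt.cross (JetAt.pd_self 0) (JetAt.pd_self 1) JetAt.fxy)).bound A
  set E := A + P₁ + P₂ + cb + 8 with hE
  set φ : Fin 3 → SF := ![kk, DD, if r then dyB else psiB] with hφdef
  have hφ : ∀ i, JetAt 10 (φ i) := fun i => by
    fin_cases i
    · exact JetAt.kk.mono (by omega)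
    · exact JetAt.DD.mono (by omega)
    · cases r
      · exact JetAt.psiB.mono (by omega)
      · exact JetAt.dyB.mono (by omega)
  have hψ : ∀ i, JetAt 10 ((![D2] : Fin 1 → SF) i) := fun i => by
    fin_cases i
    exact JetAt.D2.mono (by omega)
  obtain ⟨B, L, hBL⟩ := bad_small le_rfl φ ![D2] hφ hψ A E A cb
  set c' := 8 * L + cb + B + E + 3 with hc'
  refine ⟨c', fun σ s V d K C δ hσ hK hδ => ?_⟩
  filter_upwards [hP₁, hP₂, hBL c' (by omega) d K δ hK hδ, eventually_ge_atTop 4,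
    (tendsto_natCast_atTop_atTop (R := ℝ)).eventually_ge_atTop (140 * C ^ 16)]
    with M hP₁ hP₂ hM' hM hMC F hF
  have hM4 : (4 : ℝ) ≤ M := by exact_mod_cast hM
  have hM2 : (2 : ℝ) ≤ M := by linarith
  have hM1 : (1 : ℝ) ≤ M := by linarith
  have hM0 : (0 : ℝ) < M := by linarith
  have hpow : ∀ {p q : ℕ}, p ≤ q → ((M : ℝ) ^ q)⁻¹ ≤ ((M : ℝ) ^ p)⁻¹ := fun h =>
    inv_anti₀ (by positivity) (pow_le_pow_right₀ hM1 h)
  refine (measure_mono ?_).trans (hM' F hF.bdd ?_)
  · rintro l ⟨hl, x, hx, hkD, hd, hsm⟩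
    refine ⟨hl, x, hx, fun i => ?_, fun j => ?_⟩
    · fin_cases i
      · exact (le_max_left _ _).trans (hkD.trans (hpow hσ))
      · exact (le_max_right _ _).trans (hkD.trans (hpow hσ))
      · exact hsm
    · fin_cases j
      exact hd
  intro l hl x hx hsm hbig
  set f := F l with hfdef
  have hP := hF.pt l hl x hx
  have hC1 := hP.one_le
  have hC0 : 0 < C := by linarith
  have hCp : ∀ {k : ℕ}, k ≤ 16 → 140 * C ^ k ≤ M := fun h => by
    have := pow_le_pow_right₀ hC1 h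
    linarith [pow_nonneg hC0.le 16]
  have hkk : |kk f x| ≤ ((M : ℝ) ^ (c' - L))⁻¹ := hsm 0
  have hDD : |DD f x| ≤ ((M : ℝ) ^ (c' - L))⁻¹ := hsm 1
  have hd : ((M : ℝ) ^ (cb + 1))⁻¹ ≤ |D2 f x| := hbig 0
  have hC4 : C ^ 4 ≤ (M : ℝ) ^ 1 := by
    rw [pow_one]
    linarith [hCp (show 4 ≤ 16 by omega), pow_nonneg hC0.le 4]
  have hG : ((M : ℝ) ^ 1)⁻¹ ≤ gdet f x := (inv_anti₀ (by positivity) hC4).trans hP.gdet_ge
  -- a direction with a single jet
  have dir : ∀ q, 2 ≤ q → ∀ T : R4, ‖T‖ ≤ 1 → Normal f x T → ∃ v, ‖v‖ ≤ (M : ℝ) ^ A ∧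
      ‖jet 10 (dlam F l v) x‖ ≤ (M : ℝ) ^ E ∧
      SlowDir false C A ((M : ℝ) ^ s)⁻¹ M f x (single2 0 q T) (dlam F l v) ∧
      |tr f (dlam F l v) x| ≤ 1 := by
    intro q hq T hT1 hTn
    obtain ⟨v, hv, hw⟩ := hF.slow l hl x hx (single2 0 q T)
      (single2_ok (by omega) hT1 hTn fun h => by cases h)
    refine ⟨v, hv, hw.jets.trans (pow_le_pow_right₀ hM1 (by omega)), hw, ?_⟩
    refine (tr_gam_bound hP hw hM0).1.trans ((div_le_one hM0).2 ?_)
    linarith [hCp (show 7 ≤ 16 by omega), pow_nonneg hC0.le 7]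
  have small : ∀ {a t : ℝ}, |t| ≤ ((M : ℝ) ^ (c' - L))⁻¹ → |a| ≤ 1 → ∀ {p}, p ≤ c' - L →
      |a * t| ≤ ((M : ℝ) ^ p)⁻¹ := fun {a t} ht ha {p} hp => by
    rw [abs_mul]
    exact (mul_le_of_le_one_left (abs_nonneg t) ha).trans (ht.trans (hpow hp))
  -- scaled normal parts
  have scaled : ∀ (u : R4) (P : ℕ), ‖nv f x (nv f x u)‖ ≤ (M : ℝ) ^ P →
      ‖((M : ℝ) ^ P)⁻¹ • nv f x (nv f x u)‖ ≤ 1 ∧
      Normal f x (((M : ℝ) ^ P)⁻¹ • nv f x (nv f x u)) ∧
      ⟪nv f x u, ((M : ℝ) ^ P)⁻¹ • nv f x (nv f x u)⟫ = 0 ∧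
      ∀ v, ⟪nv f x v, ((M : ℝ) ^ P)⁻¹ • nv f x (nv f x u)⟫ =
        ((M : ℝ) ^ P)⁻¹ * (gdet f x * ⟪nv f x u, v⟫) := fun u P h => by
    refine ⟨?_, (normal_nv f x _).smul _, ?_, fun v => ?_⟩
    · rw [norm_smul, norm_inv, Real.norm_of_nonneg (by positivity), inv_mul_le_one₀ (by positivity)]
      exact h
    · rw [real_inner_smul_right, real_inner_comm,
        show ⟪nv f x (nv f x u), nv f x u⟫ = 0 from cross_orth_right _ _ _, mul_zero]
    · rw [real_inner_smul_right, real_inner_comm,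
        inner_nv_normal f x (normal_nv f x u).1 (normal_nv f x u).2]
  have dmain : ∀ (P : ℕ), P ≤ P₁ + P₂ →
      ((M : ℝ) ^ (P₁ + P₂ + cb + 2))⁻¹ ≤ ((M : ℝ) ^ P)⁻¹ * (gdet f x * |D2 f x|) := fun P h => by
    rw [show P₁ + P₂ + cb + 2 = (P₁ + P₂) + (1 + (cb + 1)) by ring, pow_add (M : ℝ) (P₁ + P₂), mul_inv]
    exact mul_le_mul (hpow h) (by rw [pow_add, mul_inv]; exact mul_le_mul hG hd (by positivity) hP.gdet_pos.le) (by positivity)
      (by positivity)
  intro j
  fin_cases j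
  · obtain ⟨a, b, -, c⟩ := scaled (fxy f x) P₂
      ((hP₂ f x hP.smooth ((norm_jet_mono (by omega) f x).trans hP.jets)).1)
    obtain ⟨v, hv, hj, hw, htr⟩ := dir 2 le_rfl _ a b
    refine ⟨v, hv, hj, fun i hi => absurd hi (by simp), ?_⟩
    show _ ≤ |var kk f _ x|
    rw [(var_yy hP hw).1, sub_eq_neg_add, c]
    refine pw_diag hM2 (E := P₁ + P₂ + cb + 2) (by omega) ?_ (small hkk htr (by omega))
    rw [abs_neg, abs_mul, abs_mul, abs_of_nonneg (show (0 : ℝ) ≤ ((M : ℝ) ^ P₂)⁻¹ by positivity),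
      abs_of_pos hP.gdet_pos, inner_nv_nv, abs_neg]
    exact dmain P₂ (by omega)
  · obtain ⟨a, b, o, c⟩ := scaled (fxx f x) P₁
      ((hP₁ f x hP.smooth ((norm_jet_mono (by omega) f x).trans hP.jets)).1)
    obtain ⟨v, hv, hj, hw, htr⟩ := dir 2 le_rfl _ a b
    refine ⟨v, hv, hj, fun i hi => ?_, ?_⟩
    · obtain rfl : i = 0 := by
        have h1 : (i : ℕ) < 1 := hi
        exact Fin.ext (by simp; omega)
      show |var kk f _ x| ≤ _
      rw [(var_yy hP hw).1, o, sub_zero]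
      exact small hkk htr (by omega)
    · show _ ≤ |var DD f _ x|
      rw [(var_yy hP hw).2, sub_eq_neg_add, c]
      refine pw_diag hM2 (E := P₁ + P₂ + cb + 2) (by omega) ?_ (small hDD htr (by omega))
      rw [abs_neg, abs_mul, abs_two, abs_mul, abs_mul,
        abs_of_nonneg (show (0 : ℝ) ≤ ((M : ℝ) ^ P₁)⁻¹ by positivity), abs_of_pos hP.gdet_pos]
      refine (dmain P₁ (by omega)).trans ?_
      rw [show |⟪nv f x (fxx f x), fxy f x⟫| = |D2 f x| from rfl]
      linarith [show 0 ≤ ((M : ℝ) ^ P₁)⁻¹ * (gdet f x * |D2 f x|) from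
        mul_nonneg (by positivity) (mul_nonneg hP.gdet_pos.le (abs_nonneg _))]
  · have unit : ∀ u : R4, ‖‖nv f x u‖⁻¹ • nv f x u‖ ≤ 1 ∧ Normal f x (‖nv f x u‖⁻¹ • nv f x u) ∧
        ⟪nv f x (‖nv f x u‖⁻¹ • nv f x u), u⟫ = -‖nv f x u‖ := fun u => by
      refine ⟨?_, (normal_nv f x _).smul _, ?_⟩
      · rw [norm_smul, norm_inv, norm_norm]; exact inv_mul_le_one
      · rw [inner_nv_nv, real_inner_smul_right, real_inner_self_eq_norm_sq, pow_two, ← mul_assoc]
        by_cases h : ‖nv f x u‖ = 0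
        · simp [h]
        · rw [inv_mul_cancel₀ h, one_mul]
    obtain ⟨-, hxy, -⟩ := hP.norm_second
    have hn := fun u => (unit u).2.2
    obtain ⟨hxx, -, -⟩ := hP.norm_second
    set u := if r then fxy f x else fxx f x with hu
    obtain ⟨v, hv, hj, hw, htr⟩ := dir 3 (by omega) _ (unit u).1 (unit u).2.1
    obtain ⟨hvk, hvD, hvp, hvy⟩ := var_third hP hw
    refine ⟨v, hv, hj, fun i hi => ?_, ?_⟩
    · fin_cases i
      · show |var kk f _ x| ≤ _
        rw [hvk]; exact small hkk htr (by omega)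
      · show |var DD f _ x| ≤ _
        rw [hvD]; exact small hDD htr (by omega)
      · simp at hi
    cases r with
    | false =>
      have hh : |psiB f x| ≤ ((M : ℝ) ^ (c' - L))⁻¹ := hsm 2
      obtain ⟨htr', hg, hvg⟩ := tr_gam_bound hP hw hM0
      set J := 5 * var (fun f x => gam f x 0 2) f (dlam F l v) x
        - 10 * (tr f (dlam F l v) x * gam f x 0 2) with hJ
      have hD : |D2 f x| ≤ C * ‖nv f x (fxx f x)‖ := by
        rw [mul_comm]
        exact (abs_real_inner_le_norm _ _).trans (mul_le_mul_of_nonneg_left hxy (norm_nonneg _))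
      have hJb : C * |J| ≤ gdet f x / 2 := by
        have h1 : |J| ≤ 70 * C ^ 11 / M := by
          rw [hJ]
          refine (abs_sub _ _).trans ?_
          rw [abs_mul, abs_mul, abs_mul, abs_of_pos (show (0 : ℝ) < 5 by norm_num),
            abs_of_pos (show (0 : ℝ) < 10 by norm_num)]
          have h2 := mul_le_mul htr' hg (abs_nonneg _) (by positivity)
          have h3 : C ^ 3 / (M : ℝ) ≤ C ^ 11 / M :=
            div_le_div_of_nonneg_right (pow_le_pow_right₀ hC1 (by omega)) hM0.le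
          have e1 : 2 * C ^ 7 / (M : ℝ) * (2 * C ^ 4) = 4 * (C ^ 11 / M) := by ring
          have e2 : 6 * C ^ 3 / (M : ℝ) = 6 * (C ^ 3 / M) := by ring
          have e3 : 70 * C ^ 11 / (M : ℝ) = 70 * (C ^ 11 / M) := by ring
          linarith
        refine le_trans (mul_le_mul_of_nonneg_left h1 hC0.le) ?_
        refine le_trans ?_ (div_le_div_of_nonneg_right hP.gdet_ge (by norm_num))
        rw [mul_div_assoc', div_le_div_iff₀ hM0 (by norm_num),
          show (C ^ 4)⁻¹ * (M : ℝ) = M / C ^ 4 by ring, le_div_iff₀ (by positivity)]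
        nlinarith [hCp (le_refl 16)]
      show _ ≤ |var psiB f _ x|
      rw [hvp, add_assoc, add_comm, show u = fxx f x from rfl, hn]
      refine pw_diag hM2 (E := cb + 4) (by omega) ?_ ?_
      · set n := ‖nv f x (fxx f x)‖
        have h1 : |D2 f x * J| ≤ n * (gdet f x / 2) := by
          rw [abs_mul]
          calc |D2 f x| * |J| ≤ C * n * |J| := mul_le_mul_of_nonneg_right hD (abs_nonneg _)
            _ = n * (C * |J|) := by ring
            _ ≤ _ := mul_le_mul_of_nonneg_left hJb (norm_nonneg _)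
        have h2 := abs_le.1 h1
        have h3 : n * (gdet f x / 2) ≤ |gdet f x * -n + D2 f x * J| := by
          rw [le_abs']; left; linarith
        refine le_trans ?_ h3
        have h4 : ((M : ℝ) ^ (cb + 1))⁻¹ * C⁻¹ ≤ n := by
          rw [← div_eq_mul_inv, div_le_iff₀ hC0]
          exact hd.trans (by linarith)
        refine le_trans ?_ (mul_le_mul h4 (div_le_div_of_nonneg_right hP.gdet_ge (by norm_num))
          (by positivity) (norm_nonneg _))
        rw [show cb + 4 = (cb + 1) + 3 by ring, pow_add, mul_inv, mul_assoc]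
        refine mul_le_mul_of_nonneg_left ?_ (by positivity)
        rw [show C⁻¹ * ((C ^ 4)⁻¹ / 2) = (2 * C ^ 5)⁻¹ by ring]
        refine inv_anti₀ (by positivity) ((show 2 * C ^ 5 ≤ (M : ℝ) by
          linarith [hCp (show 5 ≤ 16 by omega), pow_nonneg hC0.le 5]).trans
          (le_self_pow₀ hM1 (by omega)))
      · rw [show 3 * tr f (dlam F l v) x * psiB f x = 3 * (tr f (dlam F l v) x * psiB f x) by ring,
          abs_mul]
        have h := small hh htr (p := E + 1) (by omega)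
        rw [abs_of_pos (show (0 : ℝ) < 3 by norm_num)]
        calc 3 * |tr f (dlam F l v) x * psiB f x| ≤ M * ((M : ℝ) ^ (E + 1))⁻¹ :=
              mul_le_mul (by linarith) h (abs_nonneg _) hM0.le
          _ = _ := by rw [pow_succ]; field_simp
    | true =>
      have hh : |dyB f x| ≤ ((M : ℝ) ^ (c' - L))⁻¹ := hsm 2
      show _ ≤ |var dyB f _ x|
      rw [hvy, add_comm, show u = fxy f x from rfl, hn]
      refine pw_diag hM2 (E := cb + 4) (by omega) ?_ (small hh htr (by omega))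
      rw [mul_neg, abs_neg, abs_mul, abs_norm, abs_two]
      have h1 : |D2 f x| ≤ ‖nv f x (fxy f x)‖ * (C * M) := by
        rw [show D2 f x = -⟪nv f x (fxy f x), fxx f x⟫ from omega_swap f x _ _, abs_neg]
        exact (abs_real_inner_le_norm _ _).trans (mul_le_mul_of_nonneg_left hxx (norm_nonneg _))
      have h4 : ((M : ℝ) ^ (cb + 1))⁻¹ * (C * M)⁻¹ ≤ ‖nv f x (fxy f x)‖ := by
        rw [← div_eq_mul_inv, div_le_iff₀ (by positivity)]
        exact hd.trans h1
      refine le_trans ?_ (h4.trans (by linarith [norm_nonneg (nv f x (fxy f x))]))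
      rw [show cb + 4 = (cb + 1) + 3 by ring, pow_add, mul_inv]
      refine mul_le_mul_of_nonneg_left (inv_anti₀ (by positivity) ?_) (by positivity)
      calc C * (M : ℝ) ≤ M * M := mul_le_mul_of_nonneg_right
            (by linarith [hCp (show 1 ≤ 16 by omega), pow_one C]) hM0.le
        _ ≤ (M : ℝ) ^ 3 := by rw [← pow_two]; exact pow_le_pow_right₀ hM1 (by omega)

/-- Case (b). -/
theorem caseBStmt : CaseBStmt := by
  intro A cb
  obtain ⟨c₁, h₁⟩ := stepB false A cb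
  obtain ⟨c₂, h₂⟩ := stepB true A cb
  obtain ⟨Em, hm⟩ := modN_sDen.le_of_small (N := 4) (by omega) JetAt.sDen
    (JetAt.sDen0.mono (by omega)) A
  set T := 5 + 10 * cb + c₁ + c₂ with hT
  refine ⟨c₁ + c₂ + T + Em + 2, T + 2, fun σ s V d K C δ hσ _ hK hδ => ?_⟩
  filter_upwards [h₁ σ s V d K C (δ / 2) (by omega) hK (by positivity),
    h₂ σ s V d K C (δ / 2) (by omega) hK (by positivity), hm, eventually_ge_atTop 4,
    (tendsto_natCast_atTop_atTop (R := ℝ)).eventually_ge_atTop (C ^ 4)]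
    with M h₁ h₂ hm hM hMC F hF
  have hM4 : (4 : ℝ) ≤ M := by exact_mod_cast hM
  have hM1 : (1 : ℝ) ≤ M := by linarith
  have hM0 : (0 : ℝ) < M := by linarith
  have hpow : ∀ {p q : ℕ}, p ≤ q → ((M : ℝ) ^ q)⁻¹ ≤ ((M : ℝ) ^ p)⁻¹ := fun h =>
    inv_anti₀ (by positivity) (pow_le_pow_right₀ hM1 h)
  refine (measure_mono ?_).trans (((measure_union_le _ _).trans
    (add_le_add (h₁ F hF) (h₂ F hF))).trans_eq
      (by rw [← ENNReal.ofReal_add (by positivity) (by positivity)]; congr 1; ring))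
  rintro l ⟨hl, x, hx, hN, hd, hsd⟩
  have hP := hF.pt l hl x hx
  by_cases hp : |psiB (F l) x| ≤ ((M : ℝ) ^ c₁)⁻¹
  · exact Or.inl ⟨hl, x, hx, hN, hd, hp⟩
  by_cases hy : |dyB (F l) x| ≤ ((M : ℝ) ^ c₂)⁻¹
  · exact Or.inr ⟨hl, x, hx, hN, hd, hy⟩
  exfalso
  set f := F l with hf
  have hG : ((M : ℝ) ^ 1)⁻¹ ≤ gdet f x :=
    (inv_anti₀ (pow_pos (lt_of_lt_of_le one_pos hP.one_le) 4) (by rwa [pow_one])).trans hP.gdet_ge
  -- the main part is not small
  have hC2 : ((M : ℝ) ^ (1 + 2 * cb))⁻¹ ≤ |sC2 f x| := by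
    rw [sC2, show 2 * gdet f x * D2 f x * D2 f x = 2 * (gdet f x * (D2 f x * D2 f x)) by ring,
      abs_mul, abs_two, abs_mul, abs_of_pos hP.gdet_pos, abs_mul, pow_add, mul_inv,
      show 2 * cb = cb + cb by ring, pow_add, mul_inv]
    have := mul_le_mul hG (mul_le_mul hd hd (by positivity) (abs_nonneg _)) (by positivity)
      hP.gdet_pos.le
    linarith [mul_nonneg hP.gdet_pos.le (mul_nonneg (abs_nonneg (D2 f x)) (abs_nonneg (D2 f x)))]
  have hmain : ((M : ℝ) ^ T)⁻¹ ≤ |sDen0 f x| := by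
    simp only [sDen0, abs_neg, abs_mul, abs_of_pos hP.gdet_pos]
    rw [hT, show 5 + 10 * cb + c₁ + c₂ =
      (1 + 2 * cb) + (1 + 2 * cb) + (1 + 2 * cb) + (1 + 2 * cb) + 1 + (cb + cb) + (c₁ + c₂) by ring]
    simp only [pow_add, mul_inv] at hC2 ⊢
    have a2 := mul_le_mul hC2 hC2 (by positivity) (abs_nonneg _)
    have a3 := mul_le_mul a2 hC2 (by positivity) (by positivity)
    have a4 := mul_le_mul a3 hC2 (by positivity) (by positivity)
    have a5 := mul_le_mul a4 hG (by positivity) (by positivity)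
    simp only [pow_one] at a5
    have a6 := mul_le_mul a5 (mul_le_mul hd hd (by positivity) (abs_nonneg _)) (by positivity)
      (mul_nonneg (by positivity) hP.gdet_pos.le)
    have a7 := mul_le_mul a6 (mul_le_mul (not_le.1 hp).le (not_le.1 hy).le (by positivity) (abs_nonneg _))
      (by positivity) (mul_nonneg (mul_nonneg (by positivity) hP.gdet_pos.le) (by positivity))
    simpa only [pow_one, mul_assoc] using a7
  have hd' := hm f x hP.smooth ((norm_jet_mono (by omega) f x).trans hP.jets)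
  have h3 : |sDen f x - sDen0 f x| ≤ ((M : ℝ) ^ (T + 2))⁻¹ := by
    refine hd'.trans ((mul_le_mul_of_nonneg_left hN (by positivity)).trans ?_)
    rw [← div_eq_mul_inv, div_le_iff₀ (by positivity), inv_mul_eq_div, le_div_iff₀ (by positivity),
      ← pow_add]
    exact pow_le_pow_right₀ hM1 (by omega)
  have h4 : |sDen0 f x| ≤ |sDen f x| + |sDen f x - sDen0 f x| := by
    have := abs_sub_abs_le_abs_sub (sDen0 f x) (sDen f x)
    rw [abs_sub_comm] at this
    linarith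
  have h5 : 4 * ((M : ℝ) ^ (T + 2))⁻¹ ≤ ((M : ℝ) ^ T)⁻¹ := by
    rw [pow_add, mul_inv, ← mul_assoc, mul_comm 4, mul_assoc]
    refine mul_le_of_le_one_right (by positivity) ?_
    rw [← div_eq_mul_inv, div_le_one (by positivity)]
    nlinarith
  linarith [show 0 < ((M : ℝ) ^ (T + 2))⁻¹ by positivity]

end Vale.Agent.P205F
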