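import Vale.Agent.P205F.GoodProb.G2Spec
import Vale.Agent.P205F.GoodProb.ModNBound

/-!
# P205, GoodProb: the algebra of case (b) of the small regime

At `N = (k, D) = 0` with `sC2 = 2 G D₂²` one has `sDen = -sC2⁴ G D₂² ψ D_y` with `ψ` linear in
`∂y³`; a prescribed `∂y³` moves `ψ` by `G ω(·, f_xx)` up to a term `D₂ O(1/M)`, and `D_y` exactly.
-/

namespace Vale.Agent.P205F

open scoped ContDiff RealInnerProductSpace
open Filter

/-- The third jets in `ψ`. -/
noncomputable def bRest : SF := fun f x =>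
  omega f x (pdm 0 3 f x) (fxx f x) - omega f x (fyy f x) (pdm 2 1 f x)
    - 2 * omega f x (pdm 1 2 f x) (fxy f x)

/-- `sPhi / D₂` at `N = 0`. -/
noncomputable def psiB : SF := fun f x =>
  gdet f x * bRest f x + 5 * (D2 f x * gam f x 0 2)

/-- `D_y`. -/
noncomputable def dyB : SF := fun f x => pd 1 (DD f) x

theorem JetAt.bRest : JetAt 3 P205F.bRest :=
  ((JetAt.omega' (JetAt.pd3_self 1 1 1) JetAt.fxx).sub
    (JetAt.omega' JetAt.fyy (JetAt.pd3_self 0 0 1))).sub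
    ((JetAt.const (2 : ℝ)).mul (JetAt.omega' (JetAt.pd3_self 0 1 1) JetAt.fxy))

theorem JetAt.psiB : JetAt 3 P205F.psiB :=
  (JetAt.gdet.mul JetAt.bRest).add ((JetAt.const (5 : ℝ)).mul (JetAt.D2.mul (JetAt.gam 0 2)))

theorem JetAt.dyB : JetAt 3 P205F.dyB := JetAt.DD.pd 1

/-- `sPhi` modulo `N`. -/
theorem modN_sPhi : ModN sPhi fun f x => D2 f x * psiB f x := by
  refine ⟨fun f x => -(gdet f x * pd 1 (D2 f) x) + (5 / 2 : ℝ) * (D2 f x * gam f x 0 1),
    fun f x => gdet f x * pd 0 (D2 f) x - (5 / 2 : ℝ) * (D2 f x * gam f x 0 0),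
    (JetFn.gdet.mul (JetFn.D2.pd 1)).neg.add
      ((JetFn.const (5 / 2 : ℝ)).mul (JetFn.D2.mul (JetFn.gam 0 1))),
    (JetFn.gdet.mul (JetFn.D2.pd 0)).sub
      ((JetFn.const (5 / 2 : ℝ)).mul (JetFn.D2.mul (JetFn.gam 0 0))), fun f x hf => ?_⟩
  have e1 : pd 0 (E1 f) x = (1 / 2 : ℝ) * pd 0 (DD f) x := by
    rw [show E1 f = fun z => (1 / 2 : ℝ) * DD f z from funext fun z => by rw [E1_eq]; ring,
      pd_const_mul _ (JetFn.DD.smooth hf)]
  have e2 : pd 1 (EB f) x = (-1 : ℝ) * pd 1 (kk f) x := by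
    rw [show EB f = fun z => (-1 : ℝ) * kk f z from funext fun z => by rw [EB_eq]; ring,
      pd_const_mul _ (JetFn.kk.smooth hf)]
  simp only [sPhi, e1, e2, E1_eq, EB_eq, psiB, bRest, pd1_kk hf, pd0_DD hf]
  linear_combination (-3 * D2 f x) * gdet_jy f x

/-- `sDen` modulo `N`. -/
noncomputable def sDen0 : SF := fun f x =>
  -(sC2 f x * sC2 f x * sC2 f x * sC2 f x * gdet f x * (D2 f x * D2 f x) * (psiB f x * dyB f x))

theorem JetAt.sDen0 : JetAt 3 P205F.sDen0 :=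
  (((((((JetAt.sC2.mul JetAt.sC2).mul JetAt.sC2).mul JetAt.sC2).mul JetAt.gdet).mul
    (JetAt.D2.mul JetAt.D2))).mul (JetAt.psiB.mul JetAt.dyB)).neg

theorem modN_sDen : ModN sDen sDen0 := by
  set v : SF := fun f x => gdet f x * D2 f x with hv
  have jv : JetFn v := JetFn.gdet.mul JetFn.D2
  set u : SF := fun f x => -(sC2 f x * v f x) with hu
  have ju : JetFn u := (JetFn.sC2.mul jv).neg
  have eA1 : ∀ f x, sA1 f x = -(v f x * DD f x) := fun f x => by
    simp only [sA1, E1_eq, hv]; ring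
  have eA2 : ∀ f x, sA2 f x = v f x * kk f x := fun f x => by
    simp only [sA2, EB_eq, hv]; ring
  have eQ : ∀ f x, sQ f x = u f x * DD f x - v f x * kk f x * (v f x * kk f x) := fun f x => by
    simp only [sQ, eA1, eA2, hu]; ring
  have jQ : ModN sQ fun _ _ => 0 :=
    ⟨fun f x => -(v f x * (v f x * kk f x)), u, (jv.mul (jv.mul JetFn.kk)).neg, ju,
      fun f x _ => by rw [eQ]; ring⟩
  have jA2 : ModN sA2 fun _ _ => 0 :=
    ⟨v, fun _ _ => 0, jv, .const 0, fun f x _ => by rw [eA2]; ring⟩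
  have jQy : ModN (fun f x => pd 1 (sQ f) x) fun f x => u f x * dyB f x := by
    refine ⟨fun f x => -(2 * (v f x * pd 1 (fun z => v f z * kk f z) x)), fun f x => pd 1 (u f) x,
      ((JetFn.const (2 : ℝ)).mul (jv.mul ((jv.mul JetFn.kk).pd 1))).neg, ju.pd 1, fun f x hf => ?_⟩
    have sv := (jv.mul JetFn.kk).smooth hf
    show pd 1 (sQ f) x = _
    rw [show sQ f = fun z => u f z * DD f z - v f z * kk f z * (v f z * kk f z) from funext (eQ f),
      pd_sub ((ju.mul JetFn.DD).smooth hf) (sv.mul sv), pd_mul (ju.smooth hf) (JetFn.DD.smooth hf),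
      pd_mul sv sv]
    simp only [dyB]
    ring
  have jP : ModN sP fun f x => sC2 f x * (D2 f x * psiB f x) :=
    (((ModN.refl sC2).mul modN_sPhi .sC2 .sPhi).sub
      (jA2.mul (ModN.refl sPsi) (.const 0) .sPsi)).of_eq fun f x _ => by simp
  have jL : ModN sL1 fun f x => sC2 f x * (sC2 f x * (u f x * dyB f x)) :=
    (((ModN.refl sC2).mul (((ModN.refl sC2).mul jQy .sC2 (JetFn.sQ.pd 1)).add
      (jA2.mul (ModN.refl _) (.const 0) (JetFn.sQ.pd 0))) .sC2
        ((JetFn.sC2.mul (JetFn.sQ.pd 1)).add (JetFn.sA2.mul (JetFn.sQ.pd 0)))).add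
      (jQ.mul (ModN.refl _) (.const 0) ((((JetFn.sC2.pd 0).mul JetFn.sA2).sub
        (JetFn.sC2.mul (JetFn.sA2.pd 0))).sub (JetFn.sC2.mul JetFn.sPsi)))).of_eq
      fun f x _ => by simp
  exact ((jP.mul jL (JetFn.sC2.mul (JetFn.D2.mul JetAt.psiB.jetFn)) .sL1).sub
    (jQ.mul (ModN.refl sL0) (.const 0) .sL0)).of_eq fun f x _ => by
      simp only [sDen0, hu, hv]; ring

/-! ### The two variations -/

variable {C : ℝ} {A M : ℕ} {ζ : ℝ} {f w : E2 → R4} {x : E2} {T : R4}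

/-- The trace and `Γ^x_yy` move by `O(1/M)`. -/
theorem tr_gam_bound (hP : Pt false C A M f x) {τ : ℕ → ℕ → R4}
    (hw : SlowDir false C A ζ M f x τ w) (hM : 0 < (M : ℝ)) :
    |tr f w x| ≤ 2 * C ^ 7 / M ∧ |gam f x 0 2| ≤ 2 * C ^ 4 ∧
      |var (fun f x => gam f x 0 2) f w x| ≤ 6 * C ^ 3 / M := by
  have hf := hP.smooth
  have hsw := hw.smooth
  have hC : 0 < C := lt_of_lt_of_le one_pos hP.one_le
  have hC1 := hP.one_le
  set z := C / (M : ℝ) with hz
  have hz0 : 0 ≤ z := by positivity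
  have hpd := hP.norm_pd
  obtain ⟨-, hxy, hyy⟩ := hP.norm_second
  have ip : ∀ {a b : R4} {p q : ℝ}, ‖a‖ ≤ p → ‖b‖ ≤ q → |⟪a, b⟫| ≤ p * q := fun ha hb =>
    (abs_real_inner_le_norm _ _).trans
      (mul_le_mul ha hb (norm_nonneg _) ((norm_nonneg _).trans ha))
  have m0 : |mk3 0 f x| ≤ C * C := ip (hpd 0) (hpd 0)
  have m1 : |mk3 1 f x| ≤ C * C := ip (hpd 0) (hpd 1)
  have m2 : |mk3 2 f x| ≤ C * C := ip (hpd 1) (hpd 1)
  have d0 : ∀ k, |var (mk3 k) f w x| ≤ z := fun k =>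
    abs_var_pdm_mk3 hf hsw (i := 0) (j := 0) (hw.linF 0 0 (by omega)) k
  have d1 : ∀ k, |var (fun f x => pd 0 (mk3 k f) x) f w x| ≤ z := fun k =>
    abs_var_pdm_mk3 hf hsw (i := 1) (j := 0) (hw.linF 1 0 (by omega)) k
  have d2 : ∀ k, |var (fun f x => pd 1 (mk3 k f) x) f w x| ≤ z := fun k =>
    abs_var_pdm_mk3 hf hsw (i := 0) (j := 1) (hw.linF 0 1 (by omega)) k
  have J0 := fun k => (JetAt.mk3 k).jetFn
  have J := fun k i => ((JetAt.mk3 k).pd i).jetFn
  have pr : ∀ {a b p q : ℝ}, |a| ≤ p → |b| ≤ q → |a * b| ≤ p * q := fun ha hb => by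
    rw [abs_mul]; exact mul_le_mul ha hb (abs_nonneg _) ((abs_nonneg _).trans ha)
  refine ⟨?_, ?_, ?_⟩
  · have e : var gdet f w x = var (mk3 0) f w x * mk3 2 f x + mk3 0 f x * var (mk3 2) f w x
        - (var (mk3 1) f w x * mk3 1 f x + mk3 1 f x * var (mk3 1) f w x) := by
      rw [var_congr (d := fun f x => mk3 0 f x * mk3 2 f x - mk3 1 f x * mk3 1 f x)
          (fun f x _ => by simp [gdet, mk3, met, pow_two]) hf hsw,
        var_sub ((J0 0).mul (J0 2)) ((J0 1).mul (J0 1)) hf hsw, var_mul (J0 0) (J0 2) hf hsw,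
        var_mul (J0 1) (J0 1) hf hsw]
    rw [(hP.tan hw).var_gdet] at e
    have a1 := abs_le.1 (pr (d0 0) m2)
    have a2 := abs_le.1 (pr m0 (d0 2))
    have a3 := abs_le.1 (pr (d0 1) m1)
    have a4 := abs_le.1 (pr m1 (d0 1))
    have h4 : |2 * tr f w x * gdet f x| ≤ 4 * (C * C * z) := by
      rw [e, abs_le]; constructor <;> linarith
    rw [abs_mul, abs_mul, abs_two, abs_of_pos hP.gdet_pos] at h4
    have hG : |tr f w x| * (C ^ 4)⁻¹ ≤ 2 * (C * C * z) := by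
      have := mul_le_mul_of_nonneg_left hP.gdet_ge (abs_nonneg (tr f w x))
      linarith
    rw [← div_eq_mul_inv, div_le_iff₀ (by positivity)] at hG
    calc |tr f w x| ≤ 2 * (C * C * z) * C ^ 4 := hG
      _ = _ := by rw [hz]; ring
  · refine (ip (p := 2 * C ^ 3) ?_ hyy).trans_eq (by ring)
    show ‖⟪pd 1 f x, pd 1 f x⟫ • pd 0 f x - ⟪pd 0 f x, pd 1 f x⟫ • pd 1 f x‖ ≤ _
    refine (norm_sub_le _ _).trans ?_
    rw [norm_smul, norm_smul, Real.norm_eq_abs, Real.norm_eq_abs]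
    calc _ ≤ C * C * C + C * C * C := add_le_add
          (mul_le_mul (ip (hpd 1) (hpd 1)) (hpd 0) (norm_nonneg _) (by positivity))
          (mul_le_mul (ip (hpd 0) (hpd 1)) (hpd 1) (norm_nonneg _) (by positivity))
      _ = _ := by ring
  · have half := JetFn.const (1 / 2 : ℝ)
    rw [var_congr (d := fun f x => mk3 2 f x *
          (pd 1 (mk3 1 f) x - (1 / 2 : ℝ) * pd 0 (mk3 2 f) x)
          - mk3 1 f x * ((1 / 2 : ℝ) * pd 1 (mk3 2 f) x))
        (fun f x hf => by rw [gam02_eqM hf]; simp [gam02M, mjet]; ring) hf hsw,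
      var_sub ((J0 2).mul ((J 1 1).sub (half.mul (J 2 0)))) ((J0 1).mul (half.mul (J 2 1))) hf hsw,
      var_mul (J0 2) ((J 1 1).sub (half.mul (J 2 0))) hf hsw,
      var_mul (J0 1) (half.mul (J 2 1)) hf hsw, var_sub (J 1 1) (half.mul (J 2 0)) hf hsw,
      var_mul half (J 2 0) hf hsw, var_mul half (J 2 1) hf hsw, var_const]
    have p5 : |pd 0 (mk3 2 f) x| ≤ 2 * (C * C) := by
      rw [(pd_mk3 hf 0 x).2.2, abs_mul, abs_two]
      exact mul_le_mul_of_nonneg_left (ip (hpd 1) hxy) (by norm_num)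
    have p8 : |pd 1 (mk3 2 f) x| ≤ 2 * (C * C) := by
      rw [(pd_mk3 hf 1 x).2.2, abs_mul, abs_two]
      exact mul_le_mul_of_nonneg_left (ip (hpd 1) hyy) (by norm_num)
    have p7 : |pd 1 (mk3 1 f) x| ≤ 2 * (C * C) := by
      rw [(pd_mk3 hf 1 x).2.1, pd_comm hf 1 0 x]
      refine (abs_add_le _ _).trans ?_
      have := ip hxy (hpd 1)
      have := ip (hpd 0) hyy
      simp only [fxy, fyy] at *
      linarith
    have t1 := abs_le.1 (pr (d0 2) p7)
    have t2 := abs_le.1 (pr (d0 2) p5)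
    have t3 := abs_le.1 (pr m2 (d2 1))
    have t4 := abs_le.1 (pr m2 (d1 2))
    have t5 := abs_le.1 (pr (d0 1) p8)
    have t6 := abs_le.1 (pr m1 (d2 2))
    refine abs_le.2 ?_
    rw [show 6 * C ^ 3 / (M : ℝ) = 6 * (C * C * z) by rw [hz]; ring]
    constructor <;> linarith

/-- The junk-free parts when only `∂y³` is prescribed. -/
theorem var_third (hP : Pt false C A M f x)
    (hw : SlowDir false C A ζ M f x (single2 0 3 T) w) :
    var kk f w x = tr f w x * kk f x ∧ var DD f w x = tr f w x * DD f x ∧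
    var psiB f w x = 3 * tr f w x * psiB f x + gdet f x * ⟪nv f x T, fxx f x⟫
      + D2 f x * (5 * var (fun f x => gam f x 0 2) f w x - 10 * (tr f w x * gam f x 0 2)) ∧
    var dyB f w x = tr f w x * dyB f x + 2 * ⟪nv f x T, fxy f x⟫ := by
  have hf := hP.smooth
  have hsw := hw.smooth
  have hT := hP.tan hw
  have hall := hw.all rfl
  have z : ∀ {i j}, i + j ≤ 3 → ¬(i = 0 ∧ j = 3) → nv f x (pdm i j w x) = 0 := fun h hne => by
    rw [hall _ _ h, single2, if_neg hne]; exact cross_zero₃ _ _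
  have nxx : nv f x (fxx w x) = 0 := z (i := 2) (j := 0) (by omega) (by omega)
  have nxy : nv f x (fxy w x) = 0 := z (i := 1) (j := 1) (by omega) (by omega)
  have nyy : nv f x (fyy w x) = 0 := z (i := 0) (j := 2) (by omega) (by omega)
  have n12 : nv f x (pdm 1 2 w x) = 0 := z le_rfl (by omega)
  have n21 : nv f x (pdm 2 1 w x) = 0 := z le_rfl (by omega)
  have n03 : nv f x (pdm 0 3 w x) = nv f x T := by
    rw [hall 0 3 le_rfl, single2, if_pos ⟨rfl, rfl⟩]
  have zr : ∀ {u v : R4}, nv f x v = 0 → omega f x u v = 0 := fun {u v} h => by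
    rw [omega_swap, omega_eq, h, inner_zero_left, neg_zero]
  have zl : ∀ {u v : R4}, nv f x u = 0 → omega f x u v = 0 := fun {u v} h => by
    rw [omega_eq, h, inner_zero_left]
  have e03 : ∀ v, omega f x (pdm 0 3 w x) v = ⟪nv f x T, v⟫ := fun v => by rw [omega_eq, n03]
  obtain ⟨sxx, sxy, syy⟩ := var_second (x := x) hf hsw
  have v12 : var (fun f x => pdm 1 2 f x) f w x = pdm 1 2 w x := var_pd3_self hf hsw 0 1 1
  have v21 : var (fun f x => pdm 2 1 f x) f w x = pdm 2 1 w x := var_pd3_self hf hsw 0 0 1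
  have v03 : var (fun f x => pdm 0 3 f x) f w x = pdm 0 3 w x := var_pd3_self hf hsw 1 1 1
  have J21 : JetFn fun f x => pdm 2 1 f x := ((JetFn.pd_self 1).pd 0).pd 0
  have J12 : JetFn fun f x => pdm 1 2 f x := ((JetFn.pd_self 1).pd 1).pd 0
  have J03 : JetFn fun f x => pdm 0 3 f x := ((JetFn.pd_self 1).pd 1).pd 1
  refine ⟨?_, ?_, ?_, ?_⟩
  · rw [hT.var_kk, zl nyy, real_inner_comm, show ⟪fxx w x, nu1 f x⟫ = -⟪nv f x (fxx w x), fyy f x⟫ by
      rw [nu1_eq, real_inner_comm, inner_nv_nv], nxx, inner_zero_left]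
    ring
  · rw [hT.var_DD, zl nyy, real_inner_comm, show ⟪fxy w x, nu1 f x⟫ = -⟪nv f x (fxy w x), fyy f x⟫ by
      rw [nu1_eq, real_inner_comm, inner_nv_nv], nxy, inner_zero_left]
    ring
  · have hR : var bRest f w x = tr f w x * bRest f x + ⟪nv f x T, fxx f x⟫ := by
      rw [show bRest = fun f x => omega f x (pdm 0 3 f x) (fxx f x)
          - omega f x (fyy f x) (pdm 2 1 f x)
          - 2 * omega f x (pdm 1 2 f x) (fxy f x) from rfl,
        var_sub ((JetFn.omega J03 JetFn.fxx).sub (JetFn.omega JetFn.fyy J21))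
          ((JetFn.const (2 : ℝ)).mul (JetFn.omega J12 JetFn.fxy)) hf hsw,
        var_sub (JetFn.omega J03 JetFn.fxx) (JetFn.omega JetFn.fyy J21) hf hsw,
        var_mul (JetFn.const (2 : ℝ)) (JetFn.omega J12 JetFn.fxy) hf hsw, var_const,
        hT.var_omega J03 JetFn.fxx, hT.var_omega JetFn.fyy J21, hT.var_omega J12 JetFn.fxy,
        v03, v12, v21, sxx, sxy, syy, e03, zr nxx, zl nyy, zr n21, zl n12, zr nxy]
      ring
    rw [show psiB = fun f x => gdet f x * bRest f x + 5 * (D2 f x * gam f x 0 2) from rfl,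
      var_add (JetFn.gdet.mul JetAt.bRest.jetFn)
        ((JetFn.const (5 : ℝ)).mul (JetFn.D2.mul (JetFn.gam 0 2))) hf hsw,
      var_mul JetFn.gdet JetAt.bRest.jetFn hf hsw,
      var_mul (JetFn.const (5 : ℝ)) (JetFn.D2.mul (JetFn.gam 0 2)) hf hsw, var_const,
      var_mul JetFn.D2 (JetFn.gam 0 2) hf hsw, hT.var_gdet, hT.var_D2, zl nxx, zr nxy, hR]
    ring
  · rw [show dyB = fun f x => pd 1 (DD f) x from rfl, var_congr (fun f x hf => pd1_DD hf x) hf hsw,
      var_mul (JetFn.const (2 : ℝ))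
        ((JetFn.omega J03 JetFn.fxy).add (JetFn.omega JetFn.fyy J12)) hf hsw, var_const,
      var_add (JetFn.omega J03 JetFn.fxy) (JetFn.omega JetFn.fyy J12) hf hsw,
      hT.var_omega J03 JetFn.fxy, hT.var_omega JetFn.fyy J12, v03, v12, sxy, syy, e03, zr nxy,
      zl nyy, zr n12]
    beta_reduce
    rw [pd1_DD hf]
    ring

end Vale.Agent.P205F
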