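import Vale.Agent.P205F.GoodProb.G2Spec

/-!
# P205, GoodProb: case (c) of the small regime

Exact modulo `ν²` every normal component of the jets of order two is free. If `n_xy` is not small,
`D`, `c` and `D₂` form a triangular system. Otherwise `ν₁` and `n_xy` are both small: two of their
coordinates each, along a pair `k, l` where the normal plane projects well, form one.
-/

namespace Vale.Agent.P205F

open scoped ContDiff RealInnerProductSpace
open Filter MeasureTheory Prob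

/-- A vector scaled to length one. -/
noncomputable def unitV (u : R4) : R4 := ‖u‖⁻¹ • u

theorem norm_unitV_le (u : R4) : ‖unitV u‖ ≤ 1 := by
  rw [unitV, norm_smul, norm_inv, norm_norm]
  exact inv_mul_le_one

theorem inner_unitV (u : R4) : ⟪unitV u, u⟫ = ‖u‖ := by
  rw [unitV, real_inner_smul_left, real_inner_self_eq_norm_sq, pow_two, ← mul_assoc]
  by_cases h : ‖u‖ = 0
  · simp [h]
  · rw [inv_mul_cancel₀ h, one_mul]

theorem inner_nv_self (f : E2 → R4) (x : E2) (u : R4) : ⟪nv f x u, u⟫ = 0 := by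
  have := inner_nv_nv f x u u
  linarith

/-- A coordinate vector. -/
noncomputable def bas (k : Fin 4) : R4 := EuclideanSpace.single k 1

/-- The projection of the normal plane to the coordinates `k, l`. -/
noncomputable def plk2 (k l : Fin 4) : SF := fun f x => ⟪nv f x (bas k), bas l⟫

theorem JetAt.nvVec (e : R4) : JetAt 1 fun f x => nv f x e :=
  JetAt.cross (JetAt.pd_self 0) (JetAt.pd_self 1) ((JetAt.const e).mono (Nat.zero_le 1))

theorem JetAt.plk2 (k l : Fin 4) : JetAt 1 (P205F.plk2 k l) :=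
  ((JetAt.nvVec (bas k)).inner ((JetAt.const (bas l)).mono (Nat.zero_le 1))).mono le_rfl

/-- The projections are not all small. -/
theorem sum_plk2 (f : E2 → R4) (x : E2) : ∑ k, ∑ l, plk2 k l f x ^ 2 = 2 * gdet f x := by
  simp only [plk2, nv, gdet, bas, inner_R4, cross, Fin.sum_univ_four]
  simp [EuclideanSpace.single_apply]
  ring

theorem exists_plk2 {b : Bool} {C : ℝ} {A M : ℕ} {f : E2 → R4} {x : E2} (h : Pt b C A M f x)
    (hC : C ≤ M) (hM : 4 ≤ M) : ∃ k l, ((M : ℝ) ^ 4)⁻¹ ≤ |plk2 k l f x| := by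
  by_contra hcon
  push Not at hcon
  have hM4 : (4 : ℝ) ≤ M := by exact_mod_cast hM
  set r := ((M : ℝ) ^ 4)⁻¹ with hr
  have hr0 : 0 ≤ r := by positivity
  have hsum : ∑ k, ∑ l, plk2 k l f x ^ 2 ≤ 16 * r ^ 2 := by
    refine (Finset.sum_le_sum fun k _ => Finset.sum_le_sum fun l _ => ?_).trans_eq
      (by simp [Finset.sum_const]; ring : ∑ _k : Fin 4, ∑ _l : Fin 4, r ^ 2 = 16 * r ^ 2)
    rw [← sq_abs]
    exact pow_le_pow_left₀ (abs_nonneg _) (hcon k l).le 2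
  rw [sum_plk2] at hsum
  have hG : r ≤ gdet f x :=
    (inv_anti₀ (pow_pos (lt_of_lt_of_le one_pos h.one_le) 4)
      (pow_le_pow_left₀ (by linarith [h.one_le]) hC 4)).trans h.gdet_ge
  have hr1 : 16 * r < 2 := by
    have h256 : (256 : ℝ) ≤ (M : ℝ) ^ 4 := by
      calc (256 : ℝ) = 4 ^ 4 := by norm_num
        _ ≤ _ := pow_le_pow_left₀ (by norm_num) hM4 4
    have : r ≤ 1 / 256 := by rw [hr, inv_eq_one_div]; gcongr
    linarith
  have hrpos : 0 < r := by positivity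
  nlinarith

theorem SlowDir.nv_all {C : ℝ} {A : ℕ} {ζ : ℝ} {M : ℕ} {f : E2 → R4} {x : E2} {p q : ℕ} {v : R4}
    {w : E2 → R4} (h : SlowDir false C A ζ M f x (single2 p q v) w) {i j : ℕ} (hij : i + j ≤ 3) :
    nv f x (pdm i j w x) = if i = p ∧ j = q then nv f x v else 0 := by
  rw [h.all rfl i j hij, single2]
  split_ifs
  · rfl
  · exact cross_zero₃ _ _

/-- A slow direction with one normal jet, and its trace. -/
theorem dirC (A : ℕ) : ∃ E : ℕ, ∀ᶠ M : ℕ in atTop, ∀ (d : ℕ) (F : (Fin d → ℝ) → E2 → R4)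
    (K : Set E2) (C : ℝ) (V s : ℕ), C ≤ M → Setup false F K C A V s M → ∀ l ∈ cube d, ∀ x ∈ K,
      ∀ (p q : ℕ) (u : R4), 2 ≤ p + q → Normal (F l) x u → ∃ v, ‖v‖ ≤ (M : ℝ) ^ A ∧
        ‖jet 10 (dlam F l v) x‖ ≤ (M : ℝ) ^ A ∧
        SlowDir false C A ((M : ℝ) ^ s)⁻¹ M (F l) x (single2 p q (unitV u)) (dlam F l v) ∧
        |tr (F l) (dlam F l v) x| ≤ (M : ℝ) ^ E := by
  obtain ⟨E, hE⟩ := tr_small A
  refine ⟨E, ?_⟩
  filter_upwards [hE, eventually_ge_atTop 1] with M hE hM d F K C V s hCM hF l hl x hx p q u hpq hu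
  have hM0 : (0 : ℝ) < M := by exact_mod_cast hM
  have hP := hF.pt l hl x hx
  obtain ⟨v, hv, hw⟩ := hF.slow l hl x hx (single2 p q (unitV u))
    (single2_ok hpq (norm_unitV_le u) (hu.smul _) (by simp))
  refine ⟨v, hv, hw.jets, hw, ?_⟩
  refine (hE false C A (F l) (dlam F l v) x (C / M) hP hCM (hP.tan hw)
    ((norm_jet_mono (by omega) _ x).trans hP.jets) hw.linF).trans ?_
  exact mul_le_of_le_one_right (by positivity) ((div_le_one hM0).2 hCM)

/-- `n_xy` not small. -/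
theorem caseC_mixed (A c : ℕ) : ∃ c' : ℕ, ∀ (s V d : ℕ) (K : Set E2) (C δ : ℝ), IsCompact K → 0 < δ →
    ∀ᶠ M : ℕ in atTop, ∀ F : (Fin d → ℝ) → E2 → R4, Setup false F K C A V s M →
      volume (Bad F K fun f x => |DD f x| ≤ ((M : ℝ) ^ c')⁻¹ ∧ |cc f x| ≤ ((M : ℝ) ^ c')⁻¹ ∧
        |D2 f x| ≤ ((M : ℝ) ^ c')⁻¹ ∧
        ((M : ℝ) ^ c)⁻¹ ≤ |⟪nv f x (fxy f x), nv f x (fxy f x)⟫|) ≤ ENNReal.ofReal δ := by
  obtain ⟨E₂, h₂⟩ := dirC A
  have jY : JetAt 2 fun f x => nv f x (fxy f x) :=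
    JetAt.cross (JetAt.pd_self 0) (JetAt.pd_self 1) JetAt.fxy
  have jY' : JetAt 2 fun f x => nv f x (nv f x (fxy f x)) :=
    JetAt.cross (JetAt.pd_self 0) (JetAt.pd_self 1) jY
  obtain ⟨EY, hY⟩ := jY.bound A
  obtain ⟨EY', hY'⟩ := jY'.bound A
  set φ : Fin 3 → SF := ![DD, cc, D2] with hφdef
  have hφ : ∀ i, JetAt 10 (φ i) := fun i => by
    fin_cases i
    · exact JetAt.DD.mono (by omega)
    · exact JetAt.cc.mono (by omega)
    · exact JetAt.D2.mono (by omega)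
  set ψ : Fin 1 → SF := ![fun f x => ⟪nv f x (fxy f x), nv f x (fxy f x)⟫] with hψdef
  have hψ : ∀ i, JetAt 10 (ψ i) := fun i => by
    fin_cases i
    exact (jY.inner jY).mono (by omega)
  set Em := c + 5 + EY + EY' with hEm
  set E := A + Em + 1 with hE
  obtain ⟨B, L, hBL⟩ := bad_small le_rfl φ ψ hφ hψ A E A c
  set c' := 8 * L + c + B + E + E₂ + 2 with hc'
  refine ⟨c', fun s V d K C δ hK hδ => ?_⟩
  filter_upwards [h₂, hY, hY', hBL c' (by omega) d K δ hK hδ, eventually_ge_atTop 4,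
    (tendsto_natCast_atTop_atTop (R := ℝ)).eventually_ge_atTop C] with M h₂ hY hY' hM' hM hCM F hF
  have hM4 : (4 : ℝ) ≤ M := by exact_mod_cast hM
  have hM2 : (2 : ℝ) ≤ M := by linarith
  have hM1 : (1 : ℝ) ≤ M := by linarith
  refine (measure_mono ?_).trans (hM' F hF.bdd ?_)
  · rintro l ⟨hl, x, hx, a₁, a₂, a₃, hb⟩
    refine ⟨hl, x, hx, fun i => ?_, fun j => ?_⟩
    · fin_cases i
      exacts [a₁, a₂, a₃]
    · fin_cases j
      exact hb
  intro l hl x hx hsm hbig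
  set f := F l with hfdef
  have hP := hF.pt l hl x hx
  have hf := hP.smooth
  set ζ := ((M : ℝ) ^ (c' - L))⁻¹ with hζ
  set Y := nv f x (fxy f x) with hYdef
  have hDD : |DD f x| ≤ ζ := hsm 0
  have hcc : |cc f x| ≤ ζ := hsm 1
  have hD2 : |D2 f x| ≤ ζ := hsm 2
  have hq : ((M : ℝ) ^ (c + 1))⁻¹ ≤ ⟪Y, Y⟫ :=
    (hbig 0).trans_eq (abs_of_nonneg real_inner_self_nonneg)
  have hj2 : ‖jet 2 f x‖ ≤ (M : ℝ) ^ A := (norm_jet_mono (by omega) f x).trans hP.jets
  have hYu : ‖Y‖ ≤ (M : ℝ) ^ EY := (hY f x hf hj2).1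
  have hYl : ((M : ℝ) ^ (c + 1 + EY))⁻¹ ≤ ‖Y‖ := by
    rw [real_inner_self_eq_norm_sq, pow_two] at hq
    rw [pow_add, mul_inv, ← div_eq_mul_inv, div_le_iff₀ (by positivity)]
    exact hq.trans (mul_le_mul_of_nonneg_left hYu (norm_nonneg _))
  have hYn : Normal f x Y := normal_nv f x _
  have e3 : nv f x (nv f x Y) = -gdet f x • Y := nv_nv_normal f x hYn.1 hYn.2
  have hG : ((M : ℝ) ^ 4)⁻¹ ≤ gdet f x :=
    (inv_anti₀ (pow_pos (lt_of_lt_of_le one_pos hP.one_le) 4)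
      (pow_le_pow_left₀ (by linarith [hP.one_le]) hCM 4)).trans hP.gdet_ge
  have small : ∀ {a t : ℝ}, |t| ≤ ζ → |a| ≤ (M : ℝ) ^ E₂ → |a * t| ≤ ((M : ℝ) ^ B)⁻¹ := fun ht ha => by
    refine pw_small hM2 (σ := c' - L) (E := E₂) (by omega) ?_
    rw [abs_mul]; exact mul_le_mul ha ht (abs_nonneg _) (by positivity)
  have small2 : ∀ {a t : ℝ}, |t| ≤ ζ → |a| ≤ (M : ℝ) ^ E₂ → |2 * a * t| ≤ ((M : ℝ) ^ B)⁻¹ :=
    fun {a t} ht ha => by
    refine pw_small hM2 (σ := c' - L) (E := E₂ + 1) (by omega) ?_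
    rw [abs_mul, abs_mul, abs_two, pow_succ, mul_comm ((M : ℝ) ^ E₂), mul_assoc (M : ℝ), mul_assoc]
    exact mul_le_mul hM2 (mul_le_mul ha ht (abs_nonneg _) (by positivity)) (by positivity) (by linarith)
  have diag : ∀ {main a t : ℝ}, ((M : ℝ) ^ Em)⁻¹ ≤ |main| → |t| ≤ ζ → |a| ≤ (M : ℝ) ^ E₂ * 2 →
      ((M : ℝ) ^ E)⁻¹ ≤ |main + a * t| := fun {main a t} hmain ht ha => by
    refine pw_diag hM2 (by omega) hmain (pw_small hM2 (σ := c' - L) (E := E₂ + 1) (by omega) ?_)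
    rw [abs_mul, pow_succ]
    exact mul_le_mul (ha.trans (mul_le_mul_of_nonneg_left hM2 (by positivity))) ht (abs_nonneg _)
      (by positivity)
  have main1 : ((M : ℝ) ^ Em)⁻¹ ≤ ‖Y‖ :=
    (inv_anti₀ (by positivity) (pow_le_pow_right₀ hM1 (by omega))).trans hYl
  have jA : ∀ {w : E2 → R4}, ‖jet 10 w x‖ ≤ (M : ℝ) ^ A → ‖jet 10 w x‖ ≤ (M : ℝ) ^ E :=
    fun h => h.trans (pow_le_pow_right₀ hM1 (by omega))
  intro j
  fin_cases j
  · obtain ⟨v, hv, hj, hw, htr⟩ := h₂ d F K C V s hCM hF l hl x hx 0 2 Y le_rfl hYn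
    refine ⟨v, hv, jA hj, fun i hi => absurd hi (by simp), ?_⟩
    show _ ≤ |var DD f _ x|
    have n11 : nv f x (fxy (dlam F l v) x) = 0 := (hw.nv_all (i := 1) (j := 1) (by omega)).trans (by simp)
    have n02 : nv f x (fyy (dlam F l v) x) = nv f x (unitV Y) :=
      (hw.nv_all (i := 0) (j := 2) (by omega)).trans (by simp [hfdef])
    rw [(hP.tan hw).var_DD, omega_eq, n02, inner_nv_nv f x (unitV Y) (fxy f x), nu1_eq,
      inner_nv_nv f x (fyy f x) (fxy (dlam F l v) x), n11, inner_zero_left, ← hYdef,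
      real_inner_comm (unitV Y) Y, inner_unitV, neg_zero, mul_zero, add_zero, add_comm]
    refine diag ?_ hDD (htr.trans (le_mul_of_one_le_right (by positivity) one_le_two))
    rw [mul_neg, abs_neg, abs_of_nonneg (by positivity : (0 : ℝ) ≤ 2 * ‖Y‖)]
    linarith [norm_nonneg Y]
  · obtain ⟨v, hv, hj, hw, htr⟩ := h₂ d F K C V s hCM hF l hl x hx 0 2 (nv f x Y) le_rfl (normal_nv f x _)
    have n11 : nv f x (fxy (dlam F l v) x) = 0 := (hw.nv_all (i := 1) (j := 1) (by omega)).trans (by simp)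
    have n02 : nv f x (fyy (dlam F l v) x) = (-(gdet f x) * ‖nv f x Y‖⁻¹) • Y :=
      (hw.nv_all (i := 0) (j := 2) (by omega)).trans (by
        rw [if_pos ⟨rfl, rfl⟩, unitV, show nv f x (‖nv f x Y‖⁻¹ • nv f x Y) =
          ‖nv f x Y‖⁻¹ • nv f x (nv f x Y) from cross_smul₃ _ _ _ _, e3, smul_smul]
        ring_nf)
    refine ⟨v, hv, jA hj, fun i hi => ?_, ?_⟩
    · obtain rfl : i = 0 := by
        have h1 : (i : ℕ) < 1 := hi
        exact Fin.ext (by simp; omega)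
      show |var DD f _ x| ≤ _
      have hYf : ⟪Y, fxy f x⟫ = 0 := inner_nv_self f x _
      rw [(hP.tan hw).var_DD, omega_eq, n02, real_inner_smul_left, hYf, mul_zero, mul_zero, add_zero,
        nu1_eq, inner_nv_nv f x (fyy f x) (fxy (dlam F l v) x), n11, inner_zero_left, neg_zero,
        mul_zero, add_zero]
      exact small hDD htr
    · show _ ≤ |var cc f _ x|
      rw [(hP.tan hw).var_cc, n02, nu2_eq, inner_nv_nv f x (nu1 f x) (fxy (dlam F l v) x), n11,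
        inner_zero_left, neg_zero, add_zero, real_inner_smul_left, sub_eq_add_neg, add_comm,
        mul_assoc 2, ← mul_assoc, mul_comm 2]
      refine diag ?_ hcc ?_
      · have hY'u : ‖nv f x Y‖ ≤ (M : ℝ) ^ EY' := (hY' f x hf hj2).1
        have hYpos : 0 < ‖nv f x Y‖ := by
          have e := inner_nv_normal f x hYn.1 hYn.2 Y
          rw [real_inner_self_eq_norm_sq] at e
          have : 0 < gdet f x * ⟪Y, Y⟫ := mul_pos hP.gdet_pos (lt_of_lt_of_le (by positivity) hq)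
          by_contra hle
          rw [not_lt] at hle
          have h0 : ‖nv f x Y‖ = 0 := le_antisymm hle (norm_nonneg _)
          rw [h0] at e
          linarith
        rw [← hYdef, neg_mul, neg_mul, neg_neg, abs_mul, abs_mul, abs_inv, abs_norm, abs_of_pos hP.gdet_pos,
          abs_of_nonneg (real_inner_self_nonneg (x := Y))]
        calc ((M : ℝ) ^ Em)⁻¹ = ((M : ℝ) ^ 4)⁻¹ * ((M : ℝ) ^ EY')⁻¹ * ((M : ℝ) ^ (c + 1 + EY))⁻¹ := by
              rw [← mul_inv, ← mul_inv, ← pow_add, ← pow_add, hEm]; congr 2; omega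
          _ ≤ gdet f x * ‖nv f x Y‖⁻¹ * ((M : ℝ) ^ (c + 1))⁻¹ :=
              mul_le_mul (mul_le_mul hG (inv_anti₀ hYpos hY'u) (by positivity) hP.gdet_pos.le)
                (inv_anti₀ (by positivity) (pow_le_pow_right₀ hM1 (by omega))) (by positivity)
                (mul_nonneg hP.gdet_pos.le (by positivity))
          _ ≤ _ := mul_le_mul_of_nonneg_left hq (mul_nonneg hP.gdet_pos.le (by positivity))
      · rw [abs_mul, abs_two]; linarith [htr]
  · obtain ⟨v, hv, hj, hw, htr⟩ := h₂ d F K C V s hCM hF l hl x hx 2 0 Y le_rfl hYn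
    have n11 : nv f x (fxy (dlam F l v) x) = 0 := (hw.nv_all (i := 1) (j := 1) (by omega)).trans (by simp)
    have n02 : nv f x (fyy (dlam F l v) x) = 0 := (hw.nv_all (i := 0) (j := 2) (by omega)).trans (by simp)
    have n20 : nv f x (fxx (dlam F l v) x) = nv f x (unitV Y) :=
      (hw.nv_all (i := 2) (j := 0) (by omega)).trans (by simp [hfdef])
    refine ⟨v, hv, jA hj, fun i hi => ?_, ?_⟩
    · fin_cases i
      · show |var DD f _ x| ≤ _
        rw [(hP.tan hw).var_DD, omega_eq, n02, inner_zero_left, mul_zero, add_zero, nu1_eq,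
          inner_nv_nv f x (fyy f x) (fxy (dlam F l v) x), n11, inner_zero_left, neg_zero, mul_zero,
          add_zero]
        exact small hDD htr
      · show |var cc f _ x| ≤ _
        rw [(hP.tan hw).var_cc, n02, inner_zero_left, sub_zero, nu2_eq,
          inner_nv_nv f x (nu1 f x) (fxy (dlam F l v) x), n11, inner_zero_left, neg_zero, add_zero]
        exact small2 hcc htr
      · simp at hi
    · show _ ≤ |var D2 f _ x|
      rw [(hP.tan hw).var_D2, omega_eq, n20, inner_nv_nv f x (unitV Y) (fxy f x), ← hYdef,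
        real_inner_comm (unitV Y) Y, inner_unitV, omega_eq,
        inner_nv_nv f x (fxx f x) (fxy (dlam F l v) x), n11, inner_zero_left, neg_zero, add_zero,
        add_comm]
      refine diag ?_ hD2 (htr.trans (le_mul_of_one_le_right (by positivity) one_le_two))
      rwa [abs_neg, abs_norm]

/-- `ν₁` and `n_xy` both small. -/
theorem caseC_both (A : ℕ) (k l : Fin 4) : ∃ c' : ℕ, ∀ (s V d : ℕ) (K : Set E2) (C δ : ℝ),
    IsCompact K → 0 < δ → ∀ᶠ M : ℕ in atTop, ∀ F : (Fin d → ℝ) → E2 → R4,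
      Setup false F K C A V s M → volume (Bad F K fun f x =>
        ‖nu1 f x‖ ≤ ((M : ℝ) ^ c')⁻¹ ∧ ‖nv f x (fxy f x)‖ ≤ ((M : ℝ) ^ c')⁻¹ ∧
        ((M : ℝ) ^ 4)⁻¹ ≤ |plk2 k l f x|) ≤ ENNReal.ofReal δ := by
  obtain ⟨E₂, h₂⟩ := dirC A
  obtain ⟨EK, hK'⟩ := (JetAt.nvVec (bas k)).bound A
  have jkk : JetAt 1 fun f x => nv f x (nv f x (bas k)) :=
    JetAt.cross (JetAt.pd_self 0) (JetAt.pd_self 1) (JetAt.nvVec _)
  obtain ⟨EK', hK''⟩ := jkk.bound A
  have jY : JetAt 2 fun f x => nv f x (fxy f x) :=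
    JetAt.cross (JetAt.pd_self 0) (JetAt.pd_self 1) JetAt.fxy
  have jZ : JetAt 2 fun f x => nv f x (fyy f x) :=
    JetAt.cross (JetAt.pd_self 0) (JetAt.pd_self 1) JetAt.fyy
  set φ : Fin 4 → SF := ![fun f x => ⟪nv f x (fyy f x), bas k⟫, fun f x => ⟪nv f x (fyy f x), bas l⟫,
    fun f x => ⟪nv f x (fxy f x), bas k⟫, fun f x => ⟪nv f x (fxy f x), bas l⟫] with hφdef
  have hφ : ∀ i, JetAt 10 (φ i) := fun i => by
    fin_cases i
    · exact (jZ.inner ((JetAt.const (bas k)).mono (Nat.zero_le 2))).mono (by omega)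
    · exact (jZ.inner ((JetAt.const (bas l)).mono (Nat.zero_le 2))).mono (by omega)
    · exact (jY.inner ((JetAt.const (bas k)).mono (Nat.zero_le 2))).mono (by omega)
    · exact (jY.inner ((JetAt.const (bas l)).mono (Nat.zero_le 2))).mono (by omega)
  set ψ : Fin 1 → SF := ![plk2 k l] with hψdef
  have hψ : ∀ i, JetAt 10 (ψ i) := fun i => by
    fin_cases i
    exact (JetAt.plk2 k l).mono (by omega)
  set Em := 10 + EK + EK' with hEm
  set E := A + Em + 1 with hE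
  obtain ⟨B, L, hBL⟩ := bad_small (by norm_num : 3 ≤ 4) φ ψ hφ hψ A E A 4
  set c' := 8 * L + 4 + B + E + E₂ + 2 with hc'
  refine ⟨c', fun s V d K C δ hK hδ => ?_⟩
  filter_upwards [h₂, hK', hK'', hBL c' (by omega) d K δ hK hδ, eventually_ge_atTop 4,
    (tendsto_natCast_atTop_atTop (R := ℝ)).eventually_ge_atTop C] with M h₂ hK' hK'' hM' hM hCM F hF
  have hM4 : (4 : ℝ) ≤ M := by exact_mod_cast hM
  have hM2 : (2 : ℝ) ≤ M := by linarith
  have hM1 : (1 : ℝ) ≤ M := by linarith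
  have hbas : ∀ i, ‖bas i‖ = 1 := fun i => by simp [bas]
  refine (measure_mono ?_).trans (hM' F hF.bdd ?_)
  · rintro z ⟨hz, x, hx, a₁, a₂, hb⟩
    have cs : ∀ (u : R4) (i : Fin 4), ‖u‖ ≤ ((M : ℝ) ^ c')⁻¹ → |⟪u, bas i⟫| ≤ ((M : ℝ) ^ c')⁻¹ :=
      fun u i hu => ((abs_real_inner_le_norm _ _).trans_eq (by rw [hbas, mul_one])).trans hu
    refine ⟨hz, x, hx, fun i => ?_, fun j => ?_⟩
    · fin_cases i
      exacts [cs _ k a₁, cs _ l a₁, cs _ k a₂, cs _ l a₂]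
    · fin_cases j
      exact hb
  intro z hz x hx hsm hbig
  set f := F z with hfdef
  have hP := hF.pt z hz x hx
  have hf := hP.smooth
  set ζ := ((M : ℝ) ^ (c' - L))⁻¹ with hζ
  set N := nv f x (bas k) with hNdef
  have hNn : Normal f x N := normal_nv f x _
  have e3 : nv f x (nv f x N) = -gdet f x • N := nv_nv_normal f x hNn.1 hNn.2
  have hpl : ((M : ℝ) ^ 5)⁻¹ ≤ |⟪N, bas l⟫| := hbig 0
  have hj1 : ‖jet 1 f x‖ ≤ (M : ℝ) ^ A := (norm_jet_mono (by omega) f x).trans hP.jets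
  have hNl : ((M : ℝ) ^ 5)⁻¹ ≤ ‖N‖ :=
    hpl.trans ((abs_real_inner_le_norm _ _).trans_eq (by rw [hbas, mul_one]))
  have hN'u : ‖nv f x N‖ ≤ (M : ℝ) ^ EK' := (hK'' f x hf hj1).1
  have hG : ((M : ℝ) ^ 4)⁻¹ ≤ gdet f x :=
    (inv_anti₀ (pow_pos (lt_of_lt_of_le one_pos hP.one_le) 4)
      (pow_le_pow_left₀ (by linarith [hP.one_le]) hCM 4)).trans hP.gdet_ge
  have hN'pos : 0 < ‖nv f x N‖ := by
    have e := inner_nv_normal f x hNn.1 hNn.2 N
    rw [real_inner_self_eq_norm_sq, real_inner_self_eq_norm_sq] at e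
    have : 0 < gdet f x * ‖N‖ ^ 2 :=
      mul_pos hP.gdet_pos (pow_pos (lt_of_lt_of_le (by positivity) hNl) 2)
    by_contra hle
    rw [not_lt] at hle
    rw [le_antisymm hle (norm_nonneg _)] at e
    linarith
  -- the variation of a coordinate along a direction with one second jet
  have vco : ∀ (p q p' q' : ℕ) (u : R4) (w : E2 → R4) (e : R4) (g : (E2 → R4) → E2 → R4),
      SlowDir false C A ((M : ℝ) ^ s)⁻¹ M f x (single2 p q (unitV u)) w → JetFn g →
      var g f w x = pdm p' q' w x → p' + q' ≤ 3 →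
      var (fun f x => ⟪nv f x (g f x), e⟫) f w x = tr f w x * ⟪nv f x (g f x), e⟫
        + if p' = p ∧ q' = q then ⟪nv f x (unitV u), e⟫ else 0 := by
    intro p q p' q' u w e g hw hg hvg hpq
    rw [var_inner (JetFn.nv' hg) (JetFn.const e) hf hw.smooth, var_const, inner_zero_right, add_zero,
      (hP.tan hw).var_nv hg, hvg, hw.nv_all hpq, inner_add_left, real_inner_smul_left]
    congr 1
    split_ifs <;> simp
  have jA : ∀ {w : E2 → R4}, ‖jet 10 w x‖ ≤ (M : ℝ) ^ A → ‖jet 10 w x‖ ≤ (M : ℝ) ^ E :=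
    fun h => h.trans (pow_le_pow_right₀ hM1 (by omega))
  have off : ∀ {a t : ℝ}, |t| ≤ ζ → |a| ≤ (M : ℝ) ^ E₂ → |a * t + 0| ≤ ((M : ℝ) ^ B)⁻¹ :=
    fun ht ha => by
      rw [add_zero]
      refine pw_small hM2 (σ := c' - L) (E := E₂) (by omega) ?_
      rw [abs_mul]; exact mul_le_mul ha ht (abs_nonneg _) (by positivity)
  have diag : ∀ {main a t : ℝ}, ((M : ℝ) ^ Em)⁻¹ ≤ |main| → |t| ≤ ζ → |a| ≤ (M : ℝ) ^ E₂ →
      ((M : ℝ) ^ E)⁻¹ ≤ |a * t + main| := fun {main a t} hmain ht ha => by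
    rw [add_comm]
    refine pw_diag hM2 (by omega) hmain (pw_small hM2 (σ := c' - L) (E := E₂) (by omega) ?_)
    rw [abs_mul]; exact mul_le_mul ha ht (abs_nonneg _) (by positivity)
  have mk : ((M : ℝ) ^ Em)⁻¹ ≤ |⟪nv f x (unitV N), bas k⟫| := by
    rw [inner_nv_nv, ← hNdef, abs_neg, real_inner_comm, inner_unitV, abs_norm]
    exact (inv_anti₀ (by positivity) (pow_le_pow_right₀ hM1 (by omega))).trans hNl
  have eN' : nv f x (unitV (nv f x N)) = (-(gdet f x) * ‖nv f x N‖⁻¹) • N := by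
    rw [unitV, show nv f x (‖nv f x N‖⁻¹ • nv f x N) = ‖nv f x N‖⁻¹ • nv f x (nv f x N) from
      cross_smul₃ _ _ _ _, e3, smul_smul]
    ring_nf
  have zk : ⟪nv f x (unitV (nv f x N)), bas k⟫ = 0 := by
    rw [eN', real_inner_smul_left, hNdef, inner_nv_self, mul_zero]
  have ml : ((M : ℝ) ^ Em)⁻¹ ≤ |⟪nv f x (unitV (nv f x N)), bas l⟫| := by
    rw [eN', real_inner_smul_left, abs_mul, abs_mul, abs_neg, abs_inv, abs_norm,
      abs_of_pos hP.gdet_pos]
    calc ((M : ℝ) ^ Em)⁻¹ ≤ ((M : ℝ) ^ 4)⁻¹ * ((M : ℝ) ^ EK')⁻¹ * ((M : ℝ) ^ 5)⁻¹ := by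
          rw [← mul_inv, ← mul_inv, ← pow_add, ← pow_add]
          exact inv_anti₀ (by positivity) (pow_le_pow_right₀ hM1 (by omega))
      _ ≤ _ := mul_le_mul (mul_le_mul hG (inv_anti₀ hN'pos hN'u) (by positivity) hP.gdet_pos.le) hpl
          (by positivity) (mul_nonneg hP.gdet_pos.le (by positivity))
  have gyy := fun w (hw : ContDiff ℝ ∞ w) => (var_second (x := x) hf hw).2.2
  have gxy := fun w (hw : ContDiff ℝ ∞ w) => (var_second (x := x) hf hw).2.1
  intro j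
  fin_cases j
  · obtain ⟨v, hv, hj, hw, htr⟩ := h₂ d F K C V s hCM hF z hz x hx 0 2 N le_rfl hNn
    refine ⟨v, hv, jA hj, fun i hi => absurd hi (by simp), ?_⟩
    show _ ≤ |var (fun f x => ⟪nv f x (fyy f x), bas k⟫) f _ x|
    rw [vco 0 2 0 2 _ _ _ _ hw JetFn.fyy (gyy _ hw.smooth) (by omega), if_pos ⟨rfl, rfl⟩]
    exact diag mk (hsm 0) htr
  · obtain ⟨v, hv, hj, hw, htr⟩ := h₂ d F K C V s hCM hF z hz x hx 0 2 (nv f x N) le_rfl (normal_nv f x _)
    refine ⟨v, hv, jA hj, fun i hi => ?_, ?_⟩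
    · obtain rfl : i = 0 := by
        have h1 : (i : ℕ) < 1 := hi
        exact Fin.ext (by simp; omega)
      show |var (fun f x => ⟪nv f x (fyy f x), bas k⟫) f _ x| ≤ _
      rw [vco 0 2 0 2 _ _ _ _ hw JetFn.fyy (gyy _ hw.smooth) (by omega), if_pos ⟨rfl, rfl⟩, zk]
      exact off (hsm 0) htr
    · show _ ≤ |var (fun f x => ⟪nv f x (fyy f x), bas l⟫) f _ x|
      rw [vco 0 2 0 2 _ _ _ _ hw JetFn.fyy (gyy _ hw.smooth) (by omega), if_pos ⟨rfl, rfl⟩]
      exact diag ml (hsm 1) htr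
  · obtain ⟨v, hv, hj, hw, htr⟩ := h₂ d F K C V s hCM hF z hz x hx 1 1 N le_rfl hNn
    refine ⟨v, hv, jA hj, fun i hi => ?_, ?_⟩
    · fin_cases i
      · show |var (fun f x => ⟪nv f x (fyy f x), bas k⟫) f _ x| ≤ _
        rw [vco 1 1 0 2 _ _ _ _ hw JetFn.fyy (gyy _ hw.smooth) (by omega), if_neg (by omega)]
        exact off (hsm 0) htr
      · show |var (fun f x => ⟪nv f x (fyy f x), bas l⟫) f _ x| ≤ _
        rw [vco 1 1 0 2 _ _ _ _ hw JetFn.fyy (gyy _ hw.smooth) (by omega), if_neg (by omega)]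
        exact off (hsm 1) htr
      · simp at hi
      · simp at hi
    · show _ ≤ |var (fun f x => ⟪nv f x (fxy f x), bas k⟫) f _ x|
      rw [vco 1 1 1 1 _ _ _ _ hw JetFn.fxy (gxy _ hw.smooth) (by omega), if_pos ⟨rfl, rfl⟩]
      exact diag mk (hsm 2) htr
  · obtain ⟨v, hv, hj, hw, htr⟩ := h₂ d F K C V s hCM hF z hz x hx 1 1 (nv f x N) le_rfl (normal_nv f x _)
    refine ⟨v, hv, jA hj, fun i hi => ?_, ?_⟩
    · fin_cases i
      · show |var (fun f x => ⟪nv f x (fyy f x), bas k⟫) f _ x| ≤ _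
        rw [vco 1 1 0 2 _ _ _ _ hw JetFn.fyy (gyy _ hw.smooth) (by omega), if_neg (by omega)]
        exact off (hsm 0) htr
      · show |var (fun f x => ⟪nv f x (fyy f x), bas l⟫) f _ x| ≤ _
        rw [vco 1 1 0 2 _ _ _ _ hw JetFn.fyy (gyy _ hw.smooth) (by omega), if_neg (by omega)]
        exact off (hsm 1) htr
      · show |var (fun f x => ⟪nv f x (fxy f x), bas k⟫) f _ x| ≤ _
        rw [vco 1 1 1 1 _ _ _ _ hw JetFn.fxy (gxy _ hw.smooth) (by omega), if_pos ⟨rfl, rfl⟩, zk]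
        exact off (hsm 2) htr
      · simp at hi
    · show _ ≤ |var (fun f x => ⟪nv f x (fxy f x), bas l⟫) f _ x|
      rw [vco 1 1 1 1 _ _ _ _ hw JetFn.fxy (gxy _ hw.smooth) (by omega), if_pos ⟨rfl, rfl⟩]
      exact diag ml (hsm 3) htr

theorem caseCStmt : CaseCStmt := by
  intro A
  choose cp hcp using fun kl : Fin 4 × Fin 4 => caseC_both A kl.1 kl.2
  set c2 := Finset.univ.sup cp with hc2
  obtain ⟨c1, h1⟩ := caseC_mixed A (2 * c2)
  obtain ⟨EY, hY⟩ := (show JetAt 2 fun f x => nv f x (fxy f x) from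
    JetAt.cross (JetAt.pd_self 0) (JetAt.pd_self 1) JetAt.fxy).bound A
  refine ⟨2 * (c1 + c2 + EY), c1, c1, fun σ s V d K C δ hσ _ hK hδ => ?_⟩
  filter_upwards [h1 s V d K C (δ / 32) hK (by positivity),
    eventually_all.2 fun kl => hcp kl s V d K C (δ / 32) hK (by positivity), hY, eventually_ge_atTop 4,
    (tendsto_natCast_atTop_atTop (R := ℝ)).eventually_ge_atTop C] with M h1 h2 hY hM hCM F hF
  have hM1 : (1 : ℝ) ≤ M := by exact_mod_cast le_trans (by norm_num) hM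
  have hpow : ∀ {p q : ℕ}, p ≤ q → ((M : ℝ) ^ q)⁻¹ ≤ ((M : ℝ) ^ p)⁻¹ := fun h =>
    inv_anti₀ (by positivity) (pow_le_pow_right₀ hM1 h)
  set P : Fin 4 × Fin 4 → Set (Fin d → ℝ) := fun kl => Bad F K fun f x =>
    ‖nu1 f x‖ ≤ ((M : ℝ) ^ cp kl)⁻¹ ∧ ‖nv f x (fxy f x)‖ ≤ ((M : ℝ) ^ cp kl)⁻¹ ∧
      ((M : ℝ) ^ 4)⁻¹ ≤ |plk2 kl.1 kl.2 f x|
  set Q : Set (Fin d → ℝ) := Bad F K fun f x => |DD f x| ≤ ((M : ℝ) ^ c1)⁻¹ ∧
    |cc f x| ≤ ((M : ℝ) ^ c1)⁻¹ ∧ |D2 f x| ≤ ((M : ℝ) ^ c1)⁻¹ ∧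
    ((M : ℝ) ^ (2 * c2))⁻¹ ≤ |⟪nv f x (fxy f x), nv f x (fxy f x)⟫|
  refine (measure_mono (t := Q ∪ ⋃ kl, P kl) ?_).trans ((measure_union_le _ _).trans
    ((add_le_add (h1 F hF) ((measure_iUnion_fintype_le _ P).trans
      (Finset.sum_le_sum fun kl _ => h2 kl F hF))).trans ?_))
  · rintro z ⟨hz, x, hx, hN, hq, hb⟩
    have hP := hF.pt z hz x hx
    set f := F z
    have hn : ‖nu1 f x‖ ≤ ((M : ℝ) ^ (c1 + c2 + EY))⁻¹ := by
      rw [q1sq, real_inner_self_eq_norm_sq, mul_comm, pow_mul, ← inv_pow] at hq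
      exact (pow_le_pow_iff_left₀ (norm_nonneg _) (by positivity) two_ne_zero).1 hq
    by_cases hY2 : ((M : ℝ) ^ (2 * c2))⁻¹ ≤ |⟪nv f x (fxy f x), nv f x (fxy f x)⟫|
    · refine Or.inl ⟨hz, x, hx, ((le_max_right _ _).trans hN).trans (hpow hσ), ?_, hb, hY2⟩
      rw [cc_eq, abs_neg]
      refine (abs_real_inner_le_norm _ _).trans ((mul_le_mul hn
        (hY f x hP.smooth ((norm_jet_mono (by omega) f x).trans hP.jets)).1 (norm_nonneg _)
          (by positivity)).trans ?_)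
      rw [inv_mul_eq_div, inv_eq_one_div, div_le_div_iff₀ (by positivity) (by positivity), one_mul,
        ← pow_add]
      exact pow_le_pow_right₀ hM1 (by omega)
    · obtain ⟨k, l, hkl⟩ := exists_plk2 hP hCM hM
      have hcp' : cp (k, l) ≤ c2 := Finset.le_sup (Finset.mem_univ (k, l))
      refine Or.inr (Set.mem_iUnion.2 ⟨(k, l), hz, x, hx, hn.trans (hpow (by omega)), ?_, hkl⟩)
      rw [abs_of_nonneg real_inner_self_nonneg, real_inner_self_eq_norm_sq, not_le, mul_comm,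
        pow_mul, ← inv_pow] at hY2
      exact ((pow_le_pow_iff_left₀ (norm_nonneg _) (by positivity) two_ne_zero).1 hY2.le).trans
        (hpow hcp')
  · rw [Finset.sum_const, Finset.card_univ, Fintype.card_prod, Fintype.card_fin, nsmul_eq_mul,
      ← ENNReal.ofReal_natCast, ← ENNReal.ofReal_mul (by positivity),
      ← ENNReal.ofReal_add (by positivity) (by positivity)]
    exact ENNReal.ofReal_le_ofReal (by push_cast; linarith)

end Vale.Agent.P205F
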