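import Vale.Agent.P205F.GoodProb.Event
import Vale.Agent.P205F.GoodProb.Alg
import Vale.Agent.P205F.Chart.Frame

/-!
# P205, GoodProb: what a family gives at a point

`Pt`: size of the immersion at a point. `SlowDir`, `FineDir`: the prescribed directions, with
`ζ` for every error that beats all powers of `M`.
-/

namespace Vale.Agent.P205F

open scoped ContDiff RealInnerProductSpace
open Filter Prob

variable {f : E2 → R4} {x : E2}

/-- A normal vector. -/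
def Normal (f : E2 → R4) (x : E2) (σ : R4) : Prop := ⟪pd 0 f x, σ⟫ = 0 ∧ ⟪pd 1 f x, σ⟫ = 0

theorem normal_nv (f : E2 → R4) (x : E2) (u : R4) : Normal f x (nv f x u) :=
  ⟨by rw [real_inner_comm]; exact inner_nv₀ f x u, by rw [real_inner_comm]; exact inner_nv₁ f x u⟩

theorem Normal.smul {σ : R4} (h : Normal f x σ) (t : ℝ) : Normal f x (t • σ) :=
  ⟨by rw [real_inner_smul_right, h.1, mul_zero], by rw [real_inner_smul_right, h.2, mul_zero]⟩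

theorem Normal.nrm_eq {σ : R4} (h : Normal f x σ) : nrm f x σ = σ :=
  nrm_self_of_orth f x fun v => by
    rw [sum_ev v, map_sum, sum_inner, Fin.sum_univ_two, map_smul, map_smul, real_inner_smul_left,
      real_inner_smul_left, show fderiv ℝ f x (ev 0) = pd 0 f x from rfl,
      show fderiv ℝ f x (ev 1) = pd 1 f x from rfl, h.1, h.2]
    ring

theorem Normal.inner_II {σ : R4} (h : Normal f x σ) : ⟪σ, II f x (ev 1)⟫ = ⟪σ, fyy f x⟫ := by
  show ⟪σ, nrm f x (fyy f x)⟫ = _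
  rw [inner_nrm, h.nrm_eq]

/-- Equal normal products from equal normal components. -/
theorem nv_eq_of_inner {u v : R4} (h : ∀ σ, Normal f x σ → ⟪u, σ⟫ = ⟪v, σ⟫) :
    nv f x u = nv f x v := by
  refine ext_inner_right ℝ fun e => ?_
  rw [inner_nv_nv, inner_nv_nv f x v, real_inner_comm u, real_inner_comm v, h _ (normal_nv f x e)]

/-- The sizes at a point. -/
structure Pt (b : Bool) (C : ℝ) (A M : ℕ) (f : E2 → R4) (x : E2) : Prop where
  smooth : ContDiff ℝ ∞ f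
  one_le : 1 ≤ C
  jets : ‖jet 10 f x‖ ≤ (M : ℝ) ^ A
  imm : ∀ w, ‖w‖ ≤ C * ‖fderiv ℝ f x w‖
  low : ∀ i j, i + j ≤ 3 → ‖pdm i j f x‖ ≤ C * (M : ℝ) ^ (i - 1)
  abs : b = true → C⁻¹ ≤ ‖II f x (ev 1)‖

/-- A slow direction. -/
structure SlowDir (b : Bool) (C : ℝ) (A : ℕ) (ζ : ℝ) (M : ℕ) (f : E2 → R4) (x : E2)
    (τ : ℕ → ℕ → R4) (w : E2 → R4) : Prop where
  smooth : ContDiff ℝ ∞ w
  jets : ‖jet 10 w x‖ ≤ (M : ℝ) ^ A
  first : ∀ i : Fin 2, nv f x (pd i w x) = 0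
  all : b = false → ∀ i j, i + j ≤ 3 → nv f x (pdm i j w x) = nv f x (τ i j)
  two : ∀ i j, i + j ≤ 2 → i ≤ 1 → nv f x (pdm i j w x) = nv f x (τ i j)
  free : ∀ i j, i + j ≤ 3 → ⟪pdm i j w x, nu1 f x⟫ = ⟪τ i j, nu1 f x⟫
  linT : b = true → ∀ i j, i + j ≤ 2 → ‖pdm i j (Lin f w) x‖ ≤ ζ
  linF : ∀ i j, i + j ≤ 1 → ‖pdm i j (Lin f w) x‖ ≤ C / M

/-- A fine direction: one top jet at order `n`. -/
structure FineDir (b : Bool) (A : ℕ) (ζ : ℝ) (M : ℕ) (f : E2 → R4) (x : E2) (n i : ℕ) (τ : R4)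
    (w : E2 → R4) : Prop where
  smooth : ContDiff ℝ ∞ w
  jets : ‖jet 10 w x‖ ≤ (M : ℝ) ^ A
  low : ∀ i' j', i' + j' < n → ‖pdm i' j' w x‖ ≤ ζ
  top : ∀ i' ≤ n, ∀ σ, Normal f x σ → (b = true → ⟪σ, fyy f x⟫ = 0) → ‖σ‖ ≤ 1 →
    |⟪pdm i' (n - i') w x, σ⟫ - if i' = i then ⟪τ, σ⟫ else 0| ≤ ζ
  lin : ∀ i' j', i' + j' + 1 ≤ n → ‖pdm i' j' (Lin f w) x‖ ≤ ζ
  linT : b = true → ∀ i' ≤ n, ‖pdm i' (n - i') (Lin f w) x‖ ≤ ζ
  absT : b = true → ∀ i' ≤ 1, |⟪pdm i' (n - i') w x, II f x (ev 1)⟫| ≤ ζ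

variable {d : ℕ}

/-- The family as used by the goodness lemma. -/
structure Setup (b : Bool) (F : (Fin d → ℝ) → E2 → R4) (K : Set E2) (C : ℝ) (A V s M : ℕ) :
    Prop where
  bdd : Bdd F K A M
  pt : ∀ l ∈ cube d, ∀ x ∈ K, Pt b C A M (F l) x
  slow : ∀ l ∈ cube d, ∀ x ∈ K, ∀ τ : ℕ → ℕ → R4,
    (∀ i j, ‖τ i j‖ ≤ 1 ∧ Normal (F l) x (τ i j) ∧ (i + j ≤ 1 → τ i j = 0) ∧
      (b = true → (i + j ≤ 2 ∧ i ≤ 1) ∨ ⟪τ i j, fyy (F l) x⟫ = 0)) →
    ∃ v : Fin d → ℝ, ‖v‖ ≤ (M : ℝ) ^ A ∧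
      SlowDir b C A ((M : ℝ) ^ s)⁻¹ M (F l) x τ (dlam F l v)
  fine : ∀ l ∈ cube d, ∀ x ∈ K, ∀ n i, 3 ≤ n → n ≤ 10 → (i = n ∨ i + 1 = n) →
    ∀ τ, Normal (F l) x τ → (b = true → ⟪τ, fyy (F l) x⟫ = 0) → ‖τ‖ ≤ 1 →
    ∃ v : Fin d → ℝ, ‖v‖ ≤ (M : ℝ) ^ V ∧
      FineDir b A ((M : ℝ) ^ s)⁻¹ M (F l) x n i τ (dlam F l v)

/-- Powers of `M` absorb constants. -/
theorem const_mul_pow_le {M : ℕ} {c : ℝ} (hc : c ≤ M) (a : ℕ) :
    c * (M : ℝ) ^ a ≤ (M : ℝ) ^ (a + 1) := by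
  rw [pow_succ']; exact mul_le_mul_of_nonneg_right hc (by positivity)

/-- A family gives a setup, with exponents not depending on the constants. -/
theorem setup_of_fam (b : Bool) (e₁ e₂ κ s : ℕ) (hκ : s + 2 * e₁ + 3 ≤ κ) (K : Set E2) (C : ℝ) :
    ∀ᶠ M : ℕ in atTop, ∀ (d : ℕ) (F : (Fin d → ℝ) → E2 → R4),
      Fam b F K C e₁ κ e₂ M → Setup b F K (max C 1) (2 * e₁ + 3) (e₂ + 1) s M := by
  filter_upwards [eventually_ge_atTop (max 1 ⌈2 ^ 10 * (max C 1) ^ 2⌉₊)] with M hM d F hFam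
  obtain ⟨hsm, hbd, himm, hlow, habs, hslow, hfine⟩ := hFam
  have hbox : ∀ l, l ∈ cube d ↔ l ∈ Box d := fun l =>
    ⟨fun h i => abs_le.2 ⟨h.1 i, h.2 i⟩,
      fun h => ⟨fun i => (abs_le.1 (h i)).1, fun i => (abs_le.1 (h i)).2⟩⟩
  have hM1 : (1 : ℝ) ≤ M := by exact_mod_cast le_of_max_le_left hM
  have hM0 : (0 : ℝ) < M := by linarith
  set C' := max C 1 with hC'
  have hC1 : 1 ≤ C' := le_max_right _ _
  have hCC : C ≤ C' := le_max_left _ _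
  have hbig : 2 ^ 10 * C' ^ 2 ≤ (M : ℝ) :=
    (Nat.le_ceil _).trans (by exact_mod_cast le_of_max_le_right hM)
  have hCM : C' ≤ M := by nlinarith
  have hbdd : Bdd F K (e₁ + 1) M := ⟨hsm, fun l hl x hx n hn =>
    (hbd l ((hbox l).1 hl) x hx n hn).trans
      ((mul_le_mul_of_nonneg_right hCC (by positivity)).trans (const_mul_pow_le hCM e₁))⟩
  have hpow : ∀ {a b : ℕ}, a ≤ b → (M : ℝ) ^ a ≤ (M : ℝ) ^ b := fun h => pow_le_pow_right₀ hM1 h
  have hCpos : ∀ l ∈ cube d, ∀ x ∈ K, 0 < C := fun l hl x hx => by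
    have h := himm l ((hbox l).1 hl) x hx (ev 0)
    by_contra hC
    have h1 : ‖(ev 0 : E2)‖ = 1 := by simp [ev]
    have : C * ‖fderiv ℝ (F l) x (ev 0)‖ ≤ 0 :=
      mul_nonpos_of_nonpos_of_nonneg (not_lt.1 hC) (norm_nonneg _)
    linarith
  have hζ : C * (M : ℝ) ^ e₁ / (M : ℝ) ^ κ * (M : ℝ) ^ (e₁ + 1) ≤ ((M : ℝ) ^ s)⁻¹ := by
    have h1 : C * (M : ℝ) ^ e₁ * (M : ℝ) ^ (e₁ + 1) * (M : ℝ) ^ s ≤ (M : ℝ) ^ κ := by
      calc C * (M : ℝ) ^ e₁ * (M : ℝ) ^ (e₁ + 1) * (M : ℝ) ^ s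
          = C * (M : ℝ) ^ (e₁ + (e₁ + 1) + s) := by rw [pow_add, pow_add]; ring
        _ ≤ C' * (M : ℝ) ^ (e₁ + (e₁ + 1) + s) := by gcongr
        _ ≤ _ := (const_mul_pow_le hCM _).trans (hpow (by omega))
    rw [div_mul_eq_mul_div, div_le_iff₀ (by positivity), inv_mul_eq_div, le_div_iff₀ (by positivity)]
    exact h1
  refine ⟨⟨hsm, fun l hl x hx n hn => (hbdd.bound l hl x hx n hn).trans (hpow (by omega))⟩,
    fun l hl x hx => ⟨contDiff_slice hsm l, hC1,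
      (hbdd.jet_le hl (Metric.self_subset_cthickening K hx) (by omega)).trans (hpow (by omega)),
      fun w => (himm l ((hbox l).1 hl) x hx w).trans
        (mul_le_mul_of_nonneg_right hCC (norm_nonneg _)),
      fun i j hij => (hlow l ((hbox l).1 hl) x hx i j hij).trans
        (mul_le_mul_of_nonneg_right hCC (by positivity)),
      fun hb => ((inv_le_inv₀ (by positivity) (hCpos l hl x hx)).2 hCC).trans
        (habs hb l ((hbox l).1 hl) x hx).1⟩, ?_, ?_⟩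
  · intro l hl x hx τ hτ
    have hC0 := hCpos l hl x hx
    obtain ⟨v, hv, hval, hlin⟩ := hslow l ((hbox l).1 hl) x hx τ fun i j _ =>
      ⟨⟨(hτ i j).2.1.nrm_eq, fun hb => ((hτ i j).2.2.2 hb).imp_right
        fun h => by rw [(hτ i j).2.1.inner_II]; exact h⟩,
        (hτ i j).1.trans (one_le_pow₀ hM1)⟩
    have hv' : ‖v‖ ≤ (M : ℝ) ^ (e₁ + 1) :=
      hv.trans ((mul_le_mul_of_nonneg_right hCC (by positivity)).trans (const_mul_pow_le hCM e₁))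
    have hall : ∀ i j, i + j ≤ 3 → ∀ σ, Normal (F l) x σ →
        (b = true → (i + j ≤ 2 ∧ i ≤ 1) ∨ ⟪σ, fyy (F l) x⟫ = 0) →
        ⟪pdm i j (dlam F l v) x, σ⟫ = ⟪τ i j, σ⟫ := fun i j hij σ hσ hs =>
      hval i j hij σ ⟨hσ.nrm_eq, fun hb => (hs hb).imp_right fun h => by rw [hσ.inner_II]; exact h⟩
    refine ⟨v, hv'.trans (hpow (by omega)), contDiff_dlam hsm l v, ?_, fun i => ?_,
      fun hb i j hij => nv_eq_of_inner fun σ hσ => hall i j hij σ hσ (by simp [hb]),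
      fun i j hij hi => nv_eq_of_inner fun σ hσ => hall i j (by omega) σ hσ fun _ => Or.inl ⟨hij, hi⟩,
      fun i j hij => hall i j hij _ (normal_nv _ x _) fun _ => Or.inr (cross_orth_right _ _ _),
      fun hb i j hij => ?_, fun i j hij => (hlin (fun i j h => (hτ i j).2.2.1 h) i j hij).trans
        (div_le_div_of_nonneg_right hCC hM0.le)⟩
    · calc ‖jet 10 (dlam F l v) x‖ ≤ (M : ℝ) ^ (e₁ + 1) * ‖v‖ :=
          hbdd.dlam_le hl v (Metric.self_subset_cthickening K hx) le_rfl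
        _ ≤ (M : ℝ) ^ (e₁ + 1) * (M : ℝ) ^ (e₁ + 1) := by gcongr
        _ ≤ _ := by rw [← pow_add]; exact hpow (by omega)
    · have h : ∀ i j, i + j ≤ 1 → nv (F l) x (pdm i j (dlam F l v) x) = 0 := fun i j hij => by
        rw [nv_eq_of_inner (u := pdm i j (dlam F l v) x) fun σ hσ =>
          hall i j (by omega) σ hσ fun _ => Or.inl ⟨by omega, by omega⟩, (hτ i j).2.2.1 hij]
        exact cross_zero₃ _ _
      obtain rfl | rfl : i = 0 ∨ i = 1 := by omega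
      · exact h 1 0 le_rfl
      · exact h 0 1 le_rfl
    · refine ((habs hb l ((hbox l).1 hl) x hx).2 v i j (by omega)).trans (le_trans ?_ hζ)
      exact mul_le_mul_of_nonneg_left hv' (by positivity)
  · intro l hl x hx n i hn hn' hi τ hτ hτb hτ1
    have hC0 := hCpos l hl x hx
    obtain ⟨v, hv, hj, hlow', htop, hlin, habs'⟩ := hfine l ((hbox l).1 hl) x hx n i hn hn' hi τ
      ⟨hτ.nrm_eq, fun hb => by rw [hτ.inner_II]; exact hτb hb⟩ hτ1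
    have hη : C * (M : ℝ) ^ e₁ / (M : ℝ) ^ κ ≤ ((M : ℝ) ^ s)⁻¹ :=
      (le_mul_of_one_le_right (by positivity) (one_le_pow₀ hM1)).trans hζ
    refine ⟨v, hv.trans ((mul_le_mul_of_nonneg_right hCC (by positivity)).trans
      (const_mul_pow_le hCM e₂)), contDiff_dlam hsm l v, ?_,
      fun i' j' h => (hlow' i' j' h).trans hη,
      fun i' hi' σ hσ hσb hσ1 => (htop i' hi' σ
        ⟨hσ.nrm_eq, fun hb => by rw [hσ.inner_II]; exact hσb hb⟩ hσ1).trans hη,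
      fun i' j' h => (hlin i' j' h).trans hη, fun hb i' h => ((habs' hb).1 i' h).trans hη,
      fun hb i' h => ((habs' hb).2 i' h).trans hη⟩
    refine (pi_norm_le_iff_of_nonneg (by positivity)).2 fun k => ?_
    have hk : (k : ℕ) ≤ 10 := Nat.lt_succ_iff.1 k.isLt
    refine (norm_iteratedFDeriv_le_pdm (contDiff_dlam hsm l v) (by positivity)
      fun i' j' h => hj i' j' (by omega)).trans ?_
    calc (2 : ℝ) ^ (k : ℕ) * (C * (M : ℝ) ^ e₁) ≤ 2 ^ 10 * C' ^ 2 * (M : ℝ) ^ e₁ := by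
          rw [mul_assoc]
          refine mul_le_mul (pow_le_pow_right₀ (by norm_num) hk) ?_ (by positivity) (by positivity)
          exact mul_le_mul_of_nonneg_right (by nlinarith) (by positivity)
      _ ≤ _ := (const_mul_pow_le hbig e₁).trans (hpow (by omega))

end Vale.Agent.P205F
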