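import Vale.Agent.P205F.Prob.Net

/-!
# P205, GoodProb: small level sets of maps with many independent differentials

`volume_level_le`: if at every point of `S` the differential of `Φ : ℝ^d → ℝ^N` has an approximate
right inverse of norm `≤ B` and is `B`-Lipschitz, then `S` has measure `O((B³ ε)^N)` when
`‖Φ‖ ≤ ε` on it. `exists_right_inverse` makes such inverses from triangular systems.
-/

namespace Vale.Agent.P205F.Prob

open MeasureTheory Set Metric
open scoped ENNReal

/-- The constant of `volume_level_le`. -/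
noncomputable def levelConst (d N : ℕ) : ℝ := 20 ^ d * 48 ^ N

theorem levelConst_nonneg (d N : ℕ) : 0 ≤ levelConst d N := by
  unfold levelConst; positivity

theorem closedBall_convex_cube {d : ℕ} (q : Fin d → ℝ) (ρ : ℝ) :
    Convex ℝ (closedBall q ρ ∩ cube d) :=
  (convex_closedBall q ρ).inter (convex_Icc _ _)

/-- The level set of a quantitatively submersive map is small. -/
theorem volume_level_le {d N : ℕ} (Φ : (Fin d → ℝ) → (Fin N → ℝ)) (hΦ : Differentiable ℝ Φ)
    {B ε : ℝ} (hB : 1 ≤ B) (hε : 0 < ε)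
    (hlip : ∀ a ∈ cube d, ∀ b ∈ cube d, ‖fderiv ℝ Φ a - fderiv ℝ Φ b‖ ≤ B * ‖a - b‖)
    {S : Set (Fin d → ℝ)} (hSm : MeasurableSet S) (hScube : S ⊆ cube d)
    (hsmall : ∀ z ∈ S, ‖Φ z‖ ≤ ε)
    (hR : ∀ z ∈ S, ∃ R : (Fin N → ℝ) →L[ℝ] (Fin d → ℝ), ‖R‖ ≤ B ∧
      ∀ y, ‖fderiv ℝ Φ z (R y) - y‖ ≤ ‖y‖ / 8) :
    volume S ≤ ENNReal.ofReal (levelConst d N * (B ^ 3 * ε) ^ N) := by
  have hB0 : 0 < B := lt_of_lt_of_le one_pos hB
  set ρ : ℝ := 1 / (16 * B ^ 2) with hρ
  have hρ0 : 0 < ρ := by positivity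
  obtain ⟨G, hcard, -, hnet⟩ := exists_grid d hρ0
  have hsub : S ⊆ ⋃ q ∈ G, S ∩ closedBall q ρ := fun z hz => by
    obtain ⟨q, hq, hd⟩ := hnet z (hScube hz)
    refine mem_biUnion hq ⟨hz, ?_⟩
    rw [mem_closedBall, dist_eq_norm, pi_norm_le_iff_of_nonneg hρ0.le]
    exact fun i => hd i
  have cell : ∀ q, volume (S ∩ closedBall q ρ) ≤
      ENNReal.ofReal ((4 * ρ) ^ d * (3 * ε * B / ρ) ^ N) := by
    intro q
    set T := S ∩ closedBall q ρ with hT
    rcases T.eq_empty_or_nonempty with h | ⟨z₀, hz₀⟩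
    · simp [h]
    obtain ⟨R, hRB, hRinv⟩ := hR z₀ hz₀.1
    have hconv := closedBall_convex_cube q ρ
    have happrox : ∀ a ∈ T, ∀ y, a + R y ∈ T → ‖Φ (a + R y) - Φ a - y‖ ≤ ‖y‖ / 4 := by
      intro a ha y hb
      have hmv := hconv.norm_image_sub_le_of_norm_fderiv_le' (f := Φ) (φ := fderiv ℝ Φ z₀)
        (C := B * (2 * ρ)) (fun u _ => hΦ u) (fun u hu => by
          refine (hlip u hu.2 z₀ (hScube hz₀.1)).trans (mul_le_mul_of_nonneg_left ?_ hB0.le)
          have h1 := mem_closedBall.1 hu.1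
          have h2 := mem_closedBall.1 hz₀.2
          rw [← dist_eq_norm]
          linarith [dist_triangle_right u z₀ q])
        ⟨ha.2, hScube ha.1⟩ ⟨hb.2, hScube hb.1⟩
      rw [add_sub_cancel_left] at hmv
      have hRy : ‖R y‖ ≤ B * ‖y‖ := (R.le_opNorm y).trans (by gcongr)
      have hBρ : B * (2 * ρ) * B = 1 / 8 := by rw [hρ]; field_simp; norm_num
      calc ‖Φ (a + R y) - Φ a - y‖
          = ‖(Φ (a + R y) - Φ a - fderiv ℝ Φ z₀ (R y)) + (fderiv ℝ Φ z₀ (R y) - y)‖ := by
            congr 1; abel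
        _ ≤ B * (2 * ρ) * ‖R y‖ + ‖y‖ / 8 := (norm_add_le _ _).trans (add_le_add hmv (hRinv y))
        _ ≤ B * (2 * ρ) * (B * ‖y‖) + ‖y‖ / 8 := by gcongr
        _ = ‖y‖ / 4 := by rw [← mul_assoc, hBρ]; ring
    set η := ρ / B with hη
    set K := ⌊η / (3 * ε)⌋₊ + 1 with hK
    set y : (Fin N → Fin K) → (Fin N → ℝ) := fun k i => 3 * ε * (k i : ℕ) with hy
    have hy1 : ∀ k, ‖y k‖ ≤ η := fun k => by
      refine (pi_norm_le_iff_of_nonneg (by positivity)).2 fun i => ?_
      have hk : ((k i : ℕ) : ℝ) ≤ η / (3 * ε) := by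
        refine le_trans ?_ (Nat.floor_le (by positivity))
        exact_mod_cast Nat.lt_succ_iff.1 (k i).isLt
      rw [hy, Real.norm_eq_abs, abs_of_nonneg (by positivity)]
      rw [le_div_iff₀ (by positivity)] at hk
      linarith
    set sh : (Fin N → Fin K) → Set (Fin d → ℝ) := fun k => (fun z => z + R (y k)) ⁻¹' T with hsh
    have hdisj : Pairwise fun a b => Disjoint (sh a) (sh b) := by
      intro a b hab
      refine Set.disjoint_left.2 fun z hza hzb => hab ?_
      by_contra hne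
      obtain ⟨i, hi⟩ := Function.ne_iff.1 hne
      have hb' : z + R (y a) + R (y b - y a) = z + R (y b) := by rw [map_sub]; abel
      have h1 := happrox _ hza (y b - y a) (by rw [hb']; exact hzb)
      rw [hb'] at h1
      have h2 : ‖Φ (z + R (y b)) - Φ (z + R (y a))‖ ≤ 2 * ε :=
        (norm_sub_le _ _).trans (by linarith [hsmall _ hza.1, hsmall _ hzb.1])
      have h3 : 3 * ε ≤ ‖y b - y a‖ := by
        refine le_trans ?_ (norm_le_pi_norm _ i)
        have h6 : (1 : ℝ) ≤ |((b i : ℕ) : ℝ) - (a i : ℕ)| := by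
          rcases lt_or_gt_of_ne (fun h : (a i : ℕ) = b i => hi (Fin.ext h)) with hlt | hlt
          · have : ((a i : ℕ) : ℝ) + 1 ≤ (b i : ℕ) := by exact_mod_cast hlt
            rw [abs_of_pos (by linarith)]; linarith
          · have : ((b i : ℕ) : ℝ) + 1 ≤ (a i : ℕ) := by exact_mod_cast hlt
            rw [abs_of_neg (by linarith)]; linarith
        simp only [hy, Pi.sub_apply, ← mul_sub, Real.norm_eq_abs, abs_mul,
          abs_of_pos (show (0 : ℝ) < 3 * ε by linarith)]
        nlinarith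
      have h4 : ‖y b - y a‖ ≤ ‖Φ (z + R (y b)) - Φ (z + R (y a))‖ + ‖y b - y a‖ / 4 := by
        calc ‖y b - y a‖ = ‖(Φ (z + R (y b)) - Φ (z + R (y a)))
              - (Φ (z + R (y b)) - Φ (z + R (y a)) - (y b - y a))‖ := by congr 1; abel
          _ ≤ _ := (norm_sub_le _ _).trans (by linarith)
      linarith
    have hshm : ∀ k, MeasurableSet (sh k) := fun k =>
      (measurable_id.add_const (R (y k))) (hSm.inter isClosed_closedBall.measurableSet)
    have hin : (⋃ k, sh k) ⊆ closedBall q (2 * ρ) := by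
      refine iUnion_subset fun k z hz => ?_
      have h1 := mem_closedBall.1 hz.2
      have h2 : ‖R (y k)‖ ≤ ρ := ((R.le_opNorm _).trans
        (mul_le_mul hRB (hy1 k) (norm_nonneg _) hB0.le)).trans_eq (by rw [hη]; field_simp)
      rw [mem_closedBall, dist_eq_norm] at *
      calc ‖z - q‖ = ‖(z + R (y k) - q) - R (y k)‖ := by congr 1; abel
        _ ≤ ‖z + R (y k) - q‖ + ‖R (y k)‖ := norm_sub_le _ _
        _ ≤ 2 * ρ := by linarith
    have hvol : ∀ k, volume (sh k) = volume T := fun k => measure_preimage_add_right _ _ _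
    have htot := (measure_iUnion hdisj hshm).symm.trans_le (measure_mono (μ := volume) hin)
    simp only [hvol, tsum_fintype, Finset.sum_const, Finset.card_univ, Fintype.card_fun,
      Fintype.card_fin, nsmul_eq_mul] at htot
    rw [Real.volume_pi_closedBall q (by positivity), Fintype.card_fin] at htot
    have hcast : ((K ^ N : ℕ) : ℝ≥0∞) = ENNReal.ofReal ((K : ℝ) ^ N) := by
      rw [ENNReal.ofReal_pow (Nat.cast_nonneg _), ENNReal.ofReal_natCast]; push_cast; rfl
    rw [hcast] at htot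
    have hKpos : (0 : ℝ) < (K : ℝ) ^ N := by rw [hK]; positivity
    calc volume T ≤ ENNReal.ofReal ((2 * (2 * ρ)) ^ d) / ENNReal.ofReal ((K : ℝ) ^ N) := by
          rw [ENNReal.le_div_iff_mul_le (Or.inl (ENNReal.ofReal_ne_zero_iff.2 hKpos))
            (Or.inl ENNReal.ofReal_ne_top), mul_comm]
          exact htot
      _ = ENNReal.ofReal ((2 * (2 * ρ)) ^ d / (K : ℝ) ^ N) :=
          (ENNReal.ofReal_div_of_pos hKpos).symm
      _ ≤ _ := by
          refine ENNReal.ofReal_le_ofReal ?_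
          rw [div_le_iff₀ hKpos, show 2 * (2 * ρ) = 4 * ρ by ring, mul_assoc, ← mul_pow]
          refine le_mul_of_one_le_right (by positivity) (one_le_pow₀ ?_)
          have hKl : η / (3 * ε) ≤ K := by rw [hK]; push_cast; exact (Nat.lt_floor_add_one _).le
          rw [hη] at hKl
          rw [div_div, div_le_iff₀ (by positivity)] at hKl
          rw [div_mul_eq_mul_div, le_div_iff₀ hρ0]
          linarith
  refine ((measure_mono hsub).trans (measure_biUnion_finset_le G _)).trans
    ((Finset.sum_le_sum fun q _ => cell q).trans ?_)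
  rw [Finset.sum_const, nsmul_eq_mul, ← ENNReal.ofReal_natCast,
    ← ENNReal.ofReal_mul (Nat.cast_nonneg _)]
  refine ENNReal.ofReal_le_ofReal ?_
  have hρ1 : ρ ≤ 1 := by rw [hρ, div_le_one (by positivity)]; nlinarith
  calc (G.card : ℝ) * ((4 * ρ) ^ d * (3 * ε * B / ρ) ^ N)
      ≤ (5 / ρ) ^ d * ((4 * ρ) ^ d * (3 * ε * B / ρ) ^ N) := by
        refine mul_le_mul_of_nonneg_right (hcard.trans (pow_le_pow_left₀ (by positivity) ?_ d))
          (by positivity)
        rw [div_add' _ _ _ hρ0.ne', div_le_div_iff_of_pos_right hρ0]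
        linarith
    _ = levelConst d N * (B ^ 3 * ε) ^ N := by
        rw [← mul_assoc, ← mul_pow, levelConst, mul_assoc ((20 : ℝ) ^ d), ← mul_pow (48 : ℝ)]
        congr 2
        · field_simp; norm_num
        · rw [hρ]; field_simp; ring

/-- Solving a triangular system. -/
theorem tri_solve : ∀ {N : ℕ} (T : Fin N → Fin N → ℝ) {α L : ℝ}, 0 < α → α ≤ L →
    (∀ j, α ≤ |T j j|) → (∀ i j, |T i j| ≤ L) → 1 ≤ L →
    ∃ c : (Fin N → ℝ) →ₗ[ℝ] (Fin N → ℝ), (∀ y i, ∑ j, (if j ≤ i then T i j * c y j else 0) = y i) ∧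
      ∀ y, ‖c y‖ ≤ (2 * L / α) ^ N * ‖y‖ := by
  intro N
  induction N with
  | zero =>
    intro T α L _ _ _ _ _
    exact ⟨0, fun y i => i.elim0, fun y => by simp [Subsingleton.elim y 0]⟩
  | succ n ih =>
    intro T α L hα hαL hd hT hL
    obtain ⟨c, hc, hb⟩ := ih (fun i j => T i.succ j.succ) hα hαL (fun j => hd j.succ)
      (fun i j => hT _ _) hL
    have h00 : T 0 0 ≠ 0 := fun h => by have := hd 0; rw [h, abs_zero] at this; linarith
    let rest : (Fin (n + 1) → ℝ) →ₗ[ℝ] (Fin n → ℝ) :=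
      { toFun := fun y i => y i.succ - T i.succ 0 * (y 0 / T 0 0)
        map_add' := fun u v => by funext i; simp; ring
        map_smul' := fun t u => by funext i; simp; ring }
    let full : (Fin (n + 1) → ℝ) →ₗ[ℝ] (Fin (n + 1) → ℝ) :=
      { toFun := fun y => Fin.cons (y 0 / T 0 0) (c (rest y))
        map_add' := fun u v => by
          funext i; cases i using Fin.cases <;> simp [add_div]
        map_smul' := fun t u => by
          funext i; cases i using Fin.cases <;> simp [mul_div_assoc] }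
    refine ⟨full, fun y i => ?_, fun y => ?_⟩
    · rw [Fin.sum_univ_succ]
      cases i using Fin.cases with
      | zero =>
        simp [full]
        field_simp
      | succ k =>
        have h := hc (rest y) k
        simp only [rest, LinearMap.coe_mk, AddHom.coe_mk] at h
        simp [full, rest, Fin.succ_le_succ_iff, h]
    · have hLα : 1 ≤ L / α := by rw [le_div_iff₀ hα]; linarith
      have hK : (1 : ℝ) ≤ 2 * L / α := by rw [mul_div_assoc]; linarith
      have h0 : |y 0 / T 0 0| ≤ L / α * ‖y‖ := by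
        rw [abs_div, div_mul_eq_mul_div, div_le_div_iff₀ (abs_pos.2 h00) hα]
        have h1 : |y 0| ≤ ‖y‖ := norm_le_pi_norm y 0
        have h2 : α ≤ L * |T 0 0| := (hd 0).trans (le_mul_of_one_le_left (abs_nonneg _) hL)
        nlinarith [mul_le_mul h1 h2 hα.le (norm_nonneg y)]
      refine (pi_norm_le_iff_of_nonneg (by positivity)).2 fun i => ?_
      cases i using Fin.cases with
      | zero =>
        simp only [full, LinearMap.coe_mk, AddHom.coe_mk, Fin.cons_zero, Real.norm_eq_abs]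
        refine h0.trans (mul_le_mul_of_nonneg_right ?_ (norm_nonneg _))
        calc L / α ≤ 2 * L / α := by rw [mul_div_assoc]; linarith
          _ ≤ (2 * L / α) ^ (n + 1) := le_self_pow₀ hK (by omega)
      | succ k =>
        simp only [full, LinearMap.coe_mk, AddHom.coe_mk, Fin.cons_succ]
        refine (norm_le_pi_norm _ k).trans ((hb _).trans ?_)
        have hrest : ‖rest y‖ ≤ (1 + L * (1 / α)) * ‖y‖ := by
          have h1 : ‖rest y‖ ≤ (1 + L * (1 / α)) * ‖y‖ := by
            refine (pi_norm_le_iff_of_nonneg (by positivity)).2 fun j => ?_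
            simp only [rest, LinearMap.coe_mk, AddHom.coe_mk, Real.norm_eq_abs]
            refine (abs_sub _ _).trans ?_
            have h1 : |y j.succ| ≤ ‖y‖ := norm_le_pi_norm y j.succ
            have h2 : |y 0 / T 0 0| ≤ 1 / α * ‖y‖ := by
              rw [abs_div, div_mul_eq_mul_div, one_mul, div_le_div_iff₀ (abs_pos.2 h00) hα]
              have h1 : |y 0| ≤ ‖y‖ := norm_le_pi_norm y 0
              nlinarith [hd 0, abs_nonneg (y 0), norm_nonneg y]
            rw [abs_mul, add_mul, one_mul, mul_assoc]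
            exact add_le_add h1 (mul_le_mul (hT _ _) h2 (abs_nonneg _) (by linarith))
          exact h1
        rw [pow_succ, mul_assoc]
        refine mul_le_mul_of_nonneg_left (hrest.trans ?_) (by positivity)
        refine mul_le_mul_of_nonneg_right ?_ (norm_nonneg _)
        rw [mul_one_div, mul_div_assoc]
        linarith

/-- A triangular family of directions gives an approximate right inverse. -/
theorem exists_right_inverse {d N : ℕ} (A : (Fin d → ℝ) →L[ℝ] (Fin N → ℝ))
    (v : Fin N → (Fin d → ℝ)) {α L μ V : ℝ} (hα : 0 < α) (hαL : α ≤ L) (hL : 1 ≤ L) (hμ : 0 ≤ μ)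
    (hV : ∀ j, ‖v j‖ ≤ V) (hV0 : 0 ≤ V)
    (hup : ∀ i j, i < j → |A (v j) i| ≤ μ) (hdiag : ∀ j, α ≤ |A (v j) j|)
    (hall : ∀ i j, |A (v j) i| ≤ L)
    (hμs : N * μ * (2 * L / α) ^ N ≤ 1 / 8) :
    ∃ R : (Fin N → ℝ) →L[ℝ] (Fin d → ℝ), ‖R‖ ≤ N * V * (2 * L / α) ^ N ∧
      ∀ y, ‖A (R y) - y‖ ≤ ‖y‖ / 8 := by
  obtain ⟨c, hc, hb⟩ := tri_solve (fun i j => A (v j) i) hα hαL hdiag hall hL
  let Rl : (Fin N → ℝ) →ₗ[ℝ] (Fin d → ℝ) :=
    { toFun := fun y => ∑ j, c y j • v j
      map_add' := fun u w => by simp [add_smul, Finset.sum_add_distrib]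
      map_smul' := fun t u => by simp [mul_smul, Finset.smul_sum] }
  have hcj : ∀ y j, |c y j| ≤ (2 * L / α) ^ N * ‖y‖ := fun y j =>
    (norm_le_pi_norm (c y) j).trans (hb y)
  refine ⟨LinearMap.toContinuousLinearMap Rl,
    ContinuousLinearMap.opNorm_le_bound _ (by positivity) fun y => ?_, fun y => ?_⟩
  · show ‖∑ j, c y j • v j‖ ≤ _
    refine (norm_sum_le_of_le (n := fun _ => (2 * L / α) ^ N * ‖y‖ * V) _ fun j _ => ?_).trans_eq ?_
    · rw [norm_smul, Real.norm_eq_abs]
      exact mul_le_mul (hcj y j) (hV j) (norm_nonneg _) (by positivity)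
    · simp; ring
  · show ‖A (∑ j, c y j • v j) - y‖ ≤ _
    refine (pi_norm_le_iff_of_nonneg (by positivity)).2 fun i => ?_
    simp only [map_sum, map_smul, Pi.sub_apply, Finset.sum_apply, Pi.smul_apply, smul_eq_mul]
    rw [← hc y i]
    rw [← Finset.sum_sub_distrib, Real.norm_eq_abs]
    refine (Finset.abs_sum_le_sum_abs _ _).trans ?_
    refine (Finset.sum_le_sum (g := fun _ => μ * ((2 * L / α) ^ N * ‖y‖)) fun j _ => ?_).trans ?_
    · split_ifs with hji
      · rw [mul_comm, sub_self, abs_zero]; positivity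
      · rw [sub_zero, abs_mul, mul_comm]
        exact mul_le_mul (hup i j (not_le.1 hji)) (hcj y j) (abs_nonneg _) hμ
    · simp only [Finset.sum_const, Finset.card_univ, Fintype.card_fin, nsmul_eq_mul]
      calc (N : ℝ) * (μ * ((2 * L / α) ^ N * ‖y‖)) = (N * μ * (2 * L / α) ^ N) * ‖y‖ := by ring
        _ ≤ 1 / 8 * ‖y‖ := mul_le_mul_of_nonneg_right hμs (norm_nonneg _)
        _ = ‖y‖ / 8 := by ring

end Vale.Agent.P205F.Prob
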