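import Vale.Agent.P205F.GoodProb.Param
import Vale.Agent.P205F.GoodProb.Meas

/-!
# P205, GoodProb: small events along a bounded family

`Bdd`: the joint derivatives of order `≤ 12` are at most `M^A`. Then `N` jet functions with a
triangular set of directions are simultaneously `≤ ε` only on measure `O((M^B V³ ε)^N)`.
-/

namespace Vale.Agent.P205F

open scoped ContDiff
open Filter MeasureTheory Prob

variable {d : ℕ}

/-- A bounded family. -/
structure Bdd (F : (Fin d → ℝ) → E2 → R4) (K : Set E2) (A M : ℕ) : Prop where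
  smooth : ContDiff ℝ ∞ (Function.uncurry F)
  bound : ∀ l ∈ cube d, ∀ x ∈ Metric.cthickening 1 K, ∀ n ≤ 12,
    ‖iteratedFDeriv ℝ n (Function.uncurry F) (l, x)‖ ≤ (M : ℝ) ^ A

set_option maxSynthPendingDepth 3 in
/-- Two derivatives of a jet. -/
theorem norm_fderiv_fderiv_iteratedFDeriv {E X : Type*} [NormedAddCommGroup E] [NormedSpace ℝ E]
    [NormedAddCommGroup X] [NormedSpace ℝ X] (f : E → X) (k : ℕ) (p : E) :
    ‖fderiv ℝ (fderiv ℝ (iteratedFDeriv ℝ k f)) p‖ = ‖iteratedFDeriv ℝ (k + 2) f p‖ := by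
  rw [fderiv_iteratedFDeriv, LinearIsometryEquiv.comp_fderiv]
  exact (LinearIsometry.norm_toContinuousLinearMap_comp
    (continuousMultilinearCurryLeftEquiv ℝ (fun _ : Fin (k + 1) => E) X).toLinearIsometry).trans
      norm_fderiv_iteratedFDeriv

/-- Derivatives of a slice of a two-variable map. -/
theorem slice_bounds {V Y Z : Type*} [NormedAddCommGroup V] [NormedSpace ℝ V]
    [NormedAddCommGroup Y] [NormedSpace ℝ Y] [NormedAddCommGroup Z] [NormedSpace ℝ Z]
    {H : V × E2 → Y} (hH : ContDiff ℝ ∞ H) (L : Y →L[ℝ] Z) (hL : ‖L‖ ≤ 1) (x : E2) {s : Set V}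
    (hs : Convex ℝ s) {B : ℝ} (h₁ : ∀ a ∈ s, ‖fderiv ℝ H (a, x)‖ ≤ B)
    (h₂ : ∀ a ∈ s, ‖fderiv ℝ (fderiv ℝ H) (a, x)‖ ≤ B) :
    (∀ a ∈ s, ‖fderiv ℝ (fun a => L (H (a, x))) a‖ ≤ B) ∧
      ∀ a ∈ s, ∀ b ∈ s, ‖fderiv ℝ (fun a => L (H (a, x))) a
        - fderiv ℝ (fun a => L (H (a, x))) b‖ ≤ B * ‖a - b‖ := by
  have hi : ‖ContinuousLinearMap.inl ℝ V E2‖ ≤ 1 := ContinuousLinearMap.norm_inl_le_one ℝ _ _
  have hp : ∀ a, HasFDerivAt (fun a : V => (a, x)) (ContinuousLinearMap.inl ℝ V E2) a := fun a =>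
    (hasFDerivAt_id a).prodMk (hasFDerivAt_const x a)
  have e : ∀ a, fderiv ℝ (fun a => L (H (a, x))) a =
      L.comp ((fderiv ℝ H (a, x)).comp (ContinuousLinearMap.inl ℝ V E2)) := fun a =>
    (L.hasFDerivAt.comp a
      (HasFDerivAt.comp a (g := H) (hH.differentiable (by simp) (a, x)).hasFDerivAt (hp a))).fderiv
  have le : ∀ T : V × E2 →L[ℝ] Y, ‖L.comp (T.comp (ContinuousLinearMap.inl ℝ V E2))‖ ≤ ‖T‖ :=
    fun T => (ContinuousLinearMap.opNorm_comp_le _ _).trans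
      ((mul_le_of_le_one_left (norm_nonneg _) hL).trans ((ContinuousLinearMap.opNorm_comp_le _ _).trans
        (mul_le_of_le_one_right (norm_nonneg _) hi)))
  refine ⟨fun a ha => by rw [e]; exact (le _).trans (h₁ a ha), fun a ha b hb => ?_⟩
  rw [e, e, ← ContinuousLinearMap.comp_sub, ← ContinuousLinearMap.sub_comp]
  refine (le _).trans ?_
  have hd : ∀ u, HasFDerivAt (fun a => fderiv ℝ H (a, x))
      ((fderiv ℝ (fderiv ℝ H) (u, x)).comp (ContinuousLinearMap.inl ℝ V E2)) u := fun u =>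
    HasFDerivAt.comp u (g := fderiv ℝ H)
      ((hH.fderiv_right (m := ∞) (by exact_mod_cast le_top)).differentiable (by simp)
        (u, x)).hasFDerivAt (hp u)
  exact hs.norm_image_sub_le_of_norm_hasFDerivWithin_le (fun u _ => (hd u).hasFDerivWithinAt)
    (fun u hu => (ContinuousLinearMap.opNorm_comp_le _ _).trans
      ((mul_le_of_le_one_right (norm_nonneg _) hi).trans (h₂ u hu))) hb ha

set_option maxSynthPendingDepth 3 in
/-- One component of the jet along the family. -/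
theorem slice_iter {F : (Fin d → ℝ) → E2 → R4} {K : Set E2} {A M : ℕ} (h : Bdd F K A M)
    {x : E2} (hx : x ∈ Metric.cthickening 1 K) {k : ℕ} (hk : k ≤ 10) :
    (∀ a ∈ cube d, ‖fderiv ℝ (fun l => iteratedFDeriv ℝ k (F l) x) a‖ ≤ (M : ℝ) ^ A) ∧
    ∀ a ∈ cube d, ∀ b ∈ cube d, ‖fderiv ℝ (fun l => iteratedFDeriv ℝ k (F l) x) a
      - fderiv ℝ (fun l => iteratedFDeriv ℝ k (F l) x) b‖ ≤ (M : ℝ) ^ A * ‖a - b‖ := by
  have e : (fun l => iteratedFDeriv ℝ k (F l) x) = fun l =>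
      ContinuousMultilinearMap.compContinuousLinearMapL
        (fun _ : Fin k => ContinuousLinearMap.inr ℝ (Fin d → ℝ) E2)
        (iteratedFDeriv ℝ k (Function.uncurry F) (l, x)) := by
    funext l
    have hG : ContDiff ℝ ∞ fun p => Function.uncurry F ((l, (0 : E2)) + p) := by
      have := h.smooth; fun_prop
    rw [show F l = (fun p => Function.uncurry F ((l, 0) + p)) ∘
      ContinuousLinearMap.inr ℝ (Fin d → ℝ) E2 by funext z; simp,
      ContinuousLinearMap.iteratedFDeriv_comp_right _ hG x (by exact_mod_cast le_top),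
      iteratedFDeriv_comp_add_left]
    simp only [ContinuousLinearMap.inr_apply, Prod.mk_add_mk, add_zero, zero_add]
    rfl
  have hH : ContDiff ℝ ∞ (iteratedFDeriv ℝ k (Function.uncurry F)) :=
    h.smooth.iteratedFDeriv_right (by exact_mod_cast le_top)
  set L := ContinuousMultilinearMap.compContinuousLinearMapL (F := R4)
    (fun _ : Fin k => ContinuousLinearMap.inr ℝ (Fin d → ℝ) E2) with hL'
  have hL : ‖L‖ ≤ 1 := (ContinuousMultilinearMap.norm_compContinuousLinearMapL_le R4 _).trans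
    (Finset.prod_le_one (fun _ _ => norm_nonneg _)
      fun _ _ => ContinuousLinearMap.norm_inr_le_one ℝ _ _)
  have h1 : ∀ a ∈ cube d, ‖fderiv ℝ (iteratedFDeriv ℝ k (Function.uncurry F)) (a, x)‖ ≤
      (M : ℝ) ^ A := fun a ha =>
    norm_fderiv_iteratedFDeriv.trans_le (h.bound a ha x hx _ (by omega))
  have h2 : ∀ a ∈ cube d,
      ‖fderiv ℝ (fderiv ℝ (iteratedFDeriv ℝ k (Function.uncurry F))) (a, x)‖ ≤ (M : ℝ) ^ A :=
    fun a ha =>
      (norm_fderiv_fderiv_iteratedFDeriv _ k _).trans_le (h.bound a ha x hx _ (by omega))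
  have key := slice_bounds hH L hL x (s := cube d) (convex_Icc _ _) h1 h2
  rw [e]
  exact key

namespace Bdd

variable {F : (Fin d → ℝ) → E2 → R4} {K : Set E2} {A M : ℕ}

theorem norm_iter (h : Bdd F K A M) {l : Fin d → ℝ} (hl : l ∈ cube d) {x : E2}
    (hx : x ∈ Metric.cthickening 1 K) {n : ℕ} (hn : n ≤ 12) :
    ‖iteratedFDeriv ℝ n (F l) x‖ ≤ (M : ℝ) ^ A := by
  have hG : ContDiff ℝ ∞ fun p => Function.uncurry F ((l, (0 : E2)) + p) := by
    have := h.smooth; fun_prop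
  have e : F l = (fun p => Function.uncurry F ((l, 0) + p)) ∘
      ContinuousLinearMap.inr ℝ (Fin d → ℝ) E2 := by funext z; simp
  rw [e, ContinuousLinearMap.iteratedFDeriv_comp_right _ hG x (by exact_mod_cast le_top),
    iteratedFDeriv_comp_add_left]
  refine (ContinuousMultilinearMap.norm_compContinuousLinearMap_le _ _).trans ?_
  refine (mul_le_of_le_one_right (norm_nonneg _) ?_).trans ?_
  · exact Finset.prod_le_one (fun _ _ => norm_nonneg _)
      fun _ _ => ContinuousLinearMap.norm_inr_le_one ℝ _ _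
  · simpa using h.bound l hl x hx n hn

theorem jet_le (h : Bdd F K A M) {l : Fin d → ℝ} (hl : l ∈ cube d) {x : E2}
    (hx : x ∈ Metric.cthickening 1 K) {N : ℕ} (hN : N ≤ 12) :
    ‖jet N (F l) x‖ ≤ (M : ℝ) ^ A :=
  (pi_norm_le_iff_of_nonneg (by positivity)).2 fun k =>
    h.norm_iter hl hx (by have := k.isLt; omega)

/-- The two bounds on the differential of the jet. -/
theorem fderiv_jet (h : Bdd F K A M) {x : E2} (hx : x ∈ Metric.cthickening 1 K) {N : ℕ}
    (hN : N ≤ 10) :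
    (∀ a ∈ cube d, ‖fderiv ℝ (fun l => jet N (F l) x) a‖ ≤ (M : ℝ) ^ A) ∧
    ∀ a ∈ cube d, ∀ b ∈ cube d, ‖fderiv ℝ (fun l => jet N (F l) x) a
      - fderiv ℝ (fun l => jet N (F l) x) b‖ ≤ (M : ℝ) ^ A * ‖a - b‖ := by
  have hs := (jet_param h.smooth N x).1
  have hpi : ∀ a, fderiv ℝ (fun l => jet N (F l) x) a =
      ContinuousLinearMap.pi fun k : Fin (N + 1) =>
        fderiv ℝ (fun l => iteratedFDeriv ℝ (k : ℕ) (F l) x) a := fun a =>
    fderiv_pi fun k => (contDiff_pi.1 hs k).differentiable (by simp) a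
  refine ⟨fun a ha => ?_, fun a ha b hb => ?_⟩
  · refine ContinuousLinearMap.opNorm_le_bound _ (by positivity) fun v => ?_
    refine (pi_norm_le_iff_of_nonneg (by positivity)).2 fun k => ?_
    rw [hpi a, ContinuousLinearMap.pi_apply]
    exact (ContinuousLinearMap.le_opNorm _ _).trans (mul_le_mul_of_nonneg_right
      ((slice_iter h hx (by have := k.isLt; omega)).1 a ha) (norm_nonneg _))
  · refine ContinuousLinearMap.opNorm_le_bound _ (by positivity) fun v => ?_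
    refine (pi_norm_le_iff_of_nonneg (by positivity)).2 fun k => ?_
    rw [hpi a, hpi b, sub_apply, Pi.sub_apply, ContinuousLinearMap.pi_apply,
      ContinuousLinearMap.pi_apply, ← sub_apply]
    exact (ContinuousLinearMap.le_opNorm _ _).trans (mul_le_mul_of_nonneg_right
      ((slice_iter h hx (by have := k.isLt; omega)).2 a ha b hb) (norm_nonneg _))

theorem dlam_le (h : Bdd F K A M) {l : Fin d → ℝ} (hl : l ∈ cube d) (v : Fin d → ℝ) {x : E2}
    (hx : x ∈ Metric.cthickening 1 K) {N : ℕ} (hN : N ≤ 10) :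
    ‖jet N (dlam F l v) x‖ ≤ (M : ℝ) ^ A * ‖v‖ := by
  rw [← (jet_param h.smooth N x).2]
  exact (ContinuousLinearMap.le_opNorm _ _).trans
    (mul_le_mul_of_nonneg_right ((h.fderiv_jet hx hN).1 l hl) (norm_nonneg _))

end Bdd

/-- Jet functions are Lipschitz in the point. -/
theorem JetAt.lip {X : Type*} [NormedAddCommGroup X] [NormedSpace ℝ X] {N : ℕ}
    {c : (E2 → R4) → E2 → X} (hc : JetAt N c) (hN : N ≤ 10) (A : ℕ) :
    ∃ B : ℕ, ∀ᶠ M : ℕ in atTop, ∀ (d : ℕ) (F : (Fin d → ℝ) → E2 → R4) (K : Set E2),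
      Bdd F K A M → ∀ l ∈ cube d, ∀ x ∈ K, ∀ y, dist y x ≤ 1 →
        ‖c (F l) y - c (F l) x‖ ≤ (M : ℝ) ^ B * dist y x := by
  obtain ⟨g, hg, e⟩ := hc
  obtain ⟨B, hB⟩ := temperate_bound (hasTemperateGrowth_fderiv hg) A
  refine ⟨B + A, ?_⟩
  filter_upwards [hB] with M hB d F K hF l hl x hx y hy
  have hf := contDiff_slice hF.smooth l
  rw [dist_eq_norm y x]
  refine (convex_closedBall x 1).norm_image_sub_le_of_norm_fderiv_le
    (fun z _ => (JetFn.smooth (c := c) ⟨N, g, hg, e⟩ hf).differentiable (by simp) z)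
    (fun z hz => ?_) (Metric.mem_closedBall_self zero_le_one) hy
  have hzK : z ∈ Metric.cthickening 1 K :=
    Metric.mem_cthickening_of_dist_le z x 1 K hx (Metric.mem_closedBall.1 hz)
  rw [show c (F l) = g ∘ jet N (F l) from funext fun u => e _ u hf,
    fderiv_comp z (hg.1.differentiable (by simp) _) (hasFDerivAt_jet hf N z).differentiableAt,
    pow_add]
  refine (ContinuousLinearMap.opNorm_comp_le _ _).trans
    (mul_le_mul (hB _ (hF.jet_le hl hzK (by omega))) ?_ (norm_nonneg _) (by positivity))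
  refine ContinuousLinearMap.opNorm_le_bound _ (by positivity) fun v => ?_
  refine (pi_norm_le_iff_of_nonneg (by positivity)).2 fun k => ?_
  rw [show fderiv ℝ (jet N (F l)) z v k = fderiv ℝ (iteratedFDeriv ℝ (k : ℕ) (F l)) z v by
    rw [fderiv_pi fun j => (contDiff_pi.1 (contDiff_jet hf N) j).differentiable (by simp) z]
    rfl]
  refine (ContinuousLinearMap.le_opNorm _ _).trans (mul_le_mul_of_nonneg_right ?_ (norm_nonneg _))
  rw [norm_fderiv_iteratedFDeriv]
  exact hF.norm_iter hl hzK (by have := k.isLt; omega)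

/-- A triangular system of directions. -/
def Tri {N : ℕ} (φ : Fin N → (E2 → R4) → E2 → ℝ) (F : (Fin d → ℝ) → E2 → R4) (M E B : ℕ) (V : ℝ)
    (l : Fin d → ℝ) (x : E2) : Prop :=
  ∀ j, ∃ v, ‖v‖ ≤ V ∧ ‖jet 10 (dlam F l v) x‖ ≤ (M : ℝ) ^ E ∧
    (∀ i, i < j → |var (φ i) (F l) (dlam F l v) x| ≤ ((M : ℝ) ^ B)⁻¹) ∧
    ((M : ℝ) ^ E)⁻¹ ≤ |var (φ j) (F l) (dlam F l v) x|

/-- The measure of an event. -/
theorem event {N : ℕ} (φ : Fin N → (E2 → R4) → E2 → ℝ) (hφ : ∀ i, JetAt 10 (φ i)) (A E : ℕ) :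
    ∃ B : ℕ, ∀ᶠ M : ℕ in atTop, ∀ (d : ℕ) (F : (Fin d → ℝ) → E2 → R4) (K : Set E2),
      Bdd F K A M → ∀ x ∈ K, ∀ (S : Set (Fin d → ℝ)) (V ε : ℝ), MeasurableSet S → S ⊆ cube d →
      1 ≤ V → 0 < ε → (∀ l ∈ S, ∀ i, |φ i (F l) x| ≤ ε) → (∀ l ∈ S, Tri φ F M E B V l x) →
        volume S ≤ ENNReal.ofReal (levelConst d N * ((M : ℝ) ^ B * V ^ 3 * ε) ^ N) := by
  have hc : JetAt 10 fun f x i => φ i f x := by
    choose g hg e using hφ
    refine ⟨fun z => ∑ i, g i z • (Pi.single i (1 : ℝ) : Fin N → ℝ),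
      Function.HasTemperateGrowth.sum fun i _ => (hg i).smul (Function.HasTemperateGrowth.const _),
      fun f x hf => funext fun i => by simp [← e _ f x hf, Pi.single_apply]⟩
  obtain ⟨g, hg, hrep⟩ := hc
  obtain ⟨A₁, hA₁⟩ := temperate_bound (hasTemperateGrowth_fderiv hg) A
  obtain ⟨A₂, hA₂⟩ := temperate_bound (hasTemperateGrowth_fderiv (hasTemperateGrowth_fderiv hg)) A
  set Q := A₁ + A₂ + 2 * A + 2 * E + 2 with hQ
  refine ⟨3 * (N * Q + 2 * Q), ?_⟩
  filter_upwards [hA₁, hA₂, eventually_ge_atTop (max 2 (8 * N))] with M hA₁ hA₂ hM d F K hF x hx S V ε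
    hSm hS hV hε hsmall hT
  have hM2 : (2 : ℝ) ≤ M := by exact_mod_cast le_of_max_le_left hM
  have hMN : 8 * (N : ℝ) ≤ M := by exact_mod_cast le_of_max_le_right hM
  have hM1 : (1 : ℝ) ≤ M := by linarith
  have hM0 : (0 : ℝ) < M := by linarith
  have hxK : x ∈ Metric.cthickening 1 K := Metric.self_subset_cthickening K hx
  set J : (Fin d → ℝ) → Jet 10 := fun l => jet 10 (F l) x with hJ
  set Φ : (Fin d → ℝ) → (Fin N → ℝ) := fun l i => φ i (F l) x with hΦ
  have hJs := (jet_param hF.smooth 10 x).1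
  have eΦ : Φ = g ∘ J := funext fun l => hrep _ x (contDiff_slice hF.smooth l)
  have hΦd : Differentiable ℝ Φ := by
    rw [eΦ]; exact (hg.1.differentiable (by simp)).comp (hJs.differentiable (by simp))
  have hDΦ : ∀ l, fderiv ℝ Φ l = (fderiv ℝ g (J l)).comp (fderiv ℝ J l) := fun l => by
    rw [eΦ]; exact fderiv_comp l (hg.1.differentiable (by simp) _) (hJs.differentiable (by simp) l)
  obtain ⟨hDJ, hDJlip⟩ := hF.fderiv_jet hxK (le_refl 10)
  have hball : ∀ l ∈ cube d, J l ∈ Metric.closedBall (0 : Jet 10) ((M : ℝ) ^ A) := fun l hl =>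
    mem_closedBall_zero_iff.2 (hF.jet_le hl hxK (by omega))
  have hlip : ∀ a ∈ cube d, ∀ b ∈ cube d,
      ‖fderiv ℝ Φ a - fderiv ℝ Φ b‖ ≤ (M : ℝ) ^ Q * ‖a - b‖ := by
    intro a ha b hb
    have h1 : ‖fderiv ℝ g (J a) - fderiv ℝ g (J b)‖ ≤ (M : ℝ) ^ A₂ * ‖J a - J b‖ :=
      (convex_closedBall (0 : Jet 10) ((M : ℝ) ^ A)).norm_image_sub_le_of_norm_fderiv_le
        (fun z _ => (hg.1.fderiv_right (m := ∞) (by exact_mod_cast le_top)).differentiable (by simp) z)
        (fun z hz => hA₂ z (mem_closedBall_zero_iff.1 hz)) (hball b hb) (hball a ha)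
    have h2 : ‖J a - J b‖ ≤ (M : ℝ) ^ A * ‖a - b‖ :=
      (convex_Icc (fun _ : Fin d => (-1 : ℝ)) (fun _ => 1)).norm_image_sub_le_of_norm_fderiv_le
        (fun z _ => hJs.differentiable (by simp) z) (fun z hz => hDJ z hz) hb ha
    have h3 := hA₁ _ (mem_closedBall_zero_iff.1 (hball a ha))
    calc ‖fderiv ℝ Φ a - fderiv ℝ Φ b‖
        = ‖(fderiv ℝ g (J a)).comp (fderiv ℝ J a - fderiv ℝ J b)
            + (fderiv ℝ g (J a) - fderiv ℝ g (J b)).comp (fderiv ℝ J b)‖ := by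
          rw [hDΦ, hDΦ]; congr 1
          simp only [ContinuousLinearMap.comp_sub, ContinuousLinearMap.sub_comp]; abel
      _ ≤ (M : ℝ) ^ A₁ * ((M : ℝ) ^ A * ‖a - b‖)
            + (M : ℝ) ^ A₂ * ((M : ℝ) ^ A * ‖a - b‖) * (M : ℝ) ^ A :=
          (norm_add_le _ _).trans (add_le_add
            ((ContinuousLinearMap.opNorm_comp_le _ _).trans
              (mul_le_mul h3 (hDJlip a ha b hb) (norm_nonneg _) (by positivity)))
            ((ContinuousLinearMap.opNorm_comp_le _ _).trans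
              (mul_le_mul (h1.trans (mul_le_mul_of_nonneg_left h2 (by positivity)))
                (hDJ b hb) (norm_nonneg _) (by positivity))))
      _ = ((M : ℝ) ^ (A₁ + A) + (M : ℝ) ^ (A₂ + A + A)) * ‖a - b‖ := by
          rw [pow_add, pow_add, pow_add]; ring
      _ ≤ _ := by
          refine mul_le_mul_of_nonneg_right ?_ (norm_nonneg _)
          calc (M : ℝ) ^ (A₁ + A) + (M : ℝ) ^ (A₂ + A + A)
              ≤ 2 * (M : ℝ) ^ (A₁ + A₂ + 2 * A) := by
                have := pow_le_pow_right₀ hM1 (show A₁ + A ≤ A₁ + A₂ + 2 * A by omega)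
                have := pow_le_pow_right₀ hM1 (show A₂ + A + A ≤ A₁ + A₂ + 2 * A by omega)
                linarith
            _ ≤ M * (M : ℝ) ^ (A₁ + A₂ + 2 * A) := by gcongr
            _ ≤ _ := by rw [← pow_succ']; exact pow_le_pow_right₀ hM1 (by omega)
  set P := N * Q + 2 * Q with hP
  have hvarΦ : ∀ l v i, fderiv ℝ Φ l v i = var (φ i) (F l) (dlam F l v) x := fun l v i => by
    rw [← fderiv_jetFn (hφ i) hF.smooth l v x, fderiv_pi fun j => differentiableAt_pi.1 (hΦd l) j]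
    rfl
  have hR : ∀ l ∈ S, ∃ R : (Fin N → ℝ) →L[ℝ] (Fin d → ℝ), ‖R‖ ≤ (M : ℝ) ^ P * V ∧
      ∀ y, ‖fderiv ℝ Φ l (R y) - y‖ ≤ ‖y‖ / 8 := by
    intro l hl
    choose v hv hjv hup hdiag using hT l hl
    have hEQ : ((M : ℝ) ^ E)⁻¹ ≤ (M : ℝ) ^ (A₁ + E) :=
      (inv_le_one_of_one_le₀ (one_le_pow₀ hM1)).trans (one_le_pow₀ hM1)
    have hK : (2 * (M : ℝ) ^ (A₁ + E) / ((M : ℝ) ^ E)⁻¹) ^ N ≤ (M : ℝ) ^ (N * Q) := by
      rw [mul_comm N, pow_mul]
      refine pow_le_pow_left₀ (by positivity) ?_ N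
      rw [div_inv_eq_mul, mul_assoc, ← pow_add]
      calc 2 * (M : ℝ) ^ (A₁ + E + E) ≤ M * (M : ℝ) ^ (A₁ + E + E) := by gcongr
        _ ≤ _ := by rw [← pow_succ']; exact pow_le_pow_right₀ hM1 (by omega)
    obtain ⟨R, hR1, hR2⟩ := exists_right_inverse (fderiv ℝ Φ l) v
      (α := ((M : ℝ) ^ E)⁻¹) (L := (M : ℝ) ^ (A₁ + E)) (μ := ((M : ℝ) ^ (3 * P))⁻¹) (V := V)
      (by positivity) hEQ (one_le_pow₀ hM1) (by positivity) hv (by linarith)
      (fun i j hij => by rw [hvarΦ]; exact hup j i hij) (fun j => by rw [hvarΦ]; exact hdiag j)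
      (fun i j => by
        rw [← Real.norm_eq_abs]
        refine (norm_le_pi_norm (fderiv ℝ Φ l (v j)) i).trans ?_
        rw [hDΦ, ContinuousLinearMap.comp_apply, (jet_param hF.smooth 10 x).2, pow_add]
        exact (ContinuousLinearMap.le_opNorm _ _).trans
          (mul_le_mul (hA₁ _ (mem_closedBall_zero_iff.1 (hball l (hS hl)))) (hjv j) (norm_nonneg _)
            (by positivity)))
      (by
        refine (mul_le_mul_of_nonneg_left hK (by positivity)).trans ?_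
        have h1 : (M : ℝ) ^ (N * Q) * M ≤ (M : ℝ) ^ (3 * P) := by
          rw [← pow_succ]; exact pow_le_pow_right₀ hM1 (by omega)
        rw [mul_assoc, inv_mul_eq_div, mul_div_assoc', div_le_div_iff₀ (by positivity) (by norm_num)]
        nlinarith [pow_pos hM0 (N * Q)])
    refine ⟨R, hR1.trans ?_, hR2⟩
    calc (N : ℝ) * V * (2 * (M : ℝ) ^ (A₁ + E) / ((M : ℝ) ^ E)⁻¹) ^ N
        ≤ M * V * (M : ℝ) ^ (N * Q) :=
          mul_le_mul (mul_le_mul_of_nonneg_right (by linarith) (by linarith)) hK (by positivity)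
            (by positivity)
      _ = (M : ℝ) ^ (N * Q + 1) * V := by rw [pow_succ]; ring
      _ ≤ _ := mul_le_mul_of_nonneg_right (pow_le_pow_right₀ hM1 (by omega)) (by linarith)
  have h1 : 1 ≤ (M : ℝ) ^ P * V := one_le_mul_of_one_le_of_one_le (one_le_pow₀ hM1) hV
  refine (volume_level_le Φ hΦd h1 hε (fun a ha b hb => (hlip a ha b hb).trans ?_) hSm hS
    (fun z hz => (pi_norm_le_iff_of_nonneg hε.le).2 fun i => hsmall z hz i) hR).trans_eq ?_
  · refine mul_le_mul_of_nonneg_right ?_ (norm_nonneg _)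
    exact (pow_le_pow_right₀ hM1 (show Q ≤ P by omega)).trans
      (le_mul_of_one_le_right (by positivity) hV)
  · rw [show ((M : ℝ) ^ P * V) ^ 3 = (M : ℝ) ^ (3 * P) * V ^ 3 by rw [mul_pow, ← pow_mul, mul_comm P]]

end Vale.Agent.P205F
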