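import Vale.Agent.P205F.GoodProb.Union

/-!
# P205, GoodProb: events for lines of functions

`φ + t φ'` with `|t| ≤ 1`: the constants of `event` do not depend on `t`; `bad_line` takes the union
over a grid of `(x, t)` of mesh `M^-c'`, so four functions are enough.
-/

namespace Vale.Agent.P205F

open scoped ContDiff
open Filter MeasureTheory Prob

/-- `φ + t φ'`. -/
def lineFn {N : ℕ} (φ φ' : Fin N → SF) (t : ℝ) (i : Fin N) : SF := fun f x => φ i f x + t * φ' i f x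

theorem JetAt.lineFn {N : ℕ} {φ φ' : Fin N → SF} (hφ : ∀ i, JetAt 10 (φ i))
    (hφ' : ∀ i, JetAt 10 (φ' i)) (t : ℝ) (i : Fin N) : JetAt 10 (P205F.lineFn φ φ' t i) :=
  ((hφ i).add ((JetAt.const t).mul (hφ' i))).mono (by omega)

theorem line_bound {X : Type*} [NormedAddCommGroup X] [NormedSpace ℝ X] {M t : ℝ} {a b : ℕ}
    {u v w : X} (hM : 2 ≤ M) (ht : |t| ≤ 1) (hu : ‖u‖ ≤ M ^ a) (hv : ‖v‖ ≤ M ^ b)
    (h : w = u + t • v) : ‖w‖ ≤ M ^ (a + b + 1) := by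
  have h1 : 1 ≤ M := by linarith
  have ha := pow_le_pow_right₀ h1 (show a ≤ a + b by omega)
  have hb := pow_le_pow_right₀ h1 (show b ≤ a + b by omega)
  have htv : ‖t • v‖ ≤ ‖v‖ := by
    rw [norm_smul, Real.norm_eq_abs]
    exact mul_le_of_le_one_left (norm_nonneg v) ht
  rw [h, pow_succ]
  refine (norm_add_le _ _).trans ?_
  nlinarith [one_le_pow₀ (n := a + b) h1]

/-- Two derivatives along a line of functions. -/
theorem line_c2 {E Y : Type*} [NormedAddCommGroup E] [NormedSpace ℝ E] [NormedAddCommGroup Y]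
    [NormedSpace ℝ Y] {g₁ g₂ : E → Y} (h₁ : ContDiff ℝ ∞ g₁) (h₂ : ContDiff ℝ ∞ g₂) {M t : ℝ}
    (hM : 2 ≤ M) (ht : |t| ≤ 1) (z : E) {a₁ b₁ a₂ b₂ : ℕ} (u₁ : ‖fderiv ℝ g₁ z‖ ≤ M ^ a₁)
    (v₁ : ‖fderiv ℝ g₂ z‖ ≤ M ^ b₁) (u₂ : ‖fderiv ℝ (fderiv ℝ g₁) z‖ ≤ M ^ a₂)
    (v₂ : ‖fderiv ℝ (fderiv ℝ g₂) z‖ ≤ M ^ b₂) :
    ‖fderiv ℝ (fun z => g₁ z + t • g₂ z) z‖ ≤ M ^ (a₁ + b₁ + 1) ∧
      ‖fderiv ℝ (fderiv ℝ fun z => g₁ z + t • g₂ z) z‖ ≤ M ^ (a₂ + b₂ + 1) := by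
  have e : fderiv ℝ (fun z => g₁ z + t • g₂ z) = fun z => fderiv ℝ g₁ z + t • fderiv ℝ g₂ z :=
    funext fun z => ((h₁.differentiable (by simp) z).hasFDerivAt.add
      ((h₂.differentiable (by simp) z).hasFDerivAt.const_smul t)).fderiv
  have d₁ := (h₁.fderiv_right (m := ∞) (by exact_mod_cast le_top)).differentiable (by simp) z
  have d₂ := (h₂.fderiv_right (m := ∞) (by exact_mod_cast le_top)).differentiable (by simp) z
  rw [e]
  exact ⟨line_bound hM ht u₁ v₁ rfl,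
    line_bound hM ht u₂ v₂ ((d₁.hasFDerivAt.add (d₂.hasFDerivAt.const_smul t)).fderiv)⟩

set_option maxSynthPendingDepth 3 in
/-- `event`, with the constants depending only on bounds of a representing function. -/
theorem event_core (N A E A₁ A₂ : ℕ) :
    ∃ B : ℕ, ∀ᶠ M : ℕ in atTop, ∀ φ : Fin N → SF, (∀ i, JetAt 10 (φ i)) →
      ∀ g : Jet 10 → (Fin N → ℝ), g.HasTemperateGrowth →
      (∀ f x, ContDiff ℝ ∞ f → (fun i => φ i f x) = g (jet 10 f x)) →
      (∀ z, ‖z‖ ≤ (M : ℝ) ^ A → ‖fderiv ℝ g z‖ ≤ (M : ℝ) ^ A₁) →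
      (∀ z, ‖z‖ ≤ (M : ℝ) ^ A → ‖fderiv ℝ (fderiv ℝ g) z‖ ≤ (M : ℝ) ^ A₂) →
      ∀ (d : ℕ) (F : (Fin d → ℝ) → E2 → R4) (K : Set E2),
      Bdd F K A M → ∀ x ∈ K, ∀ (S : Set (Fin d → ℝ)) (V ε : ℝ),
      MeasurableSet S → S ⊆ cube d → 1 ≤ V → 0 < ε →
      (∀ l ∈ S, ∀ i, |φ i (F l) x| ≤ ε) → (∀ l ∈ S, Tri φ F M E B V l x) →
        volume S ≤ ENNReal.ofReal (levelConst d N * ((M : ℝ) ^ B * V ^ 3 * ε) ^ N) := by
  set Q := A₁ + A₂ + 2 * A + 2 * E + 2 with hQ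
  refine ⟨3 * (N * Q + 2 * Q), ?_⟩
  filter_upwards [eventually_ge_atTop (max 2 (8 * N))] with M hM φ hφ g hg hrep hA₁ hA₂ d F K hF x hx S V ε
    hSm hS hV hε hsmall hT
  have hM2 : (2 : ℝ) ≤ M := by exact_mod_cast le_of_max_le_left hM
  have hMN : 8 * (N : ℝ) ≤ M := by exact_mod_cast le_of_max_le_right hM
  have hM1 : (1 : ℝ) ≤ M := by linarith
  have hM0 : (0 : ℝ) < M := by linarith
  have hxK : x ∈ Metric.cthickening 1 K := Metric.self_subset_cthickening K hx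
  set J : (Fin d → ℝ) → Jet 10 := fun l => jet 10 (F l) x with hJ
  set Φ : (Fin d → ℝ) → (Fin N → ℝ) := fun l i => φ i (F l) x with hΦ
  have hJs := (jet_param hF.smooth 10 x).1
  have eΦ : Φ = g ∘ J := funext fun l => hrep _ x (contDiff_slice hF.smooth l)
  have hΦd : Differentiable ℝ Φ := by
    rw [eΦ]; exact (hg.1.differentiable (by simp)).comp (hJs.differentiable (by simp))
  have hDΦ : ∀ l, fderiv ℝ Φ l = (fderiv ℝ g (J l)).comp (fderiv ℝ J l) := fun l => by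
    rw [eΦ]; exact fderiv_comp l (hg.1.differentiable (by simp) _) (hJs.differentiable (by simp) l)
  obtain ⟨hDJ, hDJlip⟩ := hF.fderiv_jet hxK (le_refl 10)
  have hball : ∀ l ∈ cube d, J l ∈ Metric.closedBall (0 : Jet 10) ((M : ℝ) ^ A) := fun l hl =>
    mem_closedBall_zero_iff.2 (hF.jet_le hl hxK (by omega))
  have hlip : ∀ a ∈ cube d, ∀ b ∈ cube d,
      ‖fderiv ℝ Φ a - fderiv ℝ Φ b‖ ≤ (M : ℝ) ^ Q * ‖a - b‖ := by
    intro a ha b hb
    have h1 : ‖fderiv ℝ g (J a) - fderiv ℝ g (J b)‖ ≤ (M : ℝ) ^ A₂ * ‖J a - J b‖ :=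
      (convex_closedBall (0 : Jet 10) ((M : ℝ) ^ A)).norm_image_sub_le_of_norm_fderiv_le
        (fun z _ => (hg.1.fderiv_right (m := ∞) (by exact_mod_cast le_top)).differentiable (by simp) z)
        (fun z hz => hA₂ z (mem_closedBall_zero_iff.1 hz)) (hball b hb) (hball a ha)
    have h2 : ‖J a - J b‖ ≤ (M : ℝ) ^ A * ‖a - b‖ :=
      (convex_Icc (fun _ : Fin d => (-1 : ℝ)) (fun _ => 1)).norm_image_sub_le_of_norm_fderiv_le
        (fun z _ => hJs.differentiable (by simp) z) (fun z hz => hDJ z hz) hb ha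
    have h3 := hA₁ _ (mem_closedBall_zero_iff.1 (hball a ha))
    calc ‖fderiv ℝ Φ a - fderiv ℝ Φ b‖
        = ‖(fderiv ℝ g (J a)).comp (fderiv ℝ J a - fderiv ℝ J b)
            + (fderiv ℝ g (J a) - fderiv ℝ g (J b)).comp (fderiv ℝ J b)‖ := by
          rw [hDΦ, hDΦ]; congr 1
          simp only [ContinuousLinearMap.comp_sub, ContinuousLinearMap.sub_comp]; abel
      _ ≤ (M : ℝ) ^ A₁ * ((M : ℝ) ^ A * ‖a - b‖)
            + (M : ℝ) ^ A₂ * ((M : ℝ) ^ A * ‖a - b‖) * (M : ℝ) ^ A :=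
          (norm_add_le _ _).trans (add_le_add
            ((ContinuousLinearMap.opNorm_comp_le _ _).trans
              (mul_le_mul h3 (hDJlip a ha b hb) (norm_nonneg _) (by positivity)))
            ((ContinuousLinearMap.opNorm_comp_le _ _).trans
              (mul_le_mul (h1.trans (mul_le_mul_of_nonneg_left h2 (by positivity)))
                (hDJ b hb) (norm_nonneg _) (by positivity))))
      _ = ((M : ℝ) ^ (A₁ + A) + (M : ℝ) ^ (A₂ + A + A)) * ‖a - b‖ := by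
          rw [pow_add, pow_add, pow_add]; ring
      _ ≤ _ := by
          refine mul_le_mul_of_nonneg_right ?_ (norm_nonneg _)
          calc (M : ℝ) ^ (A₁ + A) + (M : ℝ) ^ (A₂ + A + A)
              ≤ 2 * (M : ℝ) ^ (A₁ + A₂ + 2 * A) := by
                have := pow_le_pow_right₀ hM1 (show A₁ + A ≤ A₁ + A₂ + 2 * A by omega)
                have := pow_le_pow_right₀ hM1 (show A₂ + A + A ≤ A₁ + A₂ + 2 * A by omega)
                linarith
            _ ≤ M * (M : ℝ) ^ (A₁ + A₂ + 2 * A) := by gcongr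
            _ ≤ _ := by rw [← pow_succ']; exact pow_le_pow_right₀ hM1 (by omega)
  set P := N * Q + 2 * Q with hP
  have hvarΦ : ∀ l v i, fderiv ℝ Φ l v i = var (φ i) (F l) (dlam F l v) x := fun l v i => by
    rw [← fderiv_jetFn (hφ i) hF.smooth l v x, fderiv_pi fun j => differentiableAt_pi.1 (hΦd l) j]
    rfl
  have hR : ∀ l ∈ S, ∃ R : (Fin N → ℝ) →L[ℝ] (Fin d → ℝ), ‖R‖ ≤ (M : ℝ) ^ P * V ∧
      ∀ y, ‖fderiv ℝ Φ l (R y) - y‖ ≤ ‖y‖ / 8 := by
    intro l hl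
    choose v hv hjv hup hdiag using hT l hl
    have hEQ : ((M : ℝ) ^ E)⁻¹ ≤ (M : ℝ) ^ (A₁ + E) :=
      (inv_le_one_of_one_le₀ (one_le_pow₀ hM1)).trans (one_le_pow₀ hM1)
    have hK : (2 * (M : ℝ) ^ (A₁ + E) / ((M : ℝ) ^ E)⁻¹) ^ N ≤ (M : ℝ) ^ (N * Q) := by
      rw [mul_comm N, pow_mul]
      refine pow_le_pow_left₀ (by positivity) ?_ N
      rw [div_inv_eq_mul, mul_assoc, ← pow_add]
      calc 2 * (M : ℝ) ^ (A₁ + E + E) ≤ M * (M : ℝ) ^ (A₁ + E + E) := by gcongr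
        _ ≤ _ := by rw [← pow_succ']; exact pow_le_pow_right₀ hM1 (by omega)
    obtain ⟨R, hR1, hR2⟩ := exists_right_inverse (fderiv ℝ Φ l) v
      (α := ((M : ℝ) ^ E)⁻¹) (L := (M : ℝ) ^ (A₁ + E)) (μ := ((M : ℝ) ^ (3 * P))⁻¹) (V := V)
      (by positivity) hEQ (one_le_pow₀ hM1) (by positivity) hv (by linarith)
      (fun i j hij => by rw [hvarΦ]; exact hup j i hij) (fun j => by rw [hvarΦ]; exact hdiag j)
      (fun i j => by
        rw [← Real.norm_eq_abs]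
        refine (norm_le_pi_norm (fderiv ℝ Φ l (v j)) i).trans ?_
        rw [hDΦ, ContinuousLinearMap.comp_apply, (jet_param hF.smooth 10 x).2, pow_add]
        exact (ContinuousLinearMap.le_opNorm _ _).trans
          (mul_le_mul (hA₁ _ (mem_closedBall_zero_iff.1 (hball l (hS hl)))) (hjv j) (norm_nonneg _)
            (by positivity)))
      (by
        refine (mul_le_mul_of_nonneg_left hK (by positivity)).trans ?_
        have h1 : (M : ℝ) ^ (N * Q) * M ≤ (M : ℝ) ^ (3 * P) := by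
          rw [← pow_succ]; exact pow_le_pow_right₀ hM1 (by omega)
        rw [mul_assoc, inv_mul_eq_div, mul_div_assoc', div_le_div_iff₀ (by positivity) (by norm_num)]
        nlinarith [pow_pos hM0 (N * Q)])
    refine ⟨R, hR1.trans ?_, hR2⟩
    calc (N : ℝ) * V * (2 * (M : ℝ) ^ (A₁ + E) / ((M : ℝ) ^ E)⁻¹) ^ N
        ≤ M * V * (M : ℝ) ^ (N * Q) :=
          mul_le_mul (mul_le_mul_of_nonneg_right (by linarith) (by linarith)) hK (by positivity)
            (by positivity)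
      _ = (M : ℝ) ^ (N * Q + 1) * V := by rw [pow_succ]; ring
      _ ≤ _ := mul_le_mul_of_nonneg_right (pow_le_pow_right₀ hM1 (by omega)) (by linarith)
  have h1 : 1 ≤ (M : ℝ) ^ P * V := one_le_mul_of_one_le_of_one_le (one_le_pow₀ hM1) hV
  refine (volume_level_le Φ hΦd h1 hε (fun a ha b hb => (hlip a ha b hb).trans ?_) hSm hS
    (fun z hz => (pi_norm_le_iff_of_nonneg hε.le).2 fun i => hsmall z hz i) hR).trans_eq ?_
  · refine mul_le_mul_of_nonneg_right ?_ (norm_nonneg _)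
    exact (pow_le_pow_right₀ hM1 (show Q ≤ P by omega)).trans
      (le_mul_of_one_le_right (by positivity) hV)
  · rw [show ((M : ℝ) ^ P * V) ^ 3 = (M : ℝ) ^ (3 * P) * V ^ 3 by rw [mul_pow, ← pow_mul, mul_comm P]]

set_option maxSynthPendingDepth 3 in
/-- The measure of an event on a line of functions. -/
theorem event_line {N : ℕ} (φ φ' : Fin N → SF) (hφ : ∀ i, JetAt 10 (φ i))
    (hφ' : ∀ i, JetAt 10 (φ' i)) (A E : ℕ) :
    ∃ B : ℕ, ∀ᶠ M : ℕ in atTop, ∀ (d : ℕ) (F : (Fin d → ℝ) → E2 → R4) (K : Set E2),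
      Bdd F K A M → ∀ x ∈ K, ∀ t : ℝ, |t| ≤ 1 → ∀ (S : Set (Fin d → ℝ)) (V ε : ℝ),
      MeasurableSet S → S ⊆ cube d → 1 ≤ V → 0 < ε →
      (∀ l ∈ S, ∀ i, |lineFn φ φ' t i (F l) x| ≤ ε) →
      (∀ l ∈ S, Tri (lineFn φ φ' t) F M E B V l x) →
        volume S ≤ ENNReal.ofReal (levelConst d N * ((M : ℝ) ^ B * V ^ 3 * ε) ^ N) := by
  have vec : ∀ ψ : Fin N → SF, (∀ i, JetAt 10 (ψ i)) → JetAt 10 fun f x i => ψ i f x := by
    intro ψ hψ
    choose g hg e using hψ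
    refine ⟨fun z => ∑ i, g i z • (Pi.single i (1 : ℝ) : Fin N → ℝ),
      Function.HasTemperateGrowth.sum fun i _ => (hg i).smul (Function.HasTemperateGrowth.const _),
      fun f x hf => funext fun i => by simp [← e _ f x hf, Pi.single_apply]⟩
  obtain ⟨g₁, hg₁, e₁⟩ := vec φ hφ
  obtain ⟨g₂, hg₂, e₂⟩ := vec φ' hφ'
  obtain ⟨a₁, ha₁⟩ := temperate_bound (hasTemperateGrowth_fderiv hg₁) A
  obtain ⟨b₁, hb₁⟩ := temperate_bound (hasTemperateGrowth_fderiv hg₂) A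
  obtain ⟨a₂, ha₂⟩ := temperate_bound (hasTemperateGrowth_fderiv (hasTemperateGrowth_fderiv hg₁)) A
  obtain ⟨b₂, hb₂⟩ := temperate_bound (hasTemperateGrowth_fderiv (hasTemperateGrowth_fderiv hg₂)) A
  obtain ⟨B, hB⟩ := event_core N A E (a₁ + b₁ + 1) (a₂ + b₂ + 1)
  refine ⟨B, ?_⟩
  filter_upwards [hB, ha₁, hb₁, ha₂, hb₂, eventually_ge_atTop 2] with M hB ha₁ hb₁ ha₂ hb₂ hM d F K
    hF x hx t ht
  have hM2 : (2 : ℝ) ≤ M := by exact_mod_cast hM
  have hb := fun z hz => line_c2 hg₁.1 hg₂.1 hM2 ht z (ha₁ z hz) (hb₁ z hz) (ha₂ z hz) (hb₂ z hz)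
  exact hB (lineFn φ φ' t) (JetAt.lineFn hφ hφ' t) _
    (hg₁.add ((Function.HasTemperateGrowth.const t).smul hg₂))
    (fun f x hf => funext fun i => by simp [← e₁ f x hf, ← e₂ f x hf, lineFn])
    (fun z hz => (hb z hz).1) (fun z hz => (hb z hz).2) d F K hF x hx

/-- Small sets of parameters from four functions on a line. -/
theorem bad_line {k : ℕ} (φ φ' : Fin 4 → SF) (ψ : Fin k → SF) (hφ : ∀ i, JetAt 10 (φ i))
    (hφ' : ∀ i, JetAt 10 (φ' i)) (hψ : ∀ j, JetAt 10 (ψ j)) (A E : ℕ) :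
    ∃ B : ℕ, ∀ A' c : ℕ, ∃ L : ℕ, ∀ c' : ℕ, 8 * L + c ≤ c' →
      ∀ (d : ℕ) (K : Set E2) (δ : ℝ), IsCompact K → 0 < δ →
      ∀ᶠ M : ℕ in atTop, ∀ F : (Fin d → ℝ) → E2 → R4, Bdd F K A M →
      ∀ T : Set ℝ, T ⊆ Set.Icc (-1) 1 →
        (∀ l ∈ cube d, ∀ x ∈ K, ∀ t ∈ T,
          (∀ i, |φ i (F l) x + t * φ' i (F l) x| ≤ ((M : ℝ) ^ (c' - L))⁻¹) →
          (∀ j, ((M : ℝ) ^ (c + 1))⁻¹ ≤ |ψ j (F l) x|) →
          Tri (fun i f x => φ i f x + t * φ' i f x) F M E B ((M : ℝ) ^ A') l x) →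
        volume (Bad F K fun f x => ∃ t ∈ T,
          (∀ i, |φ i f x + t * φ' i f x| ≤ ((M : ℝ) ^ c')⁻¹) ∧
          ∀ j, ((M : ℝ) ^ c)⁻¹ ≤ |ψ j f x|) ≤ ENNReal.ofReal δ := by
  classical
  obtain ⟨B, hB⟩ := event_line φ φ' hφ hφ' A E
  choose La hLa using fun i => (hφ i).lip le_rfl A
  choose Lb hLb using fun i => (hφ' i).lip le_rfl A
  choose Lc hLc using fun i => (hφ' i).bound A
  choose Lg hLg using fun j => (hψ j).lip le_rfl A
  refine ⟨B, fun A' c => ?_⟩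
  set L := Finset.univ.sup La + Finset.univ.sup Lb + Finset.univ.sup Lc + Finset.univ.sup Lg + B
    + 3 * A' + 2 with hL
  refine ⟨L, fun c' hc' d K δ hK hδ => ?_⟩
  obtain ⟨CK, hCK⟩ := exists_net hK
  filter_upwards [hB, eventually_all.2 hLa, eventually_all.2 hLb, eventually_all.2 hLc,
    eventually_all.2 hLg, eventually_ge_atTop 4,
    (tendsto_natCast_atTop_atTop (R := ℝ)).eventually_ge_atTop (3 * CK * levelConst d 4 / δ)]
    with M hBM haM hbM hcM hgM hM hMδ F hF T hT htri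
  have hM4 : (4 : ℝ) ≤ M := by exact_mod_cast hM
  have hM1 : (1 : ℝ) ≤ M := by linarith
  have hM0 : (0 : ℝ) < M := by linarith
  set ρ := ((M : ℝ) ^ c')⁻¹ with hρ
  have hρ0 : 0 < ρ := by positivity
  have hρ1 : ρ ≤ 1 := inv_le_one_of_one_le₀ (one_le_pow₀ hM1)
  obtain ⟨G, hGc, hGK, hGn⟩ := hCK ρ hρ0 hρ1
  -- representatives in `T`
  set cell : ℝ → ℕ := fun t => ⌊(t + 1) / ρ⌋₊ with hcell
  set Q := (Finset.range (⌊2 / ρ⌋₊ + 1)).filter fun q => ∃ t ∈ T, cell t = q with hQ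
  have hex : ∀ q ∈ Q, ∃ t ∈ T, cell t = q := fun q hq => (Finset.mem_filter.1 hq).2
  choose r hrT hr using hex
  set GT := Q.attach.image fun q => r q.1 q.2 with hGT
  have hGTc : (GT.card : ℝ) ≤ 3 / ρ := by
    refine le_trans (Nat.cast_le.2 (Finset.card_image_le.trans ((Finset.card_attach).trans_le
      ((Finset.card_filter_le _ _).trans (Finset.card_range _).le)))) ?_
    have h2 := Nat.floor_le (show (0 : ℝ) ≤ 2 / ρ by positivity)
    have h3 : 1 ≤ 1 / ρ := by rwa [le_div_iff₀ hρ0, one_mul]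
    push_cast
    rw [show (3 : ℝ) / ρ = 2 / ρ + 1 / ρ by ring]
    linarith
  have hGTT : ∀ t ∈ GT, t ∈ T := fun t ht => by
    obtain ⟨q, -, rfl⟩ := Finset.mem_image.1 ht
    exact hrT _ _
  have hGTn : ∀ t ∈ T, ∃ s ∈ GT, |s - t| ≤ ρ := fun t ht => by
    obtain ⟨h1, h2⟩ := hT ht
    have hq : cell t ∈ Q := Finset.mem_filter.2 ⟨Finset.mem_range.2 (Nat.lt_succ_of_le
      (Nat.floor_le_floor (div_le_div_of_nonneg_right (by linarith) hρ0.le))), t, ht, rfl⟩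
    refine ⟨r _ hq, Finset.mem_image.2 ⟨⟨_, hq⟩, Finset.mem_attach _ _, rfl⟩, ?_⟩
    have h3 : ⌊(r _ hq + 1) / ρ⌋₊ = ⌊(t + 1) / ρ⌋₊ := hr _ hq
    obtain ⟨h4, -⟩ := hT (hrT _ hq)
    obtain ⟨a1, a2⟩ := (Nat.floor_eq_iff (div_nonneg (by linarith) hρ0.le)).1 h3
    obtain ⟨b1, b2⟩ := (Nat.floor_eq_iff (div_nonneg (show 0 ≤ t + 1 by linarith) hρ0.le)).1 rfl
    rw [le_div_iff₀ hρ0] at a1 b1
    rw [div_lt_iff₀ hρ0] at a2 b2
    rw [abs_le]
    constructor <;> nlinarith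
  set ε := ((M : ℝ) ^ (c' - L))⁻¹ with hε
  set S : E2 × ℝ → Set (Fin d → ℝ) := fun p => cube d ∩
    {l | (∀ i, |lineFn φ φ' p.2 i (F l) p.1| ≤ ε) ∧
      ∀ j, ((M : ℝ) ^ (c + 1))⁻¹ ≤ |ψ j (F l) p.1|} with hS
  have hSm : ∀ p, MeasurableSet (S p) := fun p => by
    refine (measurableSet_cube d).inter (IsClosed.measurableSet ?_)
    rw [Set.setOf_and, Set.setOf_forall, Set.setOf_forall]
    exact (isClosed_iInter fun i => isClosed_le
      (continuous_jetFn_param (JetAt.lineFn hφ hφ' p.2 i) hF.smooth p.1).abs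
      continuous_const).inter (isClosed_iInter fun j => isClosed_le continuous_const
        (continuous_jetFn_param (hψ j) hF.smooth p.1).abs)
  have hvol : ∀ p ∈ G ×ˢ GT, volume (S p) ≤
      ENNReal.ofReal (levelConst d 4 * ((M : ℝ) ^ B * ((M : ℝ) ^ A') ^ 3 * ε) ^ 4) := fun p hp => by
    obtain ⟨hx, ht⟩ := Finset.mem_product.1 hp
    exact hBM d F K hF p.1 (hGK _ hx) p.2 (abs_le.2 (hT (hGTT _ ht))) (S p) _ ε (hSm p)
      Set.inter_subset_left (one_le_pow₀ hM1) (by positivity) (fun l hl => hl.2.1)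
      fun l hl => htri l hl.1 p.1 (hGK _ hx) p.2 (hGTT _ ht) hl.2.1 hl.2.2
  have hcov : Bad F K (fun f x => ∃ t ∈ T,
      (∀ i, |φ i f x + t * φ' i f x| ≤ ((M : ℝ) ^ c')⁻¹) ∧
      ∀ j, ((M : ℝ) ^ c)⁻¹ ≤ |ψ j f x|) ⊆ ⋃ p ∈ G ×ˢ GT, S p := by
    rintro l ⟨hl, y, hy, t, ht, hsm, hbig⟩
    obtain ⟨x, hx, hxy⟩ := hGn y hy
    obtain ⟨s, hs, hst⟩ := hGTn t ht
    have hd : dist x y ≤ 1 := hxy.trans hρ1
    refine Set.mem_iUnion₂.2 ⟨(x, s), Finset.mem_product.2 ⟨hx, hs⟩, hl, fun i => ?_, fun j => ?_⟩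
    · have h1 := haM i d F K hF l hl y hy x hd
      have h2 := hbM i d F K hF l hl y hy x hd
      have h3 := (hcM i (F l) x (contDiff_slice hF.smooth l)
        (hF.jet_le hl (Metric.self_subset_cthickening K (hGK x hx)) (by omega))).1
      rw [Real.norm_eq_abs] at h1 h2 h3
      have hle : ∀ {a : ℕ}, a ≤ L - 1 → (M : ℝ) ^ a ≤ (M : ℝ) ^ (L - 1) := fun h =>
        pow_le_pow_right₀ hM1 h
      have e1 : |φ i (F l) x - φ i (F l) y| ≤ (M : ℝ) ^ (L - 1) * ρ :=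
        h1.trans (mul_le_mul (hle (by
          have := Finset.le_sup (f := La) (Finset.mem_univ i); omega)) hxy dist_nonneg (by positivity))
      have e2 : |φ' i (F l) x - φ' i (F l) y| ≤ (M : ℝ) ^ (L - 1) * ρ :=
        h2.trans (mul_le_mul (hle (by
          have := Finset.le_sup (f := Lb) (Finset.mem_univ i); omega)) hxy dist_nonneg (by positivity))
      have e3 : |(s - t) * φ' i (F l) x| ≤ (M : ℝ) ^ (L - 1) * ρ := by
        rw [abs_mul, mul_comm ((M : ℝ) ^ (L - 1))]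
        exact mul_le_mul hst (h3.trans (hle (by
          have := Finset.le_sup (f := Lc) (Finset.mem_univ i); omega))) (abs_nonneg _) hρ0.le
      have e2' : |t * (φ' i (F l) x - φ' i (F l) y)| ≤ (M : ℝ) ^ (L - 1) * ρ := by
        rw [abs_mul]
        exact (mul_le_of_le_one_left (abs_nonneg _) (abs_le.2 (hT ht))).trans e2
      calc |lineFn φ φ' s i (F l) x|
          = |(φ i (F l) y + t * φ' i (F l) y) + (φ i (F l) x - φ i (F l) y)
              + t * (φ' i (F l) x - φ' i (F l) y) + (s - t) * φ' i (F l) x| := by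
            simp only [lineFn]; ring_nf
        _ ≤ ρ + (M : ℝ) ^ (L - 1) * ρ + (M : ℝ) ^ (L - 1) * ρ + (M : ℝ) ^ (L - 1) * ρ := by
            refine (abs_add_le _ _).trans (add_le_add ((abs_add_le _ _).trans
              (add_le_add ((abs_add_le _ _).trans (add_le_add (hsm i) e1)) e2')) e3)
        _ ≤ (M : ℝ) ^ L * ρ := by
            rw [show (M : ℝ) ^ L = (M : ℝ) ^ (L - 1) * M by rw [← pow_succ]; congr 1]
            nlinarith [one_le_pow₀ (n := L - 1) hM1,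
              mul_le_mul_of_nonneg_left hM4 (mul_nonneg (pow_nonneg hM0.le (L - 1)) hρ0.le)]
        _ = ε := by
            rw [hε, hρ, ← div_eq_mul_inv, inv_eq_one_div,
              div_eq_div_iff (by positivity) (by positivity), one_mul, ← pow_add]
            congr 1; omega
    · have h1 := hgM j d F K hF l hl y hy x hd
      rw [Real.norm_eq_abs] at h1
      have hpow : (M : ℝ) ^ Lg j * dist x y ≤ ((M : ℝ) ^ (c + 1))⁻¹ := by
        refine (mul_le_mul_of_nonneg_left hxy (by positivity)).trans ?_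
        rw [hρ, ← div_eq_mul_inv, inv_eq_one_div, div_le_div_iff₀ (by positivity) (by positivity),
          one_mul, ← pow_add]
        refine pow_le_pow_right₀ hM1 ?_
        have := Finset.le_sup (f := Lg) (Finset.mem_univ j)
        omega
      have h2 : 2 * ((M : ℝ) ^ (c + 1))⁻¹ ≤ ((M : ℝ) ^ c)⁻¹ := by
        rw [pow_succ, mul_inv, ← mul_assoc, mul_comm 2, mul_assoc]
        refine mul_le_of_le_one_right (by positivity) ?_
        rw [← div_eq_mul_inv, div_le_one hM0]; linarith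
      have := abs_sub_abs_le_abs_sub (ψ j (F l) y) (ψ j (F l) x)
      rw [abs_sub_comm] at h1
      show ((M : ℝ) ^ (c + 1))⁻¹ ≤ |ψ j (F l) x|
      linarith [hbig j]
  refine ((measure_mono hcov).trans (measure_biUnion_finset_le _ _)).trans
    ((Finset.sum_le_sum hvol).trans ?_)
  rw [Finset.sum_const, nsmul_eq_mul, ← ENNReal.ofReal_natCast,
    ← ENNReal.ofReal_mul (Nat.cast_nonneg _)]
  refine ENNReal.ofReal_le_ofReal ?_
  set P := levelConst d 4 with hP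
  have hP0 := levelConst_nonneg d 4
  set u := (M : ℝ) ^ B * ((M : ℝ) ^ A') ^ 3 * ε with hu
  have hu' : u ≤ ((M : ℝ) ^ (c' - 2 * L + 1))⁻¹ := by
    rw [hu, hε, ← pow_mul, ← pow_add, ← div_eq_mul_inv, inv_eq_one_div,
      div_le_div_iff₀ (by positivity) (by positivity), one_mul, ← pow_add]
    exact pow_le_pow_right₀ hM1 (by omega)
  have hun : u ^ 4 ≤ ((M : ℝ) ^ (3 * c' + 1))⁻¹ := by
    refine (pow_le_pow_left₀ (by positivity) hu' 4).trans ?_
    rw [inv_pow, ← pow_mul]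
    exact inv_anti₀ (by positivity) (pow_le_pow_right₀ hM1 (by omega))
  have hcard : ((G ×ˢ GT).card : ℝ) ≤ CK / ρ ^ 2 * (3 / ρ) := by
    rw [Finset.card_product, Nat.cast_mul]
    exact mul_le_mul hGc hGTc (Nat.cast_nonneg _) ((Nat.cast_nonneg _).trans hGc)
  calc ((G ×ˢ GT).card : ℝ) * (P * u ^ 4)
      ≤ CK / ρ ^ 2 * (3 / ρ) * (P * ((M : ℝ) ^ (3 * c' + 1))⁻¹) :=
        mul_le_mul hcard (mul_le_mul_of_nonneg_left hun hP0) (by positivity)
          ((Nat.cast_nonneg _).trans hcard)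
    _ = 3 * CK * P / M := by
        rw [hρ, show (3 * c' + 1) = c' * 2 + c' + 1 by ring, pow_add, pow_add, pow_mul, pow_one]
        field_simp
    _ ≤ δ := by
        rw [div_le_iff₀ hM0]
        rw [div_le_iff₀ hδ] at hMδ
        linarith

end Vale.Agent.P205F
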