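import Vale.Agent.P205F.GoodProb.G1Dir
import Vale.Agent.P205F.GoodProb.G1Event

/-!
# P205, GoodProb: `N` not small

If all pair determinants of the rows are small, a line `s π_n + u β_n` is small in all five rows. In
either chart four of them form a triangular system, so such parameters have small measure.
-/

namespace Vale.Agent.P205F

open scoped ContDiff RealInnerProductSpace
open Filter MeasureTheory Prob

/-! ### Powers -/

section Powers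

variable {M : ℕ} (hM : 4 ≤ (M : ℝ))
include hM

theorem inv_pow_le {a a' : ℕ} (h : a ≤ a') : ((M : ℝ) ^ a')⁻¹ ≤ ((M : ℝ) ^ a)⁻¹ :=
  inv_anti₀ (pow_pos (by linarith) a) (pow_le_pow_right₀ (by linarith) h)

theorem pow_mul_inv_le {a a' r : ℕ} (h : a + r ≤ a') :
    (M : ℝ) ^ a * ((M : ℝ) ^ a')⁻¹ ≤ ((M : ℝ) ^ r)⁻¹ := by
  rw [← div_eq_mul_inv, inv_eq_one_div, div_le_div_iff₀ (pow_pos (by linarith) a')
    (pow_pos (by linarith) r), one_mul, ← pow_add]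
  exact pow_le_pow_right₀ (by linarith) h

theorem four_inv_le {a a' : ℕ} (h : a + 1 ≤ a') : 4 * ((M : ℝ) ^ a')⁻¹ ≤ ((M : ℝ) ^ a)⁻¹ := by
  refine le_trans (mul_le_mul_of_nonneg_right hM (by positivity)) ?_
  simpa using pow_mul_inv_le hM (a := 1) (r := a) (a' := a') (by omega)

end Powers

/-! ### The triangular systems -/

variable {d : ℕ}

theorem var_line {p q : SF} (hp : JetFn p) (hq : JetFn q) {f w : E2 → R4} (hf : ContDiff ℝ ∞ f)
    (hw : ContDiff ℝ ∞ w) (t : ℝ) (x : E2) :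
    var (fun f x => p f x + t * q f x) f w x = var p f w x + t * var q f w x := by
  rw [var_add hp ((JetFn.const t).mul hq) hf hw, var_mul (JetFn.const t) hq hf hw, var_const]
  ring

/-- `π` of the rows used. -/
noncomputable def piR (R : ℕ → SF × SF) : Fin 4 → SF := fun i => (R ((i : ℕ) + 1)).1

/-- `β` of the rows used. -/
noncomputable def beR (R : ℕ → SF × SF) : Fin 4 → SF := fun i => (R ((i : ℕ) + 1)).2

section Tri

variable {R : ℕ → SF × SF} (hR : ∀ n, JetFn (R n).1 ∧ JetFn (R n).2)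
  {F : (Fin d → ℝ) → E2 → R4} (hF : ContDiff ℝ ∞ (Function.uncurry F))
  {M E B V s : ℕ} (hM : 4 ≤ (M : ℝ)) {l : Fin d → ℝ} {x : E2} {t : ℝ}
include hR hF hM

theorem tri_beta (ht : |t| ≤ 1) (hs : 2 * E + B + 2 ≤ s)
    (hd : ∀ j, DirI R F M E V ((M : ℝ) ^ E * ((M : ℝ) ^ s)⁻¹) l x j) :
    Tri (fun i f x => beR R i f x + t * piR R i f x) F M (E + 1) B ((M : ℝ) ^ V) l x := by
  intro j
  obtain ⟨v, hv, hj, hπ, hβ, hdiag⟩ := hd j
  have hη : (M : ℝ) ^ E * ((M : ℝ) ^ s)⁻¹ ≤ ((M : ℝ) ^ (B + E + 2))⁻¹ :=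
    pow_mul_inv_le hM (by omega)
  have e := fun i => var_line (hR ((i : Fin 4) + 1 : ℕ)).2 (hR ((i : ℕ) + 1)).1
    (contDiff_slice hF l) (contDiff_dlam hF l v) t x
  have ht' : ∀ r : ℝ, |t * r| ≤ |r| := fun r => by
    rw [abs_mul]; exact mul_le_of_le_one_left (abs_nonneg r) ht
  refine ⟨v, hv, hj.trans (pow_le_pow_right₀ (by linarith) E.le_succ), fun i hi => ?_, ?_⟩
  · show |var (fun f x => (R ((i : ℕ) + 1)).2 f x + t * (R ((i : ℕ) + 1)).1 f x) _ _ x| ≤ _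
    rw [e i]
    refine (abs_add_le _ _).trans ?_
    have h1 := (hβ i hi).trans hη
    have h2 := ((ht' _).trans (hπ i hi.le)).trans hη
    have := four_inv_le hM (show B + 1 ≤ B + E + 2 by omega)
    have : 0 ≤ ((M : ℝ) ^ (B + E + 2))⁻¹ := by positivity
    linarith
  · show _ ≤ |var (fun f x => (R ((j : ℕ) + 1)).2 f x + t * (R ((j : ℕ) + 1)).1 f x) _ _ x|
    rw [e j]
    have h2 := ((ht' _).trans (hπ j le_rfl)).trans hη
    have := four_inv_le hM (show E + 1 ≤ B + E + 2 by omega)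
    have := four_inv_le hM (show E + 1 ≤ E + 1 by omega)
    have := abs_sub_abs_le_abs_sub (var (R ((j : ℕ) + 1)).2 (F l) (dlam F l v) x)
      (-(t * var (R ((j : ℕ) + 1)).1 (F l) (dlam F l v) x))
    rw [abs_neg, sub_neg_eq_add] at this
    have : 0 ≤ ((M : ℝ) ^ E)⁻¹ := by positivity
    linarith

theorem tri_pi_large {g : ℕ} (ht : |t| ≤ 1) (htg : ((M : ℝ) ^ g)⁻¹ ≤ |t|)
    (hs : 2 * E + B + g + 2 ≤ s)
    (hd : ∀ j, DirI R F M E V ((M : ℝ) ^ E * ((M : ℝ) ^ s)⁻¹) l x j) :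
    Tri (fun i f x => piR R i f x + t * beR R i f x) F M (E + g + 1) B ((M : ℝ) ^ V) l x := by
  intro j
  obtain ⟨v, hv, hj, hπ, hβ, hdiag⟩ := hd j
  have hη : (M : ℝ) ^ E * ((M : ℝ) ^ s)⁻¹ ≤ ((M : ℝ) ^ (B + E + g + 2))⁻¹ :=
    pow_mul_inv_le hM (by omega)
  have e := fun i => var_line (hR ((i : Fin 4) + 1 : ℕ)).1 (hR ((i : ℕ) + 1)).2
    (contDiff_slice hF l) (contDiff_dlam hF l v) t x
  have ht' : ∀ r : ℝ, |t * r| ≤ |r| := fun r => by
    rw [abs_mul]; exact mul_le_of_le_one_left (abs_nonneg r) ht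
  refine ⟨v, hv, hj.trans (pow_le_pow_right₀ (by linarith) (by omega)), fun i hi => ?_, ?_⟩
  · show |var (fun f x => (R ((i : ℕ) + 1)).1 f x + t * (R ((i : ℕ) + 1)).2 f x) _ _ x| ≤ _
    rw [e i]
    refine (abs_add_le _ _).trans ?_
    have h1 := (hπ i hi.le).trans hη
    have h2 := ((ht' _).trans (hβ i hi)).trans hη
    have := four_inv_le hM (show B + 1 ≤ B + E + g + 2 by omega)
    have : 0 ≤ ((M : ℝ) ^ (B + E + g + 2))⁻¹ := by positivity
    linarith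
  · show _ ≤ |var (fun f x => (R ((j : ℕ) + 1)).1 f x + t * (R ((j : ℕ) + 1)).2 f x) _ _ x|
    rw [e j]
    have h1 := (hπ j le_rfl).trans hη
    have h3 : ((M : ℝ) ^ E)⁻¹ - ((M : ℝ) ^ (B + E + g + 2))⁻¹ ≤
        |var (R ((j : ℕ) + 1)).2 (F l) (dlam F l v) x| := by linarith
    have h5 : ((M : ℝ) ^ (g + E))⁻¹ - ((M : ℝ) ^ (B + E + g + 2))⁻¹ ≤
        |t * var (R ((j : ℕ) + 1)).2 (F l) (dlam F l v) x| := by
      have h6 := mul_le_mul_of_nonneg_left hdiag (abs_nonneg t)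
      have h7 := mul_le_mul_of_nonneg_right htg (show (0 : ℝ) ≤ ((M : ℝ) ^ E)⁻¹ by positivity)
      have h8 := mul_le_mul ht hη (by positivity) zero_le_one
      rw [one_mul] at h8
      rw [abs_mul, pow_add _ g E, mul_inv]
      linarith
    have := four_inv_le hM (show g + E + 1 ≤ B + E + g + 2 by omega)
    have := four_inv_le hM (show g + E + 1 ≤ E + g + 1 by omega)
    have := abs_sub_abs_le_abs_sub (t * var (R ((j : ℕ) + 1)).2 (F l) (dlam F l v) x)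
      (-var (R ((j : ℕ) + 1)).1 (F l) (dlam F l v) x)
    rw [abs_neg, sub_neg_eq_add, add_comm (t * _)] at this
    have : 0 ≤ ((M : ℝ) ^ (g + E))⁻¹ := by positivity
    linarith

theorem tri_pi_small {g : ℕ} (htg : |t| ≤ ((M : ℝ) ^ g)⁻¹) (hg : 2 * E + B + 2 ≤ g)
    (hs : 2 * E + B + 2 ≤ s)
    (hd : ∀ j, DirII R F M E V ((M : ℝ) ^ E * ((M : ℝ) ^ s)⁻¹) l x j) :
    Tri (fun i f x => piR R i f x + t * beR R i f x) F M (E + 1) B ((M : ℝ) ^ V) l x := by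
  intro j
  obtain ⟨v, hv, hj, hπ, hβ, hdiag⟩ := hd j
  have hη : (M : ℝ) ^ E * ((M : ℝ) ^ s)⁻¹ ≤ ((M : ℝ) ^ (B + E + 2))⁻¹ :=
    pow_mul_inv_le hM (by omega)
  have e := fun i => var_line (hR ((i : Fin 4) + 1 : ℕ)).1 (hR ((i : ℕ) + 1)).2
    (contDiff_slice hF l) (contDiff_dlam hF l v) t x
  have hb : ∀ i : Fin 4, |t * var (R ((i : ℕ) + 1)).2 (F l) (dlam F l v) x| ≤
      ((M : ℝ) ^ (B + E + 2))⁻¹ := fun i => by
    rw [abs_mul]
    refine (mul_le_mul htg (hβ i) (abs_nonneg _) (by positivity)).trans ?_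
    rw [mul_comm]
    exact pow_mul_inv_le hM (by omega)
  refine ⟨v, hv, hj.trans (pow_le_pow_right₀ (by linarith) (by omega)), fun i hi => ?_, ?_⟩
  · show |var (fun f x => (R ((i : ℕ) + 1)).1 f x + t * (R ((i : ℕ) + 1)).2 f x) _ _ x| ≤ _
    rw [e i]
    refine (abs_add_le _ _).trans ?_
    have h1 := (hπ i hi).trans hη
    have h2 := hb i
    have := four_inv_le hM (show B + 1 ≤ B + E + 2 by omega)
    have : 0 ≤ ((M : ℝ) ^ (B + E + 2))⁻¹ := by positivity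
    linarith
  · show _ ≤ |var (fun f x => (R ((j : ℕ) + 1)).1 f x + t * (R ((j : ℕ) + 1)).2 f x) _ _ x|
    rw [e j]
    have h2 := hb j
    have := four_inv_le hM (show E + 1 ≤ B + E + 2 by omega)
    have := four_inv_le hM (show E + 1 ≤ E + 1 by omega)
    have := abs_sub_abs_le_abs_sub (var (R ((j : ℕ) + 1)).1 (F l) (dlam F l v) x)
      (-(t * var (R ((j : ℕ) + 1)).2 (F l) (dlam F l v) x))
    rw [abs_neg, sub_neg_eq_add] at this
    have : 0 ≤ ((M : ℝ) ^ E)⁻¹ := by positivity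
    linarith

end Tri

/-! ### One small set -/

/-- The parameters with a point of one kind. -/
def Kind (φ φ' : Fin 4 → SF) (piv : ℕ → SF) (T : Set ℝ) (c c' M : ℕ) (f : E2 → R4) (x : E2) : Prop :=
  ∃ t ∈ T, (∀ i, |φ i f x + t * φ' i f x| ≤ ((M : ℝ) ^ c')⁻¹) ∧
    ∀ j, ((M : ℝ) ^ c)⁻¹ ≤ |pvec piv j f x|

/-- `|t|` at least `M^-g`. -/
def TL (g M : ℕ) : Set ℝ := {t | |t| ≤ 1 ∧ ((M : ℝ) ^ g)⁻¹ ≤ |t|}

/-- `|t|` at most `M^-g`. -/
def TS (g M : ℕ) : Set ℝ := {t | |t| ≤ 1 ∧ |t| ≤ ((M : ℝ) ^ g)⁻¹}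

/-- The kinds of chart one have small measure, `u = 1`. -/
theorem kind_beta {R : ℕ → SF × SF} {piv : ℕ → SF} (hR : ∀ n, JetAt (n + 2) (R n).1 ∧ JetAt (n + 3) (R n).2)
    (hp : ∀ n, JetAt 10 (piv n)) (b : Bool) (A c : ℕ)
    (hd : ∃ E : ℕ, ∀ᶠ M : ℕ in atTop, ∀ b d (F : (Fin d → ℝ) → E2 → R4) K C V s,
      Setup b F K C A V s M → C ≤ M → ∀ l ∈ cube d, ∀ x ∈ K,
      (∀ j, ((M : ℝ) ^ (c + 1))⁻¹ ≤ |pvec piv j (F l) x|) →
      ∀ j, DirI R F M E V ((M : ℝ) ^ E * ((M : ℝ) ^ s)⁻¹) l x j) :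
    ∃ s₀ : ℕ, ∀ V : ℕ, ∃ c₀ : ℕ, ∀ c' ≥ c₀, ∀ (d : ℕ) (K : Set E2) (C δ : ℝ), IsCompact K → 0 < δ →
      ∀ᶠ M : ℕ in atTop, ∀ F : (Fin d → ℝ) → E2 → R4, ∀ s ≥ s₀, Setup b F K C A V s M →
        volume (Bad F K (Kind (beR R) (piR R) piv (Set.Icc (-1) 1) c c' M)) ≤ ENNReal.ofReal δ := by
  obtain ⟨E, hE⟩ := hd
  obtain ⟨B, hB⟩ := bad_line (beR R) (piR R) (pvec piv)
    (fun i => (hR _).2.mono (by omega)) (fun i => (hR _).1.mono (by omega)) (pvec_jetAt hp) A (E + 1)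
  refine ⟨2 * E + B + 2, fun V => ?_⟩
  obtain ⟨L, hL⟩ := hB V c
  refine ⟨8 * L + c, fun c' hc' d K C δ hK hδ => ?_⟩
  filter_upwards [hE, hL c' hc' d K δ hK hδ, eventually_ge_atTop (max 4 ⌈C⌉₊)]
    with M hE hL hM F s hs hS
  have hM4 : (4 : ℝ) ≤ M := by exact_mod_cast le_of_max_le_left hM
  have hC : C ≤ (M : ℝ) := (Nat.le_ceil C).trans (by exact_mod_cast le_of_max_le_right hM)
  exact hL F hS.bdd _ le_rfl fun l hl x hx t ht _ hψ =>
    tri_beta (fun n => ⟨(hR n).1.jetFn, (hR n).2.jetFn⟩) hS.bdd.smooth hM4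
      (abs_le.2 ⟨ht.1, ht.2⟩) hs (hE b d F K C V s hS hC l hl x hx hψ)

/-- The kinds of chart one have small measure, `s = 1`. -/
theorem kind_pi {R : ℕ → SF × SF} {piv : ℕ → SF} (hR : ∀ n, JetAt (n + 2) (R n).1 ∧ JetAt (n + 3) (R n).2)
    (hp : ∀ n, JetAt 10 (piv n)) (b : Bool) (A c g : ℕ)
    (hd : ∃ E : ℕ, ∀ᶠ M : ℕ in atTop, ∀ b d (F : (Fin d → ℝ) → E2 → R4) K C V s,
      Setup b F K C A V s M → C ≤ M → ∀ l ∈ cube d, ∀ x ∈ K,
      (∀ j, ((M : ℝ) ^ (c + 1))⁻¹ ≤ |pvec piv j (F l) x|) →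
      ∀ j, DirI R F M E V ((M : ℝ) ^ E * ((M : ℝ) ^ s)⁻¹) l x j) :
    ∃ s₀ : ℕ, ∀ V : ℕ, ∃ c₀ : ℕ, ∀ c' ≥ c₀, ∀ (d : ℕ) (K : Set E2) (C δ : ℝ), IsCompact K → 0 < δ →
      ∀ᶠ M : ℕ in atTop, ∀ F : (Fin d → ℝ) → E2 → R4, ∀ s ≥ s₀, Setup b F K C A V s M →
        volume (Bad F K (Kind (piR R) (beR R) piv (TL g M) c c' M)) ≤ ENNReal.ofReal δ := by
  obtain ⟨E, hE⟩ := hd
  obtain ⟨B, hB⟩ := bad_line (piR R) (beR R) (pvec piv)
    (fun i => (hR _).1.mono (by omega)) (fun i => (hR _).2.mono (by omega)) (pvec_jetAt hp) A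
    (E + g + 1)
  refine ⟨2 * E + B + g + 2, fun V => ?_⟩
  obtain ⟨L, hL⟩ := hB V c
  refine ⟨8 * L + c, fun c' hc' d K C δ hK hδ => ?_⟩
  filter_upwards [hE, hL c' hc' d K δ hK hδ, eventually_ge_atTop (max 4 ⌈C⌉₊)]
    with M hE hL hM F s hs hS
  have hM4 : (4 : ℝ) ≤ M := by exact_mod_cast le_of_max_le_left hM
  have hC : C ≤ (M : ℝ) := (Nat.le_ceil C).trans (by exact_mod_cast le_of_max_le_right hM)
  exact hL F hS.bdd (TL g M) (fun t ht => abs_le.1 ht.1) fun l hl x hx t ht _ hψ =>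
    tri_pi_large (fun n => ⟨(hR n).1.jetFn, (hR n).2.jetFn⟩) hS.bdd.smooth hM4 ht.1 ht.2 hs
      (hE b d F K C V s hS hC l hl x hx hψ)

/-- The kinds with `u` small have small measure. -/
theorem kind_small {piv : ℕ → SF} (hp : ∀ n, JetAt 10 (piv n)) (b : Bool) (A c : ℕ)
    (hd : ∃ E : ℕ, ∀ᶠ M : ℕ in atTop, ∀ d (F : (Fin d → ℝ) → E2 → R4) K C V s,
      Setup b F K C A V s M → C ≤ M → ∀ l ∈ cube d, ∀ x ∈ K,
      (∀ j, ((M : ℝ) ^ (c + 1))⁻¹ ≤ |pvec piv j (F l) x|) →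
      ∀ j, DirII rowsD F M E V ((M : ℝ) ^ E * ((M : ℝ) ^ s)⁻¹) l x j) :
    ∃ g₀ s₀ : ℕ, ∀ V : ℕ, ∃ c₀ : ℕ, ∀ c' ≥ c₀, ∀ g ≥ g₀, ∀ (d : ℕ) (K : Set E2) (C δ : ℝ),
      IsCompact K → 0 < δ →
      ∀ᶠ M : ℕ in atTop, ∀ F : (Fin d → ℝ) → E2 → R4, ∀ s ≥ s₀, Setup b F K C A V s M →
        volume (Bad F K (Kind (piR rowsD) (beR rowsD) piv (TS g M) c c' M)) ≤ ENNReal.ofReal δ := by
  obtain ⟨E, hE⟩ := hd
  obtain ⟨B, hB⟩ := bad_line (piR rowsD) (beR rowsD) (pvec piv)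
    (fun i => (rowsD_jetAt _).1.mono (by omega)) (fun i => (rowsD_jetAt _).2.mono (by omega))
    (pvec_jetAt hp) A (E + 1)
  refine ⟨2 * E + B + 2, 2 * E + B + 2, fun V => ?_⟩
  obtain ⟨L, hL⟩ := hB V c
  refine ⟨8 * L + c, fun c' hc' g hg d K C δ hK hδ => ?_⟩
  filter_upwards [hE, hL c' hc' d K δ hK hδ, eventually_ge_atTop (max 4 ⌈C⌉₊)]
    with M hE hL hM F s hs hS
  have hM4 : (4 : ℝ) ≤ M := by exact_mod_cast le_of_max_le_left hM
  have hC : C ≤ (M : ℝ) := (Nat.le_ceil C).trans (by exact_mod_cast le_of_max_le_right hM)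
  exact hL F hS.bdd (TS g M) (fun t ht => abs_le.1 ht.1) fun l hl x hx t ht _ hψ =>
    tri_pi_small rowsD_jetFn hS.bdd.smooth hM4 ht.2 hg hs (hE d F K C V s hS hC l hl x hx hψ)

/-! ### A bad point -/

theorem line_of_det {ι : Type*} [Fintype ι] (p q : ι → ℝ) {ε : ℝ} (hε : 0 < ε)
    (h : ∀ i j, |p i * q j - p j * q i| ≤ ε * ε) :
    (∃ t, |t| ≤ 1 ∧ ∀ i, |q i + t * p i| ≤ ε) ∨ (∃ t, |t| ≤ 1 ∧ ∀ i, |p i + t * q i| ≤ ε) := by
  by_cases hsm : ∀ i, |q i| ≤ ε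
  · exact Or.inl ⟨0, by simp, fun i => by simpa using hsm i⟩
  push Not at hsm
  obtain ⟨i₁, hi₁⟩ := hsm
  obtain ⟨k, -, hk⟩ := Finset.exists_max_image Finset.univ (fun i => max |p i| |q i|)
    ⟨i₁, Finset.mem_univ _⟩
  have hbig : ε < max |p k| |q k| :=
    hi₁.trans_le ((le_max_right _ _).trans (hk i₁ (Finset.mem_univ _)))
  have key : ∀ {a b : ℝ}, ε < |a| → |b| ≤ |a| → ∀ {u v : ℝ}, |a * u - v * b| ≤ ε * ε →
      |u + -(b / a) * v| ≤ ε := by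
    intro a b ha _ u v huv
    have ha0 : a ≠ 0 := abs_pos.1 (hε.trans ha)
    rw [show u + -(b / a) * v = (a * u - v * b) / a by field_simp; ring, abs_div,
      div_le_iff₀ (abs_pos.2 ha0)]
    exact huv.trans (mul_le_mul_of_nonneg_left ha.le hε.le)
  rcases le_total |q k| |p k| with hqp | hpq
  · rw [max_eq_left hqp] at hbig
    refine Or.inl ⟨-(q k / p k), ?_, fun i => key hbig hqp (h k i)⟩
    rw [abs_neg, abs_div]; exact div_le_one_of_le₀ hqp (abs_nonneg _)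
  · rw [max_eq_right hpq] at hbig
    refine Or.inr ⟨-(p k / q k), ?_, fun i => key hbig hpq ?_⟩
    · rw [abs_neg, abs_div]; exact div_le_one_of_le₀ hpq (abs_nonneg _)
    · have := h i k
      rwa [mul_comm (p i), mul_comm (p k)] at this

/-- The functions bounded above at a bad point. -/
theorem point_bounds (A : ℕ) : ∃ E : ℕ, 4 ≤ E ∧ ∀ᶠ M : ℕ in atTop, ∀ f x, ContDiff ℝ ∞ f →
    ‖jet 10 f x‖ ≤ (M : ℝ) ^ A → ‖fxx f x‖ ≤ (M : ℝ) ^ E ∧ ‖fxy f x‖ ≤ (M : ℝ) ^ E ∧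
      |kk f x| ≤ (M : ℝ) ^ E ∧ |DD f x| ≤ (M : ℝ) ^ E ∧ |A10 f x| ≤ (M : ℝ) ^ E ∧
      |A11 f x| ≤ (M : ℝ) ^ E ∧ |(rowsD 0).2 f x| ≤ (M : ℝ) ^ E ∧
      |(rowsK 0).2 f x| ≤ (M : ℝ) ^ E := by
  obtain ⟨E, hE⟩ := poly_bounds ![kk, DD, A10, A11, fun f x => (rowsD 0).2 f x,
      fun f x => (rowsK 0).2 f x]
    (fun i => by
      fin_cases i
      · exact JetAt.kk.mono (by omega)
      · exact JetAt.DD.mono (by omega)
      · exact JetAt.A10.mono (by omega)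
      · exact JetAt.A11.mono (by omega)
      · exact (rowsD_jetAt 0).2.mono (by omega)
      · exact (rowsK_jetAt 0).2.mono (by omega)) A
  refine ⟨E + A + 4, by omega, ?_⟩
  filter_upwards [hE, eventually_ge_atTop 1] with M hE hM f x hf hj
  have h1 : (1 : ℝ) ≤ M := by exact_mod_cast hM
  have hA : (M : ℝ) ^ A ≤ (M : ℝ) ^ (E + A + 4) := pow_le_pow_right₀ h1 (by omega)
  have hEE : (M : ℝ) ^ E ≤ (M : ℝ) ^ (E + A + 4) := pow_le_pow_right₀ h1 (by omega)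
  have hb := hE f f x hf hf hj hj
  refine ⟨((norm_pdm_le_jet hf x (i := 2) (j := 0) (by omega)).trans hj).trans hA,
    ((norm_pdm_le_jet hf x (i := 1) (j := 1) (by omega)).trans hj).trans hA,
    (hb 0).1.trans hEE, (hb 1).1.trans hEE, (hb 2).1.trans hEE, (hb 3).1.trans hEE,
    (hb 4).1.trans hEE, (hb 5).1.trans hEE⟩

/-- Where `N` is not small, all pairs being small gives a point of some kind. -/
theorem point_kind (b : Bool) (A σ : ℕ) : ∃ c g₁ : ℕ, ∀ g ≥ g₁, ∀ c' ≥ g₁, ∃ e : ℕ, ∀ C : ℝ,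
    ∀ᶠ M : ℕ in atTop, ∀ f x, Pt b C A M f x →
      ((M : ℝ) ^ σ)⁻¹ ≤ max |kk f x| |DD f x| → PairsSmall e M f x →
      Kind (beR rowsD) (piR rowsD) pivD (Set.Icc (-1) 1) c c' M f x ∨
      Kind (piR rowsD) (beR rowsD) pivD (TL g M) c c' M f x ∨
      Kind (beR rowsK) (piR rowsK) pivK (Set.Icc (-1) 1) c c' M f x ∨
      Kind (piR rowsK) (beR rowsK) pivK (TL g M) c c' M f x ∨
      Kind (piR rowsD) (beR rowsD) (pivA b) (TS g M) c c' M f x ∨
      (b = true ∧ Kind (piR rowsD) (beR rowsD) pivB (TS g M) c c' M f x) := by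
  obtain ⟨E₀, hE₀, hE⟩ := point_bounds A
  set β := 2 * σ + 2 * E₀ + 2 with hβ
  set δ₀ := 4 + 2 * β with hδ₀
  set τ := 4 * E₀ + δ₀ + 3 * σ + 3 with hτ
  set h := E₀ + 4 * τ + 12 with hh
  refine ⟨10 * (δ₀ + 2 * τ) + 10 * τ + 2 * h, 8 * τ + 2 * E₀ + δ₀ + 3 * σ + 20,
    fun g hg c' hc' => ⟨2 * c' + β + τ + 1, fun C => ?_⟩⟩
  set c := 10 * (δ₀ + 2 * τ) + 10 * τ + 2 * h with hc
  filter_upwards [hE, eventually_ge_atTop (max 16 ⌈C⌉₊)] with M hE hM f x hP hN hpairs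
  have hM16 : (16 : ℝ) ≤ M := by exact_mod_cast le_of_max_le_left hM
  have hM4 : (4 : ℝ) ≤ M := by linarith
  have hM1 : (1 : ℝ) ≤ M := by linarith
  have hM0 : (0 : ℝ) < M := by linarith
  have hC : C ≤ (M : ℝ) := (Nat.le_ceil C).trans (by exact_mod_cast le_of_max_le_right hM)
  obtain ⟨bxx, bxy, bk, bD, b10, b11, bβD, bβK⟩ := hE f x hP.smooth hP.jets
  -- lower bounds
  have hn1 : ((M : ℝ) ^ (σ + E₀ + 1))⁻¹ ≤ ‖nu1 f x‖ := by
    have h1 : max |kk f x| |DD f x| ≤ (M : ℝ) ^ (E₀ + 1) * ‖nu1 f x‖ := by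
      have hM2 : 2 * (M : ℝ) ^ E₀ ≤ (M : ℝ) ^ (E₀ + 1) := by
        rw [pow_succ']; exact mul_le_mul_of_nonneg_right (by linarith) (by positivity)
      refine max_le ?_ ?_
      · exact ((abs_real_inner_le_norm _ _).trans (mul_le_mul_of_nonneg_right bxx (norm_nonneg _))).trans
          (mul_le_mul_of_nonneg_right (pow_le_pow_right₀ hM1 (by omega)) (norm_nonneg _))
      · rw [DD, abs_mul, abs_two]
        calc 2 * |⟪fxy f x, nu1 f x⟫| ≤ 2 * ((M : ℝ) ^ E₀ * ‖nu1 f x‖) :=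
              mul_le_mul_of_nonneg_left ((abs_real_inner_le_norm _ _).trans
                (mul_le_mul_of_nonneg_right bxy (norm_nonneg _))) (by norm_num)
          _ ≤ _ := by rw [← mul_assoc]; exact mul_le_mul_of_nonneg_right hM2 (norm_nonneg _)
    have h2 := hN.trans h1
    rw [mul_comm, ← div_le_iff₀ (by positivity)] at h2
    refine le_trans (le_of_eq ?_) h2
    rw [show σ + E₀ + 1 = σ + (E₀ + 1) by omega, pow_add, mul_inv, div_eq_mul_inv]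
  have hb : ((M : ℝ) ^ β)⁻¹ ≤ |bb f x| := by
    rw [bb_eq, abs_neg, real_inner_self_eq_norm_sq, hβ, show 2 * σ + 2 * E₀ + 2 = (σ + E₀ + 1) * 2 by
      omega, pow_mul, ← inv_pow, abs_pow, abs_norm]
    exact pow_le_pow_left₀ (by positivity) hn1 2
  have hG : ((M : ℝ) ^ 4)⁻¹ ≤ |gdet f x| := by
    refine le_trans ?_ (hP.gdet_ge.trans (le_abs_self _))
    exact inv_anti₀ (pow_pos (lt_of_lt_of_le one_pos hP.one_le) 4)
      (pow_le_pow_left₀ (by linarith [hP.one_le]) hC 4)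
  have hDel : ((M : ℝ) ^ δ₀)⁻¹ ≤ |Del f x| := by
    rw [Del, hδ₀]; exact big_mul hM0 hG (by rw [mul_comm]; exact big_pow hM0 hb 2)
  have hbc : ((M : ℝ) ^ c)⁻¹ ≤ |bb f x| := big_mono hM1 (by omega) hb
  have mkKind : ∀ {φ φ' : Fin 4 → SF} {piv : ℕ → SF} {T : Set ℝ} {t : ℝ}, t ∈ T →
      (∀ i, |φ i f x + t * φ' i f x| ≤ ((M : ℝ) ^ c')⁻¹) →
      (∀ n, 1 ≤ n → n ≤ 4 → ((M : ℝ) ^ c)⁻¹ ≤ |piv n f x|) → Kind φ φ' piv T c c' M f x :=
    fun {φ φ' piv T t} ht h1 h2 => ⟨t, ht, h1, fun j => by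
      refine Fin.cases ?_ (fun i => ?_) j
      · exact hbc
      · exact h2 _ (by omega) (by have := i.isLt; omega)⟩
  -- the line
  have hdet : ∀ (u : ℝ) (R : ℕ → SF × SF), ((M : ℝ) ^ τ)⁻¹ ≤ |u| →
      (∀ m ≤ 4, ∀ n ≤ 4, |bb f x * (u * ((R m).1 f x * (R n).2 f x - (R n).1 f x * (R m).2 f x))| ≤
        ((M : ℝ) ^ (2 * c' + β + τ + 1))⁻¹) →
      (∃ t, |t| ≤ 1 ∧ ∀ i : Fin 5, |(R i).2 f x + t * (R i).1 f x| ≤ ((M : ℝ) ^ c')⁻¹) ∨
      (∃ t, |t| ≤ 1 ∧ ∀ i : Fin 5, |(R i).1 f x + t * (R i).2 f x| ≤ ((M : ℝ) ^ c')⁻¹) := by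
    intro u R hu hp
    refine line_of_det (fun i : Fin 5 => (R i).1 f x) (fun i => (R i).2 f x) (by positivity)
      fun i j => ?_
    have h1 := hp i (by have := i.isLt; omega) j (by have := j.isLt; omega)
    rw [← mul_assoc, abs_mul] at h1
    have h2 := mul_le_mul_of_nonneg_right (big_mul hM0 hb hu)
      (abs_nonneg ((R i).1 f x * (R j).2 f x - (R j).1 f x * (R i).2 f x))
    have h3 := h2.trans h1
    rw [inv_mul_le_iff₀ (by positivity)] at h3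
    refine h3.trans ((pow_mul_inv_le hM4 (r := 2 * c') (by omega)).trans_eq ?_)
    rw [two_mul, pow_add, mul_inv]
  by_cases hD : ((M : ℝ) ^ τ)⁻¹ ≤ |DD f x|
  · -- chart D
    have hpD : ((M : ℝ) ^ (δ₀ + (τ + τ)))⁻¹ ≤ |pD f x| := big_mul hM0 hDel (big_mul hM0 hD hD)
    have hpiv : ∀ n, 1 ≤ n → n ≤ 4 → ((M : ℝ) ^ c)⁻¹ ≤ |pivD n f x| := fun n _ hn =>
      big_mono hM1 (by
        calc (δ₀ + (τ + τ)) * (2 * n + 1) ≤ (δ₀ + (τ + τ)) * 9 := Nat.mul_le_mul_left _ (by omega)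
          _ ≤ c := by omega) (big_pow hM0 hpD _)
    rcases hdet (DD f x) rowsD hD (fun m hm n hn => (hpairs m hm n hn).1) with
      ⟨t, ht, hl⟩ | ⟨t, ht, hl⟩
    · exact Or.inl (mkKind (t := t) (abs_le.1 ht) (fun i => hl i.succ) hpiv)
    by_cases htg : ((M : ℝ) ^ g)⁻¹ ≤ |t|
    · exact Or.inr (Or.inl (mkKind (t := t) ⟨ht, htg⟩ (fun i => hl i.succ) hpiv))
    have htS : t ∈ TS g M := ⟨ht, (not_le.1 htg).le⟩
    have hpow : ∀ n, n ≤ 4 → ((M : ℝ) ^ (8 * (δ₀ + (τ + τ))))⁻¹ ≤ |pD f x ^ (2 * n)| := fun n hn =>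
      big_mono hM1 (by
        calc (δ₀ + (τ + τ)) * (2 * n) ≤ (δ₀ + (τ + τ)) * 8 := Nat.mul_le_mul_left _ (by omega)
          _ ≤ _ := by omega) (big_pow hM0 hpD _)
    right; right; right; right
    cases b with
    | false =>
      refine Or.inl (mkKind htS (fun i => hl i.succ) fun n _ hn => ?_)
      exact big_mono hM1 (show 8 * (δ₀ + (τ + τ)) + (τ + (4 + β + (τ + τ))) ≤ c by omega)
        (big_mul hM0 (hpow n hn) (big_mul hM0 hD (big_mul hM0 (big_mul hM0 hG hb)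
          (big_mul hM0 hD hD))))
    | true =>
      by_cases hQ : ((M : ℝ) ^ h)⁻¹ ≤ |Qp f x|
      · exact Or.inl (mkKind htS (fun i => hl i.succ) fun n _ hn =>
          big_mono hM1 (show 8 * (δ₀ + (τ + τ)) + (τ + h) ≤ c by omega)
            (big_mul hM0 (hpow n hn) (big_mul hM0 hD hQ)))
      refine Or.inr ⟨rfl, mkKind htS (fun i => hl i.succ) fun n _ hn => ?_⟩
      have hQb : |Qb f x| ≤ ((M : ℝ) ^ (4 * τ + 11))⁻¹ := by
        have h0 := hl 0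
        have h1 : |(rowsD 0).1 f x| ≤ ((M : ℝ) ^ (5 * τ + 12))⁻¹ := by
          have h2 : |t * (rowsD 0).2 f x| ≤ ((M : ℝ) ^ (5 * τ + 13))⁻¹ := by
            rw [abs_mul]
            refine (mul_le_mul (not_le.1 htg).le bβD (abs_nonneg _) (by positivity)).trans ?_
            rw [mul_comm]
            exact pow_mul_inv_le hM4 (by omega)
          have := four_inv_le hM4 (show 5 * τ + 12 + 1 ≤ 5 * τ + 13 by omega)
          have := inv_pow_le hM4 (show 5 * τ + 13 ≤ c' by omega)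
          have := abs_le.1 h2
          have := abs_le.1 h0
          have : 0 ≤ ((M : ℝ) ^ (5 * τ + 13))⁻¹ := by positivity
          simp only [Fin.val_zero] at *
          rw [abs_le]; constructor <;> linarith
        have h3 : ((M : ℝ) ^ τ)⁻¹ * |Qb f x| ≤ ((M : ℝ) ^ (5 * τ + 12))⁻¹ := by
          refine (mul_le_mul_of_nonneg_right hD (abs_nonneg _)).trans (le_trans (le_of_eq ?_) h1)
          rw [← abs_mul, ← abs_neg]; rfl
        rw [inv_mul_le_iff₀ (by positivity)] at h3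
        exact h3.trans (pow_mul_inv_le hM4 (by omega))
      have hkQ : |kk f x * Qp f x| ≤ ((M : ℝ) ^ (4 * τ + 11))⁻¹ := by
        rw [abs_mul]
        exact (mul_le_mul bk (not_le.1 hQ).le (abs_nonneg _) (by positivity)).trans
          (pow_mul_inv_le hM4 (by omega))
      have hbig : ((M : ℝ) ^ (4 * τ + 8))⁻¹ ≤
          gdet f x * gdet f x * (DD f x * DD f x * (DD f x * DD f x)) := by
        have h1 := big_mul hM0 (big_mul hM0 hG hG) (big_mul hM0 (big_mul hM0 hD hD) (big_mul hM0 hD hD))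
        rw [abs_of_nonneg (mul_nonneg (mul_self_nonneg _) (mul_self_nonneg _))] at h1
        exact big_mono hM1 (by omega) h1
      have hbr : ((M : ℝ) ^ (4 * τ + 9))⁻¹ ≤ |brB n f x| := by
        have := four_inv_le hM4 (show 4 * τ + 8 + 1 ≤ 4 * τ + 9 by omega)
        have := four_inv_le hM4 (show 4 * τ + 9 + 1 ≤ 4 * τ + 10 by omega)
        have := four_inv_le hM4 (show 4 * τ + 10 + 1 ≤ 4 * τ + 11 by omega)
        have hQb' := abs_le.1 hQb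
        have hn' : ((n : ℝ) + 2) ≤ 6 := by
          have : (n : ℝ) ≤ 4 := by exact_mod_cast hn
          linarith
        have hk' : |((n : ℝ) + 2) * (kk f x * Qp f x)| ≤ 6 * ((M : ℝ) ^ (4 * τ + 11))⁻¹ := by
          rw [abs_mul, abs_of_pos (by positivity : (0 : ℝ) < (n : ℝ) + 2)]
          exact mul_le_mul hn' hkQ (abs_nonneg _) (by norm_num)
        have := abs_le.1 hk'
        have : 0 ≤ ((M : ℝ) ^ (4 * τ + 11))⁻¹ := by positivity
        rw [le_abs]; right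
        simp only [brB]
        linarith
      exact big_mono hM1 (show 8 * (δ₀ + (τ + τ)) + (4 * τ + 9) ≤ c by omega)
        (big_mul hM0 (hpow n hn) hbr)
  · -- chart k
    have hD' : |DD f x| ≤ ((M : ℝ) ^ τ)⁻¹ := (not_le.1 hD).le
    have hkσ : ((M : ℝ) ^ σ)⁻¹ ≤ |kk f x| := by
      rcases le_max_iff.1 hN with h | h
      · exact h
      · have := inv_pow_le hM4 (show σ + 1 ≤ τ by omega)
        have := four_inv_le hM4 (show σ + 1 ≤ σ + 1 by omega)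
        have : 0 < ((M : ℝ) ^ σ)⁻¹ := by positivity
        linarith
    have hp : ((M : ℝ) ^ (δ₀ + (σ + σ)))⁻¹ ≤ |Del f x * (kk f x * kk f x)| :=
      big_mul hM0 hDel (big_mul hM0 hkσ hkσ)
    set r := δ₀ + (σ + σ) with hr
    have smallD : ∀ {u v : ℝ}, |u| ≤ (M : ℝ) ^ E₀ → |v| ≤ (M : ℝ) ^ E₀ →
        |DD f x * (u * v)| ≤ ((M : ℝ) ^ (r + 3))⁻¹ := fun {u v} hu hv => by
      rw [abs_mul, abs_mul]
      refine (mul_le_mul hD' (mul_le_mul hu hv (abs_nonneg _) (by positivity)) (by positivity)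
        (by positivity)).trans ?_
      rw [← pow_add, mul_comm]
      exact pow_mul_inv_le hM4 (by omega)
    have s1 := abs_le.1 (smallD b10 bD)
    have s2 := abs_le.1 (smallD b11 bk)
    have f1 := four_inv_le hM4 (show r + 1 ≤ r + 1 by omega)
    have f2 := four_inv_le hM4 (show r + 1 + 1 ≤ r + 2 by omega)
    have f3 := four_inv_le hM4 (show r + 2 + 1 ≤ r + 3 by omega)
    have hz : 0 ≤ ((M : ℝ) ^ (r + 3))⁻¹ := by positivity
    have hbrK : ∀ n ≤ 4, ((M : ℝ) ^ (r + 1))⁻¹ ≤ |brK n f x| := fun n hn => by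
      have hn' : (n : ℝ) ≤ 4 := by exact_mod_cast hn
      have t1 : |(n : ℝ) * (DD f x * (A10 f x * DD f x - A11 f x * kk f x))| ≤
          4 * (2 * ((M : ℝ) ^ (r + 3))⁻¹) := by
        rw [abs_mul, abs_of_nonneg (Nat.cast_nonneg n)]
        refine mul_le_mul hn' ?_ (abs_nonneg _) (by norm_num)
        rw [mul_sub]
        exact (abs_sub _ _).trans (by linarith [smallD b10 bD, smallD b11 bk])
      have t1' := abs_le.1 t1
      have := abs_sub_abs_le_abs_sub (-2 * (Del f x * (kk f x * kk f x))) (A10 f x * (DD f x * DD f x)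
        - (n : ℝ) * (DD f x * (A10 f x * DD f x - A11 f x * kk f x)))
      rw [← sub_add, abs_mul, abs_neg, abs_two] at this
      have : |A10 f x * (DD f x * DD f x)
          - (n : ℝ) * (DD f x * (A10 f x * DD f x - A11 f x * kk f x))| ≤ 12 * ((M : ℝ) ^ (r + 3))⁻¹ := by
        rw [abs_le]; constructor <;> linarith
      simp only [brK]
      linarith
    have hQb : ((M : ℝ) ^ (r + 1))⁻¹ ≤ |Qb f x| := by
      have e : Qb f x = Del f x * (kk f x * kk f x)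
          - (DD f x * (A11 f x * kk f x) - DD f x * (A10 f x * DD f x)) := by rw [Qb]; ring
      have := abs_sub_abs_le_abs_sub (Del f x * (kk f x * kk f x))
        (DD f x * (A11 f x * kk f x) - DD f x * (A10 f x * DD f x))
      rw [← e] at this
      have := (abs_sub (DD f x * (A11 f x * kk f x)) (DD f x * (A10 f x * DD f x))).trans
        (add_le_add (smallD b11 bk) (smallD b10 bD))
      linarith
    have hpiv : ∀ n, 1 ≤ n → n ≤ 4 → ((M : ℝ) ^ c)⁻¹ ≤ |pivK n f x| := fun n _ hn =>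
      big_mono hM1 (by
        calc r * (2 * n) + (r + 1) ≤ r * 8 + (r + 1) :=
              Nat.add_le_add_right (Nat.mul_le_mul_left _ (by omega)) _
          _ ≤ c := by omega) (big_mul hM0 (big_pow hM0 hp _) (hbrK n hn))
    rcases hdet (kk f x) rowsK (big_mono hM1 (by omega) hkσ) (fun m hm n hn => (hpairs m hm n hn).2) with
      ⟨t, ht, hl⟩ | ⟨t, ht, hl⟩
    · exact Or.inr (Or.inr (Or.inl (mkKind (t := t) (abs_le.1 ht) (fun i => hl i.succ) hpiv)))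
    by_cases htg : ((M : ℝ) ^ g)⁻¹ ≤ |t|
    · exact Or.inr (Or.inr (Or.inr (Or.inl
        (mkKind (t := t) ⟨ht, htg⟩ (fun i => hl i.succ) hpiv))))
    exfalso
    have h0 : |piK f x + t * (rowsK 0).2 f x| ≤ ((M : ℝ) ^ c')⁻¹ := hl 0
    have h1 : ((M : ℝ) ^ (σ + (r + 1)))⁻¹ ≤ |piK f x| := big_mul hM0 hkσ hQb
    have h2 : |t * (rowsK 0).2 f x| ≤ ((M : ℝ) ^ (σ + r + 3))⁻¹ := by
      rw [abs_mul]
      refine (mul_le_mul (not_le.1 htg).le bβK (abs_nonneg _) (by positivity)).trans ?_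
      rw [mul_comm]
      exact pow_mul_inv_le hM4 (by omega)
    have := inv_pow_le hM4 (show σ + r + 3 ≤ c' by omega)
    have := four_inv_le hM4 (show σ + (r + 1) + 1 ≤ σ + r + 3 by omega)
    have := abs_sub_abs_le_abs_sub (piK f x) (-(t * (rowsK 0).2 f x))
    rw [abs_neg, sub_neg_eq_add] at this
    have : 0 < ((M : ℝ) ^ (σ + r + 3))⁻¹ := by positivity
    linarith

/-- `N` NOT SMALL: some pair of rows is not small, outside a small set of parameters. -/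
theorem g1Stmt (b : Bool) : G1Stmt b := by
  intro A σ
  obtain ⟨c, g₁, hpt⟩ := point_kind b A σ
  obtain ⟨gA, sA, hA⟩ := kind_small (pivA_jetAt b) b A c (dirII_A b A (c + 1))
  have hB' : ∃ gB sB : ℕ, ∀ V : ℕ, ∃ c₀ : ℕ, ∀ c' ≥ c₀, ∀ g ≥ gB, ∀ (d : ℕ) (K : Set E2) (C δ : ℝ),
      IsCompact K → 0 < δ → b = true →
      ∀ᶠ M : ℕ in atTop, ∀ F : (Fin d → ℝ) → E2 → R4, ∀ s ≥ sB, Setup b F K C A V s M →
        volume (Bad F K (Kind (piR rowsD) (beR rowsD) pivB (TS g M) c c' M)) ≤ ENNReal.ofReal δ := by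
    cases b with
    | false => exact ⟨0, 0, fun V => ⟨0, fun _ _ _ _ _ _ _ _ _ _ h => Bool.noConfusion h⟩⟩
    | true =>
      obtain ⟨gB, sB, hB⟩ := kind_small pivB_jetAt true A c (dirII_B A (c + 1))
      exact ⟨gB, sB, fun V => (hB V).imp fun c₀ h c' hc' g hg d K C δ hK hδ _ =>
        h c' hc' g hg d K C δ hK hδ⟩
  obtain ⟨gB, sB, hB⟩ := hB'
  set g := g₁ + gA + gB with hg
  obtain ⟨s₁, h₁⟩ := kind_beta rowsD_jetAt pivD_jetAt b A c (dirI_D A (c + 1))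
  obtain ⟨s₂, h₂⟩ := kind_pi rowsD_jetAt pivD_jetAt b A c g (dirI_D A (c + 1))
  obtain ⟨s₃, h₃⟩ := kind_beta rowsK_jetAt pivK_jetAt b A c (dirI_K A (c + 1))
  obtain ⟨s₄, h₄⟩ := kind_pi rowsK_jetAt pivK_jetAt b A c g (dirI_K A (c + 1))
  refine ⟨s₁ + s₂ + s₃ + s₄ + sA + sB, fun V => ?_⟩
  obtain ⟨c₁, h₁⟩ := h₁ V
  obtain ⟨c₂, h₂⟩ := h₂ V
  obtain ⟨c₃, h₃⟩ := h₃ V
  obtain ⟨c₄, h₄⟩ := h₄ V
  obtain ⟨c₅, hA⟩ := hA V
  obtain ⟨c₆, hB⟩ := hB V
  set c' := g₁ + c₁ + c₂ + c₃ + c₄ + c₅ + c₆ with hc'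
  obtain ⟨e, hpt⟩ := hpt g (by omega) c' (by omega)
  refine ⟨e, fun d K C δ hK hδ => ?_⟩
  have hδ' : 0 < δ / 6 := by positivity
  have hB6 : ∀ᶠ M : ℕ in atTop, b = true → ∀ F : (Fin d → ℝ) → E2 → R4, ∀ s ≥ sB,
      Setup b F K C A V s M →
      volume (Bad F K (Kind (piR rowsD) (beR rowsD) pivB (TS g M) c c' M)) ≤
        ENNReal.ofReal (δ / 6) := by
    by_cases hb : b = true
    · exact (hB c' (by omega) g (by omega) d K C _ hK hδ' hb).mono fun M h _ => h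
    · exact Eventually.of_forall fun M h => absurd h hb
  filter_upwards [hpt C, h₁ c' (by omega) d K C _ hK hδ', h₂ c' (by omega) d K C _ hK hδ',
    h₃ c' (by omega) d K C _ hK hδ', h₄ c' (by omega) d K C _ hK hδ',
    hA c' (by omega) g (by omega) d K C _ hK hδ', hB6] with M hpt v₁ v₂ v₃ v₄ v₅ v₆ F hS
  set P₁ := Kind (beR rowsD) (piR rowsD) pivD (Set.Icc (-1) 1) c c' M
  set P₂ := Kind (piR rowsD) (beR rowsD) pivD (TL g M) c c' M
  set P₃ := Kind (beR rowsK) (piR rowsK) pivK (Set.Icc (-1) 1) c c' M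
  set P₄ := Kind (piR rowsK) (beR rowsK) pivK (TL g M) c c' M
  set P₅ := Kind (piR rowsD) (beR rowsD) (pivA b) (TS g M) c c' M
  set P₆ : (E2 → R4) → E2 → Prop := fun f x =>
    b = true ∧ Kind (piR rowsD) (beR rowsD) pivB (TS g M) c c' M f x
  have w₆ : volume (Bad F K P₆) ≤ ENNReal.ofReal (δ / 6) := by
    cases b with
    | true =>
      refine (measure_mono ?_).trans (v₆ rfl F _ (by omega) hS)
      rintro l ⟨hl, x, hx, -, h⟩; exact ⟨hl, x, hx, h⟩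
    | false =>
      have : Bad F K P₆ = ∅ := Set.eq_empty_iff_forall_notMem.2 fun l ⟨_, _, _, h, _⟩ =>
        Bool.noConfusion h
      rw [this, measure_empty]; exact zero_le
  have hcov : Bad F K (fun f x => ((M : ℝ) ^ σ)⁻¹ ≤ max |kk f x| |DD f x| ∧ PairsSmall e M f x) ⊆
      Bad F K P₁ ∪ Bad F K P₂ ∪ Bad F K P₃ ∪ Bad F K P₄ ∪ Bad F K P₅ ∪ Bad F K P₆ := by
    rintro l ⟨hl, x, hx, hN, hp⟩
    simp only [Set.mem_union, or_assoc]
    rcases hpt (F l) x (hS.pt l hl x hx) hN hp with h | h | h | h | h | h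
    · exact Or.inl ⟨hl, x, hx, h⟩
    · exact Or.inr (Or.inl ⟨hl, x, hx, h⟩)
    · exact Or.inr (Or.inr (Or.inl ⟨hl, x, hx, h⟩))
    · exact Or.inr (Or.inr (Or.inr (Or.inl ⟨hl, x, hx, h⟩)))
    · exact Or.inr (Or.inr (Or.inr (Or.inr (Or.inl ⟨hl, x, hx, h⟩))))
    · exact Or.inr (Or.inr (Or.inr (Or.inr (Or.inr ⟨hl, x, hx, h⟩))))
  refine ((measure_mono (μ := volume) hcov).trans ?_).trans_eq
    (show ENNReal.ofReal (δ / 6) + ENNReal.ofReal (δ / 6) + ENNReal.ofReal (δ / 6)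
      + ENNReal.ofReal (δ / 6) + ENNReal.ofReal (δ / 6) + ENNReal.ofReal (δ / 6) =
        ENNReal.ofReal δ by
      rw [← ENNReal.ofReal_add, ← ENNReal.ofReal_add, ← ENNReal.ofReal_add, ← ENNReal.ofReal_add,
        ← ENNReal.ofReal_add] <;> first | positivity | (congr 1; ring))
  refine (measure_union_le _ _).trans (add_le_add ((measure_union_le _ _).trans (add_le_add
    ((measure_union_le _ _).trans (add_le_add ((measure_union_le _ _).trans (add_le_add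
      ((measure_union_le _ _).trans (add_le_add (v₁ F _ (by omega) hS) (v₂ F _ (by omega) hS)))
      (v₃ F _ (by omega) hS))) (v₄ F _ (by omega) hS))) (v₅ F _ (by omega) hS))) w₆)

end Vale.Agent.P205F
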