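import Vale.Agent.P205F.GoodProb.CaseA

/-!
# P205, GoodProb: the top jets of a fine direction

A fine direction of order `m` is its prescribed monomial up to `M^E ζ`: the tangential components
of the top jets follow from the linearised metric, the `ν₁` component is prescribed, the other
normal component is prescribed (exact modulo `ν²`) or follows from the two absorber jets and Gauss'
equation (final twist).
-/

namespace Vale.Agent.P205F

open scoped ContDiff RealInnerProductSpace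
open Filter

/-- The forced top jet `x^m` that comes with a prescribed `x^(m-1) y`. -/
noncomputable def absSig (b : Bool) (f : E2 → R4) (x : E2) (τ : R4) : R4 :=
  (if b then 2 * ⟪fxy f x, τ⟫ / bb f x else 0) • nu2 f x

namespace G1Top

variable {f w : E2 → R4} {x : E2}

theorem pdm_add {X : Type*} [NormedAddCommGroup X] [NormedSpace ℝ X] {u v : E2 → X}
    (hu : ContDiff ℝ ∞ u) (hv : ContDiff ℝ ∞ v) (i j : ℕ) :
    pdm i j (fun z => u z + v z) = fun z => pdm i j u z + pdm i j v z := by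
  induction i with
  | zero =>
    induction j with
    | zero => rfl
    | succ j ih =>
      funext z
      rw [← pd1_pdm (hu.add hv), ih, ← pd1_pdm hu, ← pd1_pdm hv,
        pd_add (contDiff_pdm hu 0 j) (contDiff_pdm hv 0 j)]
  | succ i ih =>
    funext z
    rw [← pd0_pdm, ih, ← pd0_pdm, ← pd0_pdm, pd_add (contDiff_pdm hu i j) (contDiff_pdm hv i j)]

theorem pdm_const_mul (c : ℝ) {u : E2 → ℝ} (hu : ContDiff ℝ ∞ u) (i j : ℕ) :
    pdm i j (fun z => c * u z) = fun z => c * pdm i j u z := by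
  induction i with
  | zero =>
    induction j with
    | zero => rfl
    | succ j ih =>
      funext z
      rw [← pd1_pdm (contDiff_const.mul hu), ih, ← pd1_pdm hu, pd_const_mul c (contDiff_pdm hu 0 j)]
  | succ i ih =>
    funext z
    rw [← pd0_pdm, ih, ← pd0_pdm, pd_const_mul c (contDiff_pdm hu i j)]

theorem pdm_pdm {X : Type*} [NormedAddCommGroup X] [NormedSpace ℝ X] {u : E2 → X}
    (hu : ContDiff ℝ ∞ u) (i j p q : ℕ) : pdm i j (pdm p q u) = pdm (i + p) (j + q) u := by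
  induction i with
  | zero =>
    induction j with
    | zero => simp only [Nat.zero_add]; rfl
    | succ j ih =>
      rw [← pd1_pdm (contDiff_pdm hu p q), ih, pd1_pdm hu]
      congr 1
      omega
  | succ i ih =>
    rw [← pd0_pdm, ih, pd0_pdm]
    congr 1
    omega

theorem van_pd {n : ℕ} (h : Van (n + 1) w x) (hw : ContDiff ℝ ∞ w) (i : Fin 2) :
    Van n (pd i w) x := fun a c hac => by
  obtain rfl | rfl : i = 0 ∨ i = 1 := by omega
  · rw [pdm_pd0 hw]; exact h _ _ (by omega)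
  · rw [pdm_pd1]; exact h _ _ (by omega)

/-- The top part of the variation of an iterated derivative. -/
theorem var_pdm_top {N : ℕ} {c : SF} (hc : JetAt N c) (hf : ContDiff ℝ ∞ f) : ∀ (i j : ℕ)
    {n : ℕ} {u : E2 → R4}, ContDiff ℝ ∞ u → Van n u x → N + (i + j) ≤ n →
    var (fun f x => pdm i j (c f) x) f u x = var c f (pdm i j u) x := by
  intro i
  induction i with
  | zero =>
    intro j
    induction j with
    | zero => intros; rfl
    | succ j ih =>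
      intro n u hu hv hn
      obtain ⟨k, rfl⟩ : ∃ k, n = k + 1 := ⟨n - 1, by omega⟩
      rw [var_congr (d := fun f x => pd 1 (fun z => pdm 0 j (c f) z) x)
        (fun g y hg => by rw [← pd1_pdm (hc.smooth hg)]) hf hu,
        var_pd_top (hc.pdm 0 j) hf hu hv (by omega) 1,
        ih (contDiff_pd hu 1) (van_pd hv hu 1) (by omega), pdm_pd1]
  | succ i ih =>
    intro j n u hu hv hn
    obtain ⟨k, rfl⟩ : ∃ k, n = k + 1 := ⟨n - 1, by omega⟩
    rw [var_congr (d := fun f x => pd 0 (fun z => pdm i j (c f) z) x)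
      (fun g y _ => by rw [← pd0_pdm]) hf hu,
      var_pd_top (hc.pdm i j) hf hu hv (by omega) 0,
      ih j (contDiff_pd hu 0) (van_pd hv hu 0) (by omega), pdm_pd0 hu]

/-- A map with prescribed jets of one order at a point. -/
theorem exists_top (x : E2) (m : ℕ) (J : ℕ → R4) : ∃ u : E2 → R4, ContDiff ℝ ∞ u ∧
    ∀ i j, pdm i j u x = if i + j = m then J i else 0 := by
  suffices h : ∀ k, ∃ u : E2 → R4, ContDiff ℝ ∞ u ∧
      ∀ i j, pdm i j u x = if i + j = m ∧ i < k then J i else 0 by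
    obtain ⟨u, hu, e⟩ := h (m + 1)
    refine ⟨u, hu, fun i j => (e i j).trans ?_⟩
    exact if_congr ⟨fun h => h.1, fun h => ⟨h, by omega⟩⟩ rfl rfl
  intro k
  induction k with
  | zero => exact ⟨0, contDiff_const, fun i j => by simp [pdm_zero]⟩
  | succ k ih =>
    obtain ⟨u, hu, e⟩ := ih
    by_cases hk : k ≤ m
    · refine ⟨fun z => u z + mono x k (m - k) (J k) z, hu.add (contDiff_mono _ _ _ _), fun i j => ?_⟩
      rw [congrFun (pdm_add hu (contDiff_mono _ _ _ _) i j) x, e, pdm_mono]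
      by_cases hi : i = k ∧ j = m - k
      · obtain ⟨rfl, rfl⟩ := hi
        rw [if_neg (by omega), if_pos ⟨rfl, rfl⟩, if_pos (by omega), zero_add]
      · rw [if_neg hi, add_zero]
        exact if_congr ⟨fun h => ⟨h.1, by omega⟩, fun h => ⟨h.1, by omega⟩⟩ rfl rfl
    · exact ⟨u, hu, fun i j => (e i j).trans
        (if_congr ⟨fun h => ⟨h.1, by omega⟩, fun h => ⟨h.1, by omega⟩⟩ rfl rfl)⟩

/-- The variation of Gauss' expression at a map. -/
theorem var_gaussE (hf : ContDiff ℝ ∞ f) (hw : ContDiff ℝ ∞ w) : var gaussE f w x =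
    ⟪fxx w x, fyy f x⟫ + ⟪fxx f x, fyy w x⟫ - 2 * ⟪fxy f x, fxy w x⟫ := by
  obtain ⟨a, b, c⟩ := var_second (x := x) hf hw
  unfold gaussE
  rw [var_sub (JetFn.fxx.inner JetFn.fyy) (JetFn.fxy.inner JetFn.fxy) hf hw,
    var_inner JetFn.fxx JetFn.fyy hf hw, var_inner JetFn.fxy JetFn.fxy hf hw, a, b, c,
    real_inner_comm (fxy f x) (fxy w x)]
  ring

/-- Gauss' expression differentiated, in derivatives of the metric. -/
theorem pdm_gaussE (hf : ContDiff ℝ ∞ f) (a c : ℕ) (x : E2) : pdm a c (gaussE f) x =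
    (-1 / 2) * pdm a (c + 2) (mk3 0 f) x + pdm (a + 1) (c + 1) (mk3 1 f) x
      + (-1 / 2) * pdm (a + 2) c (mk3 2 f) x := by
  have s := fun k : Fin 3 => (JetAt.mk3 k).smooth hf
  have p := fun k i j => contDiff_pdm (s k) i j
  have e : gaussE f = fun z => (-1 / 2) * pdm 0 2 (mk3 0 f) z + pdm 1 1 (mk3 1 f) z
      + (-1 / 2) * pdm 2 0 (mk3 2 f) z := funext fun z => by rw [gaussE_eq hf]; ring
  rw [e, pdm_add ((contDiff_const.mul (p 0 0 2)).add (p 1 1 1)) (contDiff_const.mul (p 2 2 0)),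
    pdm_add (contDiff_const.mul (p 0 0 2)) (p 1 1 1), pdm_const_mul _ (p 0 0 2),
    pdm_const_mul _ (p 2 2 0), pdm_pdm (s 0), pdm_pdm (s 1), pdm_pdm (s 2)]
  simp only [Nat.add_zero]

/-- The top jets see the linearised metric and Gauss' equation. -/
theorem top_eqs (A : ℕ) : ∃ E : ℕ, ∀ᶠ M : ℕ in atTop, ∀ f w x m, ∀ ζ : ℝ,
    ContDiff ℝ ∞ f → ContDiff ℝ ∞ w → ‖jet 10 f x‖ ≤ (M : ℝ) ^ A → m ≤ 8 → 0 ≤ ζ →
    (∀ i j, i + j < m → ‖pdm i j w x‖ ≤ ζ) →
    (∀ i j, i + j + 1 ≤ m → ‖pdm i j (Lin f w) x‖ ≤ ζ) →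
    (∀ a, a + 1 ≤ m →
      |⟪pd 0 f x, pdm (a + 1) (m - (a + 1)) w x⟫| ≤ (M : ℝ) ^ E * ζ ∧
      |⟪pd 0 f x, pdm a (m - a) w x⟫ + ⟪pd 1 f x, pdm (a + 1) (m - (a + 1)) w x⟫|
        ≤ (M : ℝ) ^ E * ζ ∧
      |⟪pd 1 f x, pdm a (m - a) w x⟫| ≤ (M : ℝ) ^ E * ζ) ∧
    ((∀ i, i ≤ m → ‖pdm i (m - i) (Lin f w) x‖ ≤ ζ) → ∀ a, a + 2 ≤ m →
      |⟪pdm (a + 2) (m - (a + 2)) w x, fyy f x⟫ + ⟪fxx f x, pdm a (m - a) w x⟫
        - 2 * ⟪fxy f x, pdm (a + 1) (m - (a + 1)) w x⟫| ≤ (M : ℝ) ^ E * ζ) := by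
  choose E₁ h₁ using fun q : Fin 9 × Fin 9 × Fin 3 =>
    ((JetAt.mk3 q.2.2).pdm q.1 q.2.1).bound A
  choose E₂ h₂ using fun q : Fin 9 × Fin 9 => (JetAt.gaussE.pdm q.1 q.2).bound A
  set W := Finset.univ.sup E₁ + Finset.univ.sup E₂ with hW
  refine ⟨W + 1, ?_⟩
  filter_upwards [eventually_all.2 h₁, eventually_all.2 h₂, eventually_ge_atTop 512]
    with M h₁ h₂ hM f w x m ζ hf hw hj hm hζ hlow hlin
  have hM' : (512 : ℝ) ≤ M := by exact_mod_cast hM
  have hM1 : (1 : ℝ) ≤ M := by linarith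
  obtain ⟨u, hu, hue⟩ := exists_top x m fun i => pdm i (m - i) w x
  have hv : Van m u x := fun i j h => (hue i j).trans (if_neg (by omega))
  have htop : ∀ {i j}, i + j = m → pdm i j u x = pdm i (m - i) w x := fun h =>
    (hue _ _).trans (if_pos h)
  have hd : ∀ N, N ≤ m → ‖jet N w x - jet N u x‖ ≤ 256 * ζ := fun N hN => by
    refine (norm_jet_sub_le hw hu hζ fun i j hij => ?_).trans
      (mul_le_mul_of_nonneg_right ((pow_le_pow_right₀ (by norm_num) (by omega : N ≤ 8)).trans_eq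
        (by norm_num)) hζ)
    by_cases h : i + j < m
    · rw [hv i j h, sub_zero]; exact hlow i j h
    · rw [htop (show i + j = m by omega), show j = m - i by omega, sub_self, norm_zero]; exact hζ
  have hpow : ∀ {E : ℕ}, E ≤ W → (M : ℝ) ^ E * (256 * ζ) + 2 * ζ ≤ (M : ℝ) ^ (W + 1) * ζ := by
    intro E hE
    have h1 := pow_le_pow_right₀ hM1 hE
    have h2 : 1 ≤ (M : ℝ) ^ W := one_le_pow₀ hM1
    calc (M : ℝ) ^ E * (256 * ζ) + 2 * ζ ≤ (M : ℝ) ^ W * (258 * ζ) := by nlinarith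
      _ ≤ _ := by rw [pow_succ, mul_assoc]; gcongr; linarith
  refine ⟨fun a ha => ?_, fun hT a ha => ?_⟩
  · set c := m - (a + 1) with hc
    have key : ∀ k, |Lin f (pdm a c u) x k| ≤ (M : ℝ) ^ (W + 1) * ζ := fun k => by
      have hN : 1 + (a + c) ≤ m := by omega
      obtain ⟨-, -, hb⟩ := h₁ (⟨a, by omega⟩, ⟨c, by omega⟩, k) f x hf
        ((norm_jet_mono (by show 1 + (a + c) ≤ 10; omega) f x).trans hj)
      have h' : ‖_‖ ≤ _ := (hb u w hu hw).trans (mul_le_mul_of_nonneg_left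
        ((norm_sub_rev _ _).trans_le (hd _ hN)) (by positivity))
      rw [Real.norm_eq_abs] at h'
      change |var (fun f x => pdm a c (mk3 k f) x) f u x - var (fun f x => pdm a c (mk3 k f) x) f w x|
        ≤ _ at h'
      rw [var_pdm_top (JetAt.mk3 k) hf a c hu hv (by omega), var_mk3 hf (contDiff_pdm hu a c)] at h'
      have h0 := abs_var_pdm_mk3 hf hw (hlin a c (by omega)) k
      have hE : E₁ (⟨a, by omega⟩, ⟨c, by omega⟩, k) ≤ W :=
        (Finset.le_sup (Finset.mem_univ _)).trans (Nat.le_add_right _ _)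
      have t := abs_le.1 h'
      have t0 := abs_le.1 h0
      have := hpow hE
      rw [abs_le]; constructor <;> linarith
    have e₀ : pd 0 (pdm a c u) x = pdm (a + 1) (m - (a + 1)) w x := by
      rw [pd0_pdm]; exact htop (by omega)
    have e₁ : pd 1 (pdm a c u) x = pdm a (m - a) w x := by
      rw [pd1_pdm hu]; exact htop (by omega)
    have k₀ := key 0
    have k₁ := key 1
    have k₂ := key 2
    simp [Lin, e₀, e₁] at k₀ k₁ k₂
    have hz : 0 ≤ (M : ℝ) ^ (W + 1) * ζ := by positivity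
    refine ⟨?_, k₁, ?_⟩
    · linarith [abs_nonneg ⟪pd 0 f x, pdm (a + 1) (m - (a + 1)) w x⟫]
    · linarith [abs_nonneg ⟪pd 1 f x, pdm a (m - a) w x⟫]
  · set c := m - (a + 2) with hc
    have hN : 2 + (a + c) ≤ m := by omega
    obtain ⟨-, -, hb⟩ := h₂ (⟨a, by omega⟩, ⟨c, by omega⟩) f x hf
      ((norm_jet_mono (by show 2 + (a + c) ≤ 10; omega) f x).trans hj)
    have h' : ‖_‖ ≤ _ := (hb u w hu hw).trans (mul_le_mul_of_nonneg_left
      ((norm_sub_rev _ _).trans_le (hd _ hN)) (by positivity))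
    rw [Real.norm_eq_abs] at h'
    change |var (fun f x => pdm a c (gaussE f) x) f u x - var (fun f x => pdm a c (gaussE f) x) f w x|
      ≤ _ at h'
    have J := fun i j k => ((JetAt.mk3 k).pdm i j).jetFn
    rw [var_pdm_top JetAt.gaussE hf a c hu hv (by omega), var_gaussE hf (contDiff_pdm hu a c),
      var_congr (c := fun f x => pdm a c (gaussE f) x) (fun g y hg => pdm_gaussE hg a c y) hf hw,
      var_add (((JetFn.const (-1 / 2 : ℝ)).mul (J a (c + 2) 0)).add (J (a + 1) (c + 1) 1))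
        ((JetFn.const (-1 / 2 : ℝ)).mul (J (a + 2) c 2)) hf hw,
      var_add ((JetFn.const (-1 / 2 : ℝ)).mul (J a (c + 2) 0)) (J (a + 1) (c + 1) 1) hf hw,
      var_mul (JetFn.const (-1 / 2 : ℝ)) (J a (c + 2) 0) hf hw,
      var_mul (JetFn.const (-1 / 2 : ℝ)) (J (a + 2) c 2) hf hw, var_const] at h'
    have e₀ : fxx (pdm a c u) x = pdm (a + 2) (m - (a + 2)) w x := by
      rw [fxx, pd0_pdm, pd0_pdm]; exact htop (by omega)
    have e₁ : fxy (pdm a c u) x = pdm (a + 1) (m - (a + 1)) w x := by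
      rw [fxy, pd1_pdm hu, pd0_pdm]; exact htop (by omega)
    have e₂ : fyy (pdm a c u) x = pdm a (m - a) w x := by
      rw [fyy, pd1_pdm hu, pd1_pdm hu]; exact htop (by omega)
    rw [e₀, e₁, e₂] at h'
    have hE : E₂ (⟨a, by omega⟩, ⟨c, by omega⟩) ≤ W :=
      (Finset.le_sup (Finset.mem_univ _)).trans (Nat.le_add_left _ _)
    have r₀ := abs_le.1 (abs_var_pdm_mk3 hf hw (show ‖pdm a (c + 2) (Lin f w) x‖ ≤ ζ by
      rw [show c + 2 = m - a by omega]; exact hT a (by omega)) 0)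
    have r₁ := abs_le.1 (abs_var_pdm_mk3 hf hw (show ‖pdm (a + 1) (c + 1) (Lin f w) x‖ ≤ ζ by
      rw [show c + 1 = m - (a + 1) by omega]; exact hT (a + 1) (by omega)) 1)
    have r₂ := abs_le.1 (abs_var_pdm_mk3 hf hw (hT (a + 2) ha) 2)
    have t := abs_le.1 h'
    have := hpow hE
    rw [abs_le]; constructor <;> linarith

/-- The frame `f_x, f_y, ν₁, ν₂`. -/
theorem frame_split (f : E2 → R4) (x : E2) (D : R4) :
    (gdet f x * ⟪nu1 f x, nu1 f x⟫) • D =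
      ⟪nu1 f x, nu1 f x⟫ • (⟪tanv f x 0, D⟫ • pd 0 f x + ⟪tanv f x 1, D⟫ • pd 1 f x)
        + (gdet f x * ⟪nu1 f x, D⟫) • nu1 f x + ⟪nu2 f x, D⟫ • nu2 f x := by
  have h1 : nv f x (nv f x D) =
      -gdet f x • D + ⟪tanv f x 0, D⟫ • pd 0 f x + ⟪tanv f x 1, D⟫ • pd 1 f x :=
    cross_cross _ _ _
  have h2 := nu1_split f x (nv f x D)
  have e1 : ⟪nv f x (nv f x D), nu1 f x⟫ = -(gdet f x * ⟪nu1 f x, D⟫) := by
    rw [inner_nv_nv, inner_nv_normal f x (u := nu1 f x) (normal_nv f x _).1 (normal_nv f x _).2]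
  have e2 : ⟪nv f x D, nu1 f x⟫ = -⟪nu2 f x, D⟫ := inner_nv_nv f x D (nu1 f x)
  rw [h1] at h2
  rw [h1] at e1
  rw [e1, e2] at h2
  linear_combination (norm := module) -h2

/-- `ν₂` in terms of `f_yy`. -/
theorem inner_nu2 (f : E2 → R4) (x : E2) (D : R4) : ⟪nu2 f x, D⟫ = -(gdet f x * ⟪fyy f x, D⟫)
    + ⟪tanv f x 0, fyy f x⟫ * ⟪pd 0 f x, D⟫ + ⟪tanv f x 1, fyy f x⟫ * ⟪pd 1 f x, D⟫ := by
  have h : nu2 f x = -gdet f x • fyy f x + ⟪tanv f x 0, fyy f x⟫ • pd 0 f x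
      + ⟪tanv f x 1, fyy f x⟫ • pd 1 f x := cross_cross _ _ _
  rw [h, inner_add_left, inner_add_left, real_inner_smul_left, real_inner_smul_left,
    real_inner_smul_left]
  ring

theorem gdet_inner_II (f : E2 → R4) (x : E2) (u : R4) :
    gdet f x * ⟪u, II f x (ev 1)⟫ = -⟪nu2 f x, u⟫ := by
  have hn : Normal f x (nrm f x u) := by
    have o : ∀ v, ⟪fderiv ℝ f x v, nrm f x u⟫ = 0 := fun v =>
      ((LinearMap.range (fderiv ℝ f x).toLinearMap)ᗮ.starProjection_apply_mem u) _ ⟨v, rfl⟩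
    exact ⟨o _, o _⟩
  have h := inner_nu2 f x (nrm f x u)
  rw [hn.1, hn.2, inner_nrm f x (nu2 f x) u, show nrm f x (nu2 f x) = nu2 f x from
    (normal_nv f x _).nrm_eq] at h
  show gdet f x * ⟪u, nrm f x (fyy f x)⟫ = _
  rw [inner_nrm f x u (fyy f x), real_inner_comm (fyy f x) (nrm f x u)]
  linarith

/-- Polynomial bounds of the coefficients. -/
theorem coef_bounds (A : ℕ) : ∃ E : ℕ, ∀ᶠ M : ℕ in atTop, ∀ f x, ContDiff ℝ ∞ f →
    ‖jet 10 f x‖ ≤ (M : ℝ) ^ A →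
    |gdet f x| ≤ (M : ℝ) ^ E ∧ ‖tanv f x 0‖ ≤ (M : ℝ) ^ E ∧ ‖tanv f x 1‖ ≤ (M : ℝ) ^ E ∧
    ‖nu1 f x‖ ≤ (M : ℝ) ^ E ∧ ‖nu2 f x‖ ≤ (M : ℝ) ^ E ∧
    (∀ i, ‖pd i f x‖ ≤ (M : ℝ) ^ E) ∧
    ‖fxx f x‖ ≤ (M : ℝ) ^ E ∧ ‖fxy f x‖ ≤ (M : ℝ) ^ E ∧ ‖fyy f x‖ ≤ (M : ℝ) ^ E := by
  obtain ⟨a₀, h₀⟩ := JetAt.gdet.bound A
  obtain ⟨a₁, h₁⟩ := (JetAt.tanv 0).bound A
  obtain ⟨a₂, h₂⟩ := (JetAt.tanv 1).bound A
  obtain ⟨a₃, h₃⟩ := JetAt.nu1.bound A
  obtain ⟨a₄, h₄⟩ := JetAt.nu2.bound A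
  refine ⟨a₀ + a₁ + a₂ + a₃ + a₄ + A, ?_⟩
  filter_upwards [h₀, h₁, h₂, h₃, h₄, eventually_ge_atTop 1] with M h₀ h₁ h₂ h₃ h₄ hM f x hf hj
  have hM1 : (1 : ℝ) ≤ M := by exact_mod_cast hM
  have j1 : ‖jet 1 f x‖ ≤ (M : ℝ) ^ A := (norm_jet_mono (by omega) f x).trans hj
  have j2 : ‖jet 2 f x‖ ≤ (M : ℝ) ^ A := (norm_jet_mono (by omega) f x).trans hj
  have up : ∀ {r : ℝ} {e : ℕ}, e ≤ a₀ + a₁ + a₂ + a₃ + a₄ + A → r ≤ (M : ℝ) ^ e →
      r ≤ (M : ℝ) ^ (a₀ + a₁ + a₂ + a₃ + a₄ + A) := fun he h => h.trans (pow_le_pow_right₀ hM1 he)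
  have hp : ∀ p q, p + q ≤ 2 → ‖pdm p q f x‖ ≤ (M : ℝ) ^ A := fun p q h =>
    (norm_pdm_le_jet hf x (N := 10) (by omega)).trans hj
  refine ⟨up (by omega) ((Real.norm_eq_abs _).symm.le.trans (h₀ f x hf j1).1),
    up (by omega) (h₁ f x hf j1).1, up (by omega) (h₂ f x hf j1).1, up (by omega) (h₃ f x hf j2).1,
    up (by omega) (h₄ f x hf j2).1, fun i => ?_, up (by omega) (hp 2 0 le_rfl),
    up (by omega) (hp 1 1 le_rfl), up (by omega) (hp 0 2 le_rfl)⟩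
  obtain rfl | rfl : i = 0 ∨ i = 1 := by omega
  · exact up (by omega) (hp 1 0 (by omega))
  · exact up (by omega) (hp 0 1 (by omega))

/-- A vector is small if its four components are. -/
theorem vec_small {B δ g : ℝ} {D : R4} (hB : 1 ≤ B) (hδ : 0 ≤ δ) (hg : 0 < g)
    (hgq : g ≤ gdet f x * ⟪nu1 f x, nu1 f x⟫) (hG : |gdet f x| ≤ B)
    (hp : ∀ i : Fin 2, ‖pd i f x‖ ≤ B) (h1 : ‖nu1 f x‖ ≤ B) (h2 : ‖nu2 f x‖ ≤ B)
    (d₀ : |⟪pd 0 f x, D⟫| ≤ δ) (d₁ : |⟪pd 1 f x, D⟫| ≤ δ) (e₁ : |⟪nu1 f x, D⟫| ≤ δ)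
    (e₂ : |⟪nu2 f x, D⟫| ≤ δ) : ‖D‖ ≤ g⁻¹ * (6 * B ^ 5 * δ) := by
  have hB0 : 0 ≤ B := by linarith
  have pp : ∀ i j : Fin 2, |⟪pd i f x, pd j f x⟫| ≤ B * B := fun i j =>
    (abs_real_inner_le_norm _ _).trans (mul_le_mul (hp i) (hp j) (norm_nonneg _) hB0)
  have qb : |⟪nu1 f x, nu1 f x⟫| ≤ B * B :=
    (abs_real_inner_le_norm _ _).trans (mul_le_mul h1 h1 (norm_nonneg _) hB0)
  have two : ∀ {p q r t : ℝ}, |p| ≤ B * B → |q| ≤ B * B → |r| ≤ δ → |t| ≤ δ →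
      |p * r - q * t| ≤ 2 * (B * B * δ) := fun hp hq hr ht => by
    refine (abs_sub _ _).trans ?_
    rw [abs_mul, abs_mul]
    nlinarith [mul_le_mul hp hr (abs_nonneg _) (by positivity),
      mul_le_mul hq ht (abs_nonneg _) (by positivity)]
  have t₀ : |⟪tanv f x 0, D⟫| ≤ 2 * (B * B * δ) := by
    rw [show ⟪tanv f x 0, D⟫ = ⟪pd 1 f x, pd 1 f x⟫ * ⟪pd 0 f x, D⟫
      - ⟪pd 0 f x, pd 1 f x⟫ * ⟪pd 1 f x, D⟫ by simp [tanv, inner_sub_left, real_inner_smul_left]]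
    exact two (pp 1 1) (pp 0 1) d₀ d₁
  have t₁ : |⟪tanv f x 1, D⟫| ≤ 2 * (B * B * δ) := by
    rw [show ⟪tanv f x 1, D⟫ = ⟪pd 0 f x, pd 0 f x⟫ * ⟪pd 1 f x, D⟫
      - ⟪pd 0 f x, pd 1 f x⟫ * ⟪pd 0 f x, D⟫ by simp [tanv, inner_sub_left, real_inner_smul_left]]
    exact two (pp 0 0) (pp 0 1) d₁ d₀
  have key := congrArg (‖·‖) (frame_split f x D)
  simp only [norm_smul, Real.norm_eq_abs] at key
  have hb : |gdet f x * ⟪nu1 f x, nu1 f x⟫| * ‖D‖ ≤ 6 * B ^ 5 * δ := by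
    rw [key]
    refine (norm_add₃_le).trans ?_
    simp only [norm_smul, Real.norm_eq_abs, abs_mul]
    have a₀ : |⟪nu1 f x, nu1 f x⟫| * ‖⟪tanv f x 0, D⟫ • pd 0 f x + ⟪tanv f x 1, D⟫ • pd 1 f x‖
        ≤ B * B * (2 * (B * B * δ) * B + 2 * (B * B * δ) * B) := by
      refine mul_le_mul qb ?_ (norm_nonneg _) (by positivity)
      refine (norm_add_le _ _).trans ?_
      simp only [norm_smul, Real.norm_eq_abs]
      exact add_le_add (mul_le_mul t₀ (hp 0) (norm_nonneg _) (by positivity))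
        (mul_le_mul t₁ (hp 1) (norm_nonneg _) (by positivity))
    have a₁ : |gdet f x| * |⟪nu1 f x, D⟫| * ‖nu1 f x‖ ≤ B * δ * B :=
      mul_le_mul (mul_le_mul hG e₁ (abs_nonneg _) hB0) h1 (norm_nonneg _) (by positivity)
    have a₂ : |⟪nu2 f x, D⟫| * ‖nu2 f x‖ ≤ δ * B := mul_le_mul e₂ h2 (norm_nonneg _) hδ
    have s₂ : B ^ 2 * δ ≤ B ^ 5 * δ :=
      mul_le_mul_of_nonneg_right (pow_le_pow_right₀ hB (by omega)) hδ
    have s₁ : B * δ ≤ B ^ 5 * δ := mul_le_mul_of_nonneg_right (le_self_pow₀ hB (by omega)) hδ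
    calc _ ≤ B * B * (2 * (B * B * δ) * B + 2 * (B * B * δ) * B) + B * δ * B + δ * B :=
          add_le_add (add_le_add a₀ a₁) a₂
      _ = 4 * (B ^ 5 * δ) + B ^ 2 * δ + B * δ := by ring
      _ ≤ _ := by linarith
  rw [inv_mul_eq_div, le_div_iff₀ hg, mul_comm]
  exact (mul_le_mul_of_nonneg_right (hgq.trans (le_abs_self _)) (norm_nonneg _)).trans hb

theorem inner_unit (D v : R4) : ⟪v, D⟫ = ‖v‖ * ⟪D, ‖v‖⁻¹ • v⟫ := by
  rw [real_inner_smul_right, real_inner_comm v D]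
  rcases eq_or_ne v 0 with rfl | hv
  · simp
  · field_simp [norm_ne_zero_iff.2 hv]

/-- The top jets are the prescribed ones up to `M^E ζ`. -/
theorem core (A a : ℕ) : ∃ E : ℕ, ∀ᶠ M : ℕ in atTop, ∀ b C f x w m i₀ τ (P : ℕ → R4), ∀ ζ : ℝ,
    Pt b C A M f x → C ≤ M → 0 ≤ ζ → 3 ≤ m → m ≤ 8 →
    ((M : ℝ) ^ a)⁻¹ ≤ ⟪nu1 f x, nu1 f x⟫ → FineDir b A ζ M f x m i₀ τ w →
    (∀ i, Normal f x (P i)) →
    (∀ i, i ≤ m → ⟪P i, nu1 f x⟫ = if i = i₀ then ⟪τ, nu1 f x⟫ else 0) →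
    (b = false → ∀ i, i ≤ m → ⟪P i, nu2 f x⟫ = if i = i₀ then ⟪τ, nu2 f x⟫ else 0) →
    (b = true → ∀ i, i ≤ 1 → ⟪P i, nu2 f x⟫ = 0) →
    (b = true → ∀ i, i + 2 ≤ m →
      ⟪P (i + 2), fyy f x⟫ + ⟪fxx f x, P i⟫ - 2 * ⟪fxy f x, P (i + 1)⟫ = 0) →
    ∀ i j, i + j ≤ m →
      ‖pdm i j w x - (if i + j = m then P i else 0)‖ ≤ (M : ℝ) ^ E * ζ := by
  obtain ⟨E₁, h₁⟩ := top_eqs A
  obtain ⟨E₂, h₂⟩ := coef_bounds A
  set K := a + E₁ + 8 * E₂ + 7 with hK
  refine ⟨K * 9, ?_⟩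
  filter_upwards [h₁, h₂, eventually_ge_atTop 18]
    with M h₁ h₂ hM b C f x w m i₀ τ P ζ hP hC hζ hm3 hm hq hw hPn hP1 hP2 hP0 hPG
  have hM' : (18 : ℝ) ≤ M := by exact_mod_cast hM
  have hM1 : (1 : ℝ) ≤ M := by linarith
  have hf := hP.smooth
  obtain ⟨hG, ht₀, ht₁, hν₁, hν₂, hp, hxx, hxy, hyy⟩ := h₂ f x hf hP.jets
  set B : ℝ := (M : ℝ) ^ E₂ with hBdef
  have hB : 1 ≤ B := one_le_pow₀ hM1
  have hB0 : 0 ≤ B := by linarith
  obtain ⟨hlin, hgauss⟩ := h₁ f w x m ζ hf hw.smooth hP.jets hm hζ hw.low hw.lin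
  set Q : ℝ := (M : ℝ) ^ K with hQdef
  have hQ : 1 ≤ Q := one_le_pow₀ hM1
  -- components of the differences
  set D : ℕ → R4 := fun i => pdm i (m - i) w x - P i with hD
  set δ₀ : ℝ := (M : ℝ) ^ (E₁ + E₂ + 1) * ζ with hδ₀
  have hδ₀0 : 0 ≤ δ₀ := by positivity
  have hE1 : 2 * ((M : ℝ) ^ E₁ * ζ) ≤ δ₀ := by
    rw [hδ₀, ← mul_assoc]
    refine mul_le_mul_of_nonneg_right ?_ hζ
    rw [pow_succ, pow_add]
    nlinarith [one_le_pow₀ (n := E₁) hM1, mul_le_mul hB (show (2 : ℝ) ≤ M by linarith) zero_le_two hB0]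
  have hBζ : B * ζ ≤ δ₀ :=
    mul_le_mul_of_nonneg_right (pow_le_pow_right₀ hM1 (by omega)) hζ
  have tan : ∀ i, i ≤ m → |⟪pd 0 f x, D i⟫| ≤ δ₀ ∧ |⟪pd 1 f x, D i⟫| ≤ δ₀ := fun i hi => by
    have z : ∀ r : ℝ, |r| ≤ (M : ℝ) ^ E₁ * ζ → |r| ≤ δ₀ := fun r h => by
      linarith [show 0 ≤ (M : ℝ) ^ E₁ * ζ by positivity]
    simp only [hD, inner_sub_right, (hPn i).1, (hPn i).2, sub_zero]
    refine ⟨?_, ?_⟩
    · rcases i with _ | i
      · obtain ⟨-, s, -⟩ := hlin 0 (by omega)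
        obtain ⟨-, -, t⟩ := hlin 1 (by omega)
        simp only [Nat.zero_add] at s
        have := abs_le.1 s
        have := abs_le.1 t
        rw [abs_le]; constructor <;> linarith
      · exact z _ (hlin i hi).1
    · rcases Nat.lt_or_ge i m with h | h
      · exact z _ (hlin i h).2.2
      · obtain rfl : i = m := le_antisymm hi h
        obtain ⟨k, rfl⟩ : ∃ k, i = k + 2 := ⟨i - 2, by omega⟩
        obtain ⟨-, s, -⟩ := hlin (k + 1) le_rfl
        obtain ⟨t, -, -⟩ := hlin k (by omega)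
        have := abs_le.1 s
        have := abs_le.1 t
        rw [abs_le]; constructor <;> linarith
  have comp : ∀ (v : R4), Normal f x v → (b = true → ⟪v, fyy f x⟫ = 0) → ‖v‖ ≤ B →
      (∀ i, i ≤ m → ⟪P i, v⟫ = if i = i₀ then ⟪τ, v⟫ else 0) →
      ∀ i, i ≤ m → |⟪v, D i⟫| ≤ δ₀ := fun v hn hb hv hPv i hi => by
    have h := hw.top i hi (‖v‖⁻¹ • v) (hn.smul _)
      (fun h => by rw [real_inner_smul_left, hb h, mul_zero])
      (by rw [norm_smul, norm_inv, norm_norm]; exact inv_mul_le_one)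
    rw [inner_unit (D i) v, abs_mul, abs_norm]
    refine le_trans (mul_le_mul hv ?_ (abs_nonneg _) hB0) hBζ
    refine le_of_eq_of_le (congrArg _ ?_) h
    rw [hD, inner_sub_left, real_inner_smul_right (P i) v ‖v‖⁻¹, hPv i hi]
    split_ifs <;> simp [real_inner_smul_right]
  have nu1c : ∀ i, i ≤ m → |⟪nu1 f x, D i⟫| ≤ δ₀ :=
    comp _ (normal_nv f x _) (fun _ => cross_orth_right _ _ _) hν₁ hP1
  have hG' : ((M : ℝ) ^ (4 + a))⁻¹ ≤ gdet f x * ⟪nu1 f x, nu1 f x⟫ := by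
    rw [pow_add, mul_inv]
    exact mul_le_mul ((inv_anti₀ (pow_pos (lt_of_lt_of_le one_pos hP.one_le) 4)
      (pow_le_pow_left₀ (by linarith [hP.one_le]) hC 4)).trans hP.gdet_ge) hq (by positivity)
      hP.gdet_pos.le
  have close : ∀ i δ, i ≤ m → δ₀ ≤ δ → |⟪nu2 f x, D i⟫| ≤ 3 * B ^ 2 * δ →
      ‖D i‖ ≤ (M : ℝ) ^ (a + 7 * E₂ + 6) * δ := fun i δ hi hδ h2 => by
    have hδ0 : 0 ≤ δ := hδ₀0.trans hδ
    have h3 : δ ≤ 3 * B ^ 2 * δ := le_mul_of_one_le_left hδ0 (by nlinarith)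
    refine (vec_small hB (by positivity) (inv_pos.2 (by positivity)) hG' hG hp hν₁ hν₂
      ((tan i hi).1.trans (hδ.trans h3)) ((tan i hi).2.trans (hδ.trans h3))
      ((nu1c i hi).trans (hδ.trans h3)) h2).trans ?_
    rw [inv_inv, show (M : ℝ) ^ (4 + a) * (6 * B ^ 5 * (3 * B ^ 2 * δ)) =
      18 * (M : ℝ) ^ (4 + a + 7 * E₂) * δ by rw [hBdef]; ring]
    refine mul_le_mul_of_nonneg_right ?_ hδ0
    refine (mul_le_mul_of_nonneg_right hM' (by positivity)).trans ?_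
    rw [← pow_succ']
    exact pow_le_pow_right₀ hM1 (by omega)
  have fromYY : ∀ i δ, i ≤ m → δ₀ ≤ δ → |⟪fyy f x, D i⟫| ≤ δ →
      |⟪nu2 f x, D i⟫| ≤ 3 * B ^ 2 * δ := fun i δ hi hδ h => by
    rw [inner_nu2]
    have hδ0 : 0 ≤ δ := hδ₀0.trans hδ
    have a₀ : |gdet f x * ⟪fyy f x, D i⟫| ≤ B * δ := by
      rw [abs_mul]; exact mul_le_mul hG h (abs_nonneg _) hB0
    have a₁ : |⟪tanv f x 0, fyy f x⟫ * ⟪pd 0 f x, D i⟫| ≤ B * B * δ := by
      rw [abs_mul]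
      exact mul_le_mul ((abs_real_inner_le_norm _ _).trans (mul_le_mul ht₀ hyy (norm_nonneg _) hB0))
        ((tan i hi).1.trans hδ) (abs_nonneg _) (by positivity)
    have a₂ : |⟪tanv f x 1, fyy f x⟫ * ⟪pd 1 f x, D i⟫| ≤ B * B * δ := by
      rw [abs_mul]
      exact mul_le_mul ((abs_real_inner_le_norm _ _).trans (mul_le_mul ht₁ hyy (norm_nonneg _) hB0))
        ((tan i hi).2.trans hδ) (abs_nonneg _) (by positivity)
    have : B * δ ≤ B * B * δ := mul_le_mul_of_nonneg_right (le_mul_of_one_le_left hB0 hB) hδ0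
    have := abs_le.1 a₀; have := abs_le.1 a₁; have := abs_le.1 a₂
    rw [pow_two, abs_le]; constructor <;> linarith
  have hK0 : (M : ℝ) ^ (a + 7 * E₂ + 6) * δ₀ = Q * ζ := by
    rw [hδ₀, hQdef, ← mul_assoc, ← pow_add]; congr 2; omega
  have main : ∀ i, i ≤ m → ‖D i‖ ≤ Q ^ (i + 1) * ζ := by
    intro i
    induction i using Nat.strong_induction_on with
    | _ i ih =>
      intro hi
      have base : |⟪nu2 f x, D i⟫| ≤ δ₀ → ‖D i‖ ≤ Q ^ (i + 1) * ζ := fun h => by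
        refine (close i δ₀ hi le_rfl (h.trans (le_mul_of_one_le_left hδ₀0 (by nlinarith)))).trans ?_
        rw [hK0]
        exact mul_le_mul_of_nonneg_right (le_self_pow₀ hQ (by omega)) hζ
      cases hb : b with
      | false =>
        exact base (comp _ (normal_nv f x _) (by simp [hb]) hν₂ (hP2 hb) i hi)
      | true =>
        rcases Nat.lt_or_ge i 2 with h2 | h2
        · refine base ?_
          have h := mul_le_mul hG (hw.absT hb i (by omega)) (abs_nonneg _) hB0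
          rw [← abs_mul, gdet_inner_II, abs_neg] at h
          rw [hD, inner_sub_right, real_inner_comm (P i) (nu2 f x), hP0 hb i (by omega), sub_zero]
          exact h.trans hBζ
        · obtain ⟨k, rfl⟩ : ∃ k, i = k + 2 := ⟨i - 2, by omega⟩
          have d₀ := ih k (by omega) (by omega)
          have d₁ := ih (k + 1) (by omega) (by omega)
          set R := Q ^ (k + 2) * ζ with hR
          have r₀ : ‖D k‖ ≤ R := d₀.trans
            (mul_le_mul_of_nonneg_right (pow_le_pow_right₀ hQ (by omega)) hζ)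
          have r₁ : ‖D (k + 1)‖ ≤ R := d₁
          have hζR : ζ ≤ R := le_mul_of_one_le_left hζ (one_le_pow₀ hQ)
          have hR0 : 0 ≤ R := hζ.trans hζR
          set δ := (M : ℝ) ^ (E₁ + E₂ + 1) * R with hδdef
          have hδ : δ₀ ≤ δ := mul_le_mul_of_nonneg_left hζR (by positivity)
          have g := hgauss (fun i hi => hw.linT hb i hi) k hi
          have e : ⟪fyy f x, D (k + 2)⟫ =
              (⟪pdm (k + 2) (m - (k + 2)) w x, fyy f x⟫ + ⟪fxx f x, pdm k (m - k) w x⟫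
                - 2 * ⟪fxy f x, pdm (k + 1) (m - (k + 1)) w x⟫)
              - ⟪fxx f x, D k⟫ + 2 * ⟪fxy f x, D (k + 1)⟫ := by
            rw [real_inner_comm (D (k + 2))]
            simp only [hD, inner_sub_left, inner_sub_right]
            linarith [hPG hb k hi]
          have c₀ : |⟪fxx f x, D k⟫| ≤ B * R :=
            (abs_real_inner_le_norm _ _).trans (mul_le_mul hxx r₀ (norm_nonneg _) hB0)
          have c₁ : |⟪fxy f x, D (k + 1)⟫| ≤ B * R :=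
            (abs_real_inner_le_norm _ _).trans (mul_le_mul hxy r₁ (norm_nonneg _) hB0)
          have hy : |⟪fyy f x, D (k + 2)⟫| ≤ δ := by
            have g' : (M : ℝ) ^ E₁ * ζ + 3 * (B * R) ≤ δ := by
              have h1 : (M : ℝ) ^ E₁ * ζ ≤ (M : ℝ) ^ (E₁ + E₂) * R :=
                mul_le_mul (pow_le_pow_right₀ hM1 (by omega)) hζR hζ (by positivity)
              have h2 : B * R ≤ (M : ℝ) ^ (E₁ + E₂) * R :=
                mul_le_mul_of_nonneg_right (pow_le_pow_right₀ hM1 (by omega)) hR0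
              calc _ ≤ 4 * ((M : ℝ) ^ (E₁ + E₂) * R) := by linarith
                _ ≤ (M : ℝ) * ((M : ℝ) ^ (E₁ + E₂) * R) := by gcongr; linarith
                _ = δ := by rw [hδdef, pow_succ]; ring
            have := abs_le.1 g; have := abs_le.1 c₀; have := abs_le.1 c₁
            rw [e, abs_le]; constructor <;> linarith
          refine (close _ δ hi hδ (fromYY _ δ hi hδ hy)).trans (le_of_eq ?_)
          rw [hδdef, hR, ← mul_assoc, ← mul_assoc, ← pow_add,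
            show (M : ℝ) ^ (a + 7 * E₂ + 6 + (E₁ + E₂ + 1)) = Q by rw [hQdef]; congr 1; omega,
            ← pow_succ']
  intro i j hij
  have h9 : ∀ {n : ℕ}, n ≤ 9 → Q ^ n * ζ ≤ (M : ℝ) ^ (K * 9) * ζ := fun hn => by
    rw [pow_mul]; exact mul_le_mul_of_nonneg_right (pow_le_pow_right₀ hQ hn) hζ
  rcases Nat.lt_or_ge (i + j) m with h | h
  · rw [if_neg (by omega), sub_zero]
    exact (hw.low i j h).trans (le_mul_of_one_le_left hζ (one_le_pow₀ hM1))
  · rw [if_pos (by omega), show j = m - i by omega]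
    exact (main i (by omega)).trans (h9 (by omega))

end G1Top

open G1Top

/-- A fine direction is its test monomial up to `M^E ζ`. -/
theorem fine_top (A a : ℕ) : ∃ E : ℕ, ∀ᶠ M : ℕ in atTop, ∀ b C f x w m τ, ∀ ζ : ℝ,
    Pt b C A M f x → C ≤ M → 0 ≤ ζ → 3 ≤ m → m ≤ 8 → Normal f x τ →
    (b = true → ⟪τ, fyy f x⟫ = 0) → ‖τ‖ ≤ 1 → ((M : ℝ) ^ a)⁻¹ ≤ ⟪nu1 f x, nu1 f x⟫ →
    (FineDir b A ζ M f x m m τ w → ∀ i j, i + j ≤ m →
      ‖pdm i j w x - pdm i j (mono x m 0 τ) x‖ ≤ (M : ℝ) ^ E * ζ) ∧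
    (FineDir b A ζ M f x m (m - 1) τ w → ∀ i j, i + j ≤ m →
      ‖pdm i j w x - pdm i j (fun z => mono x (m - 1) 1 τ z + mono x m 0 (absSig b f x τ) z) x‖
        ≤ (M : ℝ) ^ E * ζ) := by
  obtain ⟨E, hE⟩ := G1Top.core A a
  refine ⟨E, ?_⟩
  filter_upwards [hE, eventually_ge_atTop 1]
    with M hE hM b C f x w m τ ζ hP hC hζ hm3 hm hn hτy hτ1 hq
  have hbb : bb f x ≠ 0 := by
    have : 0 < ((M : ℝ) ^ a)⁻¹ := by
      have : (1 : ℝ) ≤ M := by exact_mod_cast hM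
      positivity
    rw [bb_eq]; exact neg_ne_zero.2 (lt_of_lt_of_le this hq).ne'
  have h0 : Normal f x (0 : R4) := ⟨inner_zero_right _, inner_zero_right _⟩
  refine ⟨fun hw i j hij => ?_, fun hw i j hij => ?_⟩
  · have h := hE b C f x w m m τ (fun i => if i = m then τ else 0) ζ hP hC hζ hm3 hm hq hw
      (fun i => by split_ifs <;> assumption)
      (fun i _ => by split_ifs <;> simp)
      (fun _ i _ => by split_ifs <;> simp)
      (fun _ i hi => by rw [if_neg (by omega), inner_zero_left])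
      (fun hb i hi => by
        rw [if_neg (show i ≠ m by omega), if_neg (show i + 1 ≠ m by omega)]
        split_ifs <;> simp [hτy hb]) i j hij
    refine le_of_eq_of_le (congrArg (fun v => ‖pdm i j w x - v‖) ?_) h
    rw [pdm_mono]
    split_ifs <;> first | rfl | omega
  · have hn2 : Normal f x (absSig b f x τ) := (normal_nv f x _).smul _
    have hs1 : ⟪absSig b f x τ, nu1 f x⟫ = 0 := by
      rw [absSig, real_inner_smul_left, real_inner_comm (nu1 f x) (nu2 f x), inner_nu1_nu2,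
        mul_zero]
    have h := hE b C f x w m (m - 1) τ
      (fun i => if i = m - 1 then τ else if i = m then absSig b f x τ else 0) ζ hP hC hζ hm3 hm hq
      hw (fun i => by split_ifs <;> assumption)
      (fun i _ => by split_ifs <;> simp [hs1])
      (fun hb i _ => by split_ifs <;> simp [absSig, hb])
      (fun _ i hi => by rw [if_neg (by omega), if_neg (by omega), inner_zero_left])
      (fun hb i hi => by
        rw [if_neg (show i ≠ m - 1 by omega), if_neg (show i ≠ m by omega),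
          if_neg (show i + 1 ≠ m by omega)]
        by_cases hi2 : i + 2 = m
        · rw [if_neg (show i + 2 ≠ m - 1 by omega), if_pos hi2, if_pos (show i + 1 = m - 1 by omega),
            absSig, if_pos hb, real_inner_smul_left, inner_zero_right, real_inner_comm (fyy f x),
            show ⟪fyy f x, nu2 f x⟫ = bb f x from rfl, div_mul_cancel₀ _ hbb]
          ring
        · rw [if_neg hi2, if_neg (show i + 1 ≠ m - 1 by omega)]
          split_ifs <;> simp [hτy hb]) i j hij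
    refine le_of_eq_of_le (congrArg (fun v => ‖pdm i j w x - v‖) ?_) h
    rw [congrFun (pdm_add (contDiff_mono _ _ _ _) (contDiff_mono _ _ _ _) i j) x, pdm_mono, pdm_mono]
    split_ifs <;> first | omega | simp

end Vale.Agent.P205F
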