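import Vale.Agent.P205F.GoodProb.G1Sym
import Vale.Agent.P205F.GoodProb.G1Top

/-!
# P205, GoodProb: the directions of G1

A fine direction at the top order of `β_n`, resp. `π_n`, moves that row by an explicit pivot and
fixes the earlier ones.
-/

namespace Vale.Agent.P205F

open scoped ContDiff RealInnerProductSpace
open Filter Prob

/-! ### Powers -/

theorem JetAt.powFn {N : ℕ} {c : SF} (hc : JetAt N c) :
    ∀ k : ℕ, JetAt N fun f x => c f x ^ k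
  | 0 => ((JetAt.const (1 : ℝ)).mono N.zero_le).congr fun f x _ => pow_zero _
  | k + 1 => (((hc.powFn k).mul hc).mono (max_le le_rfl le_rfl)).congr fun f x _ => pow_succ _ _

theorem big_mul {M : ℝ} (hM : 0 < M) {a a' : ℕ} {r r' : ℝ} (h : (M ^ a)⁻¹ ≤ |r|)
    (h' : (M ^ a')⁻¹ ≤ |r'|) : (M ^ (a + a'))⁻¹ ≤ |r * r'| := by
  rw [pow_add, mul_inv, abs_mul]
  exact mul_le_mul h h' (by positivity) (abs_nonneg _)

theorem big_pow {M : ℝ} (hM : 0 < M) {a : ℕ} {r : ℝ} (h : (M ^ a)⁻¹ ≤ |r|) (k : ℕ) :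
    (M ^ (a * k))⁻¹ ≤ |r ^ k| := by
  rw [pow_mul, ← inv_pow, abs_pow]
  exact pow_le_pow_left₀ (by positivity) h k

theorem big_mono {M : ℝ} (hM : 1 ≤ M) {a a' : ℕ} (haa : a ≤ a') {r : ℝ} (h : (M ^ a)⁻¹ ≤ r) :
    (M ^ a')⁻¹ ≤ r :=
  (inv_anti₀ (pow_pos (by linarith) a) (pow_le_pow_right₀ hM haa)).trans h

/-- A lower bound on the square bounds the norm. -/
theorem big_norm {M : ℝ} (hM : 1 ≤ M) {a : ℕ} (u : R4) (h : (M ^ a)⁻¹ ≤ ⟪u, u⟫) :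
    (M ^ a)⁻¹ ≤ ‖u‖ := by
  have h1 : (M ^ a)⁻¹ ≤ 1 := inv_le_one_of_one_le₀ (one_le_pow₀ hM)
  rw [real_inner_self_eq_norm_sq] at h
  by_contra hlt
  nlinarith [norm_nonneg u, not_le.1 hlt]

/-! ### Pivots -/

/-- Pivot of `β_n`, chart `D`. -/
noncomputable def pivD (n : ℕ) : SF := fun f x => pD f x ^ (2 * n + 1)

/-- Bracket of `β_n`, chart `k`. -/
noncomputable def brK (n : ℕ) : SF := fun f x =>
  -2 * (Del f x * (kk f x * kk f x)) - A10 f x * (DD f x * DD f x)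
    + n * (DD f x * (A10 f x * DD f x - A11 f x * kk f x))

/-- Pivot of `β_n`, chart `k`. -/
noncomputable def pivK (n : ℕ) : SF := fun f x => pK f x ^ (2 * n) * brK n f x

/-- Pivot of `π_n`, chart `D`, first direction. -/
noncomputable def pivA : Bool → ℕ → SF
  | true, n => fun f x => pD f x ^ (2 * n) * (DD f x * Qp f x)
  | false, n => fun f x =>
      pD f x ^ (2 * n) * (DD f x * (gdet f x * bb f x * (DD f x * DD f x)))

/-- Bracket of `π_n`, chart `D`, second direction. -/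
noncomputable def brB (n : ℕ) : SF := fun f x =>
  -8 * Qb f x + ((n : ℝ) + 2) * (kk f x * Qp f x)
    - gdet f x * gdet f x * (DD f x * DD f x * (DD f x * DD f x))

/-- Pivot of `π_n`, chart `D`, second direction. -/
noncomputable def pivB (n : ℕ) : SF := fun f x => pD f x ^ (2 * n) * brB n f x

/-- The functions bounded below: `b` and four pivots. -/
noncomputable def pvec (piv : ℕ → SF) : Fin 5 → SF := Fin.cons bb fun i : Fin 4 => piv (i + 1)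

theorem pvec_jetAt {piv : ℕ → SF} (h : ∀ n, JetAt 10 (piv n)) (j : Fin 5) :
    JetAt 10 (pvec piv j) := by
  refine Fin.cases ?_ (fun i => ?_) j
  · exact JetAt.bb.mono (by omega)
  · exact h _

theorem pivD_jetAt (n : ℕ) : JetAt 10 (pivD n) := (JetAt.pD.powFn _).mono (by omega)

theorem pivK_jetAt (n : ℕ) : JetAt 10 (pivK n) :=
  ((JetAt.pK.powFn _).mul ((((JetAt.const (-2 : ℝ)).mul (JetAt.Del.mul (JetAt.kk.mul JetAt.kk))).sub
    (JetAt.A10.mul (JetAt.DD.mul JetAt.DD))).add ((JetAt.const (n : ℝ)).mul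
      (JetAt.DD.mul ((JetAt.A10.mul JetAt.DD).sub (JetAt.A11.mul JetAt.kk)))))).mono (by omega)

theorem pivA_jetAt : ∀ (b : Bool) (n : ℕ), JetAt 10 (pivA b n)
  | true, n => ((JetAt.pD.powFn _).mul (JetAt.DD.mul JetAt.Qp)).mono (by omega)
  | false, n => ((JetAt.pD.powFn _).mul
      (JetAt.DD.mul ((JetAt.gdet.mul JetAt.bb).mul (JetAt.DD.mul JetAt.DD)))).mono (by omega)

theorem pivB_jetAt (n : ℕ) : JetAt 10 (pivB n) :=
  ((JetAt.pD.powFn _).mul ((((JetAt.const (-8 : ℝ)).mul JetAt.Qb).add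
    ((JetAt.const ((n : ℝ) + 2)).mul (JetAt.kk.mul JetAt.Qp))).sub
    ((JetAt.gdet.mul JetAt.gdet).mul
      ((JetAt.DD.mul JetAt.DD).mul (JetAt.DD.mul JetAt.DD))))).mono (by omega)

/-- The normal along `ν₂`, scaled to length at most one. -/
noncomputable def unit2 (f : E2 → R4) (x : E2) : R4 := ‖nu2 f x‖⁻¹ • nu2 f x

theorem unit2_props (f : E2 → R4) (x : E2) :
    ‖unit2 f x‖ ≤ 1 ∧ Normal f x (unit2 f x) ∧ ⟪nu1 f x, unit2 f x⟫ = 0 ∧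
      ⟪nu2 f x, unit2 f x⟫ = ‖nu2 f x‖ := by
  refine ⟨?_, (normal_nv f x _).smul _, ?_, ?_⟩
  · rw [unit2, norm_smul, norm_inv, norm_norm]; exact inv_mul_le_one
  · rw [unit2, real_inner_smul_right, inner_nu1_nu2, mul_zero]
  · rw [unit2, real_inner_smul_right, real_inner_self_eq_norm_sq, pow_two, ← mul_assoc]
    by_cases h : ‖nu2 f x‖ = 0
    · simp [h]
    · rw [inv_mul_cancel₀ h, one_mul]

theorem nu2_unit1 (f : E2 → R4) (x : E2) :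
    ⟪nu2 f x, unit1 f x⟫ = 0 ∧ ⟪nu1 f x, unit1 f x⟫ = ‖nu1 f x‖ := by
  refine ⟨?_, by rw [real_inner_comm]; exact (unit1_props f x).2.2.2.1⟩
  rw [unit1, real_inner_smul_right, real_inner_comm, inner_nu1_nu2, mul_zero]

/-! ### Closeness -/

theorem rowsD_jetAt (n : ℕ) : JetAt (n + 2) (rowsD n).1 ∧ JetAt (n + 3) (rowsD n).2 :=
  JetAt.rows JetAt.pD JetAt.qD JetAt.alD JetAt.piD JetAt.beD n

theorem rowsK_jetAt (n : ℕ) : JetAt (n + 2) (rowsK n).1 ∧ JetAt (n + 3) (rowsK n).2 :=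
  JetAt.rows JetAt.pK JetAt.qK JetAt.alK JetAt.piK JetAt.beK n

variable {R : ℕ → SF × SF}

/-- The variations of the rows only see the top jets. -/
theorem row_close (hR : ∀ n, JetAt (n + 2) (R n).1 ∧ JetAt (n + 3) (R n).2) (A : ℕ) :
    ∃ E : ℕ, ∀ᶠ M : ℕ in atTop, ∀ f w P x, ∀ η : ℝ, ContDiff ℝ ∞ f → ContDiff ℝ ∞ w →
      ContDiff ℝ ∞ P → ‖jet 10 f x‖ ≤ (M : ℝ) ^ A → ‖jet 10 w x‖ ≤ (M : ℝ) ^ A → 0 ≤ η →
      ∀ m : ℕ, (∀ i j, i + j ≤ m → ‖pdm i j w x - pdm i j P x‖ ≤ η) → ∀ i : Fin 4,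
        (((i : ℕ) + 3 ≤ m → |var (R (i + 1)).1 f w x - var (R (i + 1)).1 f P x| ≤ (M : ℝ) ^ E * η) ∧
         ((i : ℕ) + 4 ≤ m → |var (R (i + 1)).2 f w x - var (R (i + 1)).2 f P x| ≤ (M : ℝ) ^ E * η)) ∧
        |var (R (i + 1)).2 f w x| ≤ (M : ℝ) ^ E := by
  choose E₁ h₁ using fun i : Fin 4 => (hR (i + 1)).1.bound A
  choose E₂ h₂ using fun i : Fin 4 => (hR (i + 1)).2.bound A
  refine ⟨Finset.univ.sup E₁ + Finset.univ.sup E₂ + A + 1, ?_⟩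
  filter_upwards [eventually_all.2 h₁, eventually_all.2 h₂, eventually_ge_atTop (2 ^ 10)]
    with M h₁ h₂ hM f w P x η hf hw hP hjf hjw hη m hm i
  have hM' : (2 : ℝ) ^ 10 ≤ M := by exact_mod_cast hM
  have hM1 : (1 : ℝ) ≤ M := le_trans (by norm_num) hM'
  have hi1 : E₁ i ≤ Finset.univ.sup E₁ := Finset.le_sup (Finset.mem_univ i)
  have hi2 : E₂ i ≤ Finset.univ.sup E₂ := Finset.le_sup (Finset.mem_univ i)
  have hi := i.isLt
  have key : ∀ (c : SF) (N a : ℕ), N ≤ 10 → N ≤ m → a ≤ Finset.univ.sup E₁ + Finset.univ.sup E₂ →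
      ‖var c f w x - var c f P x‖ ≤ (M : ℝ) ^ a * ‖jet N w x - jet N P x‖ →
      |var c f w x - var c f P x| ≤
        (M : ℝ) ^ (Finset.univ.sup E₁ + Finset.univ.sup E₂ + A + 1) * η := by
    intro c N a hN hNm ha h
    refine h.trans ((mul_le_mul_of_nonneg_left
      (norm_jet_sub_le hw hP hη fun p q h => hm p q (h.trans hNm)) (by positivity)).trans ?_)
    rw [← mul_assoc]
    refine mul_le_mul_of_nonneg_right ?_ hη
    calc (M : ℝ) ^ a * 2 ^ N ≤ (M : ℝ) ^ a * M := mul_le_mul_of_nonneg_left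
          ((pow_le_pow_right₀ (by norm_num) hN).trans hM') (by positivity)
      _ ≤ _ := by rw [← pow_succ]; exact pow_le_pow_right₀ hM1 (by omega)
  obtain ⟨-, -, d₁⟩ := h₁ i f x hf ((norm_jet_mono (by omega) f x).trans hjf)
  obtain ⟨-, b₂, d₂⟩ := h₂ i f x hf ((norm_jet_mono (by omega) f x).trans hjf)
  refine ⟨⟨fun h => key _ _ _ (by omega) (by omega) (by omega) (d₁ w P hw hP),
    fun h => key _ _ _ (by omega) (by omega) (by omega) (d₂ w P hw hP)⟩, ?_⟩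
  refine ((b₂ w hw).trans ?_)
  calc (M : ℝ) ^ E₂ i * ‖jet ((i : ℕ) + 1 + 3) w x‖ ≤ (M : ℝ) ^ E₂ i * (M : ℝ) ^ A :=
        mul_le_mul_of_nonneg_left ((norm_jet_mono (by omega) w x).trans hjw) (by positivity)
    _ ≤ _ := by rw [← pow_add]; exact pow_le_pow_right₀ hM1 (by omega)

/-! ### Directions -/

variable {d : ℕ}

/-- A direction moving `β_j`. -/
def DirI (R : ℕ → SF × SF) (F : (Fin d → ℝ) → E2 → R4) (M E V : ℕ) (η : ℝ) (l : Fin d → ℝ) (x : E2)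
    (j : Fin 4) : Prop :=
  ∃ v, ‖v‖ ≤ (M : ℝ) ^ V ∧ ‖jet 10 (dlam F l v) x‖ ≤ (M : ℝ) ^ E ∧
    (∀ i, i ≤ j → |var (R ((i : Fin 4) + 1 : ℕ)).1 (F l) (dlam F l v) x| ≤ η) ∧
    (∀ i, i < j → |var (R ((i : Fin 4) + 1 : ℕ)).2 (F l) (dlam F l v) x| ≤ η) ∧
    ((M : ℝ) ^ E)⁻¹ ≤ |var (R ((j : ℕ) + 1)).2 (F l) (dlam F l v) x| + η

/-- A direction moving `π_j`. -/
def DirII (R : ℕ → SF × SF) (F : (Fin d → ℝ) → E2 → R4) (M E V : ℕ) (η : ℝ) (l : Fin d → ℝ)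
    (x : E2) (j : Fin 4) : Prop :=
  ∃ v, ‖v‖ ≤ (M : ℝ) ^ V ∧ ‖jet 10 (dlam F l v) x‖ ≤ (M : ℝ) ^ E ∧
    (∀ i, i < j → |var (R ((i : Fin 4) + 1 : ℕ)).1 (F l) (dlam F l v) x| ≤ η) ∧
    (∀ i : Fin 4, |var (R ((i : ℕ) + 1)).2 (F l) (dlam F l v) x| ≤ (M : ℝ) ^ E) ∧
    ((M : ℝ) ^ E)⁻¹ ≤ |var (R ((j : ℕ) + 1)).1 (F l) (dlam F l v) x| + η

theorem dir_exact {M : ℝ} {E : ℕ} (hM : 1 ≤ M) {r r' ζ : ℝ} (h' : |r - r'| ≤ M ^ E * ζ) :
    (r' = 0 → |r| ≤ M ^ E * ζ) ∧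
      ∀ a : ℕ, a ≤ E → (M ^ a)⁻¹ ≤ |r'| → (M ^ E)⁻¹ ≤ |r| + M ^ E * ζ := by
  refine ⟨fun e => by simpa [e] using h', fun a ha hr => ?_⟩
  have := big_mono hM ha hr
  have := abs_sub_abs_le_abs_sub r' r
  rw [abs_sub_comm] at h'
  linarith

theorem two_pow_le {M : ℝ} (hM : 1 ≤ M) {E₁ E₂ E : ℕ} (h : E₁ + E₂ ≤ E) {ζ r : ℝ} (hζ : 0 ≤ ζ)
    (hr : r ≤ M ^ E₁ * (M ^ E₂ * ζ)) : r ≤ M ^ E * ζ := by
  refine hr.trans ?_
  rw [← mul_assoc, ← pow_add]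
  exact mul_le_mul_of_nonneg_right (pow_le_pow_right₀ hM h) hζ

/-- Chart `D`: directions for `β_n`. -/
theorem dirI_D (A c : ℕ) : ∃ E : ℕ, ∀ᶠ M : ℕ in atTop, ∀ b d (F : (Fin d → ℝ) → E2 → R4) K C V s,
    Setup b F K C A V s M → C ≤ M → ∀ l ∈ cube d, ∀ x ∈ K,
    (∀ j, ((M : ℝ) ^ c)⁻¹ ≤ |pvec pivD j (F l) x|) →
    ∀ j, DirI rowsD F M E V ((M : ℝ) ^ E * ((M : ℝ) ^ s)⁻¹) l x j := by
  obtain ⟨E₁, h₁⟩ := fine_top A c
  obtain ⟨E₂, h₂⟩ := row_close rowsD_jetAt A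
  refine ⟨E₁ + E₂ + A + 2 * c, ?_⟩
  filter_upwards [h₁, h₂, eventually_ge_atTop 1] with M h₁ h₂ hM b d F K C V s hS hC l hl x hx hp j
  have hM1 : (1 : ℝ) ≤ M := by exact_mod_cast hM
  have hM0 : (0 : ℝ) < M := by linarith
  have hP := hS.pt l hl x hx
  have hn : ((M : ℝ) ^ c)⁻¹ ≤ ⟪nu1 (F l) x, nu1 (F l) x⟫ := by
    have h := hp 0
    rwa [pvec, Fin.cons_zero, bb_eq, abs_neg, abs_of_nonneg real_inner_self_nonneg] at h
  obtain ⟨u₁, u₂, u₃, -, -⟩ := unit1_props (F l) x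
  have hj := j.isLt
  obtain ⟨v, hv, hw⟩ := hS.fine l hl x hx ((j : ℕ) + 1 + 3) ((j : ℕ) + 1 + 3) (by omega) (by omega)
    (Or.inl rfl) (unit1 (F l) x) u₂ (fun _ => u₃) u₁
  set ζ := ((M : ℝ) ^ s)⁻¹ with hζdef
  have hζ : 0 ≤ ζ := by positivity
  have hcl : ∀ {r : ℝ}, r ≤ (M : ℝ) ^ E₂ * ((M : ℝ) ^ E₁ * ζ) →
      r ≤ (M : ℝ) ^ (E₁ + E₂ + A + 2 * c) * ζ := fun h => two_pow_le hM1 (by omega) hζ h
  have hclose := (h₁ b C (F l) x _ _ _ ζ hP hC hζ (by omega) (by omega) u₂ (fun _ => u₃) u₁ hn).1 hw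
  set P := mono x ((j : ℕ) + 1 + 3) 0 (unit1 (F l) x) with hPdef
  have hPs := contDiff_mono x ((j : ℕ) + 1 + 3) 0 (unit1 (F l) x)
  have hV : Van ((j : ℕ) + 1 + 3) P x := van_mono x _ 0 _
  have hd := fun i => h₂ (F l) (dlam F l v) P x ((M : ℝ) ^ E₁ * ζ) hP.smooth hw.smooth hPs hP.jets
    hw.jets (by positivity) _ hclose i
  refine ⟨v, hv, hw.jets.trans (pow_le_pow_right₀ hM1 (by omega)), fun i hi => ?_, fun i hi => ?_, ?_⟩
  · have hi' : (i : ℕ) ≤ j := hi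
    exact (dir_exact hM1 (hcl ((hd i).1.1 (by omega)))).1
      (var_eq_zero (rowsD_jetAt _).1 hP.smooth hPs hV (by omega))
  · have hi' : (i : ℕ) < j := hi
    exact (dir_exact hM1 (hcl ((hd i).1.2 (by omega)))).1
      (var_eq_zero (rowsD_jetAt _).2 hP.smooth hPs hV (by omega))
  · refine (dir_exact hM1 (hcl ((hd j).1.2 (by omega)))).2
      (c + c) (by omega) ?_
    rw [hPdef, sym_beD hP.smooth hP.gdet_pos.ne' ((j : ℕ) + 1), abs_neg, (nu2_unit1 (F l) x).2]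
    refine big_mul hM0 ?_ ((big_norm hM1 _ hn).trans (le_abs_self _))
    have h := hp j.succ
    rwa [pvec, Fin.cons_succ, pivD] at h

/-- Chart `k`: directions for `β_n`. -/
theorem dirI_K (A c : ℕ) : ∃ E : ℕ, ∀ᶠ M : ℕ in atTop, ∀ b d (F : (Fin d → ℝ) → E2 → R4) K C V s,
    Setup b F K C A V s M → C ≤ M → ∀ l ∈ cube d, ∀ x ∈ K,
    (∀ j, ((M : ℝ) ^ c)⁻¹ ≤ |pvec pivK j (F l) x|) →
    ∀ j, DirI rowsK F M E V ((M : ℝ) ^ E * ((M : ℝ) ^ s)⁻¹) l x j := by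
  obtain ⟨E₁, h₁⟩ := fine_top A c
  obtain ⟨E₂, h₂⟩ := row_close rowsK_jetAt A
  refine ⟨E₁ + E₂ + A + 2 * c, ?_⟩
  filter_upwards [h₁, h₂, eventually_ge_atTop 1] with M h₁ h₂ hM b d F K C V s hS hC l hl x hx hp j
  have hM1 : (1 : ℝ) ≤ M := by exact_mod_cast hM
  have hM0 : (0 : ℝ) < M := by linarith
  have hP := hS.pt l hl x hx
  have hn : ((M : ℝ) ^ c)⁻¹ ≤ ⟪nu1 (F l) x, nu1 (F l) x⟫ := by
    have h := hp 0
    rwa [pvec, Fin.cons_zero, bb_eq, abs_neg, abs_of_nonneg real_inner_self_nonneg] at h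
  obtain ⟨u₁, u₂, u₃, -, -⟩ := unit1_props (F l) x
  have hj := j.isLt
  obtain ⟨v, hv, hw⟩ := hS.fine l hl x hx ((j : ℕ) + 1 + 3) ((j : ℕ) + 1 + 2) (by omega) (by omega)
    (Or.inr rfl) (unit1 (F l) x) u₂ (fun _ => u₃) u₁
  set ζ := ((M : ℝ) ^ s)⁻¹ with hζdef
  have hζ : 0 ≤ ζ := by positivity
  have hcl : ∀ {r : ℝ}, r ≤ (M : ℝ) ^ E₂ * ((M : ℝ) ^ E₁ * ζ) →
      r ≤ (M : ℝ) ^ (E₁ + E₂ + A + 2 * c) * ζ := fun h => two_pow_le hM1 (by omega) hζ h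
  have hclose := (h₁ b C (F l) x _ _ _ ζ hP hC hζ (by omega) (by omega) u₂ (fun _ => u₃) u₁ hn).2 hw
  set σ := absSig b (F l) x (unit1 (F l) x) with hσdef
  set P₁ := mono x ((j : ℕ) + 1 + 2) 1 (unit1 (F l) x) with hP₁
  set P₂ := mono x ((j : ℕ) + 1 + 3) 0 σ with hP₂
  have s₁ := contDiff_mono x ((j : ℕ) + 1 + 2) 1 (unit1 (F l) x)
  have s₂ := contDiff_mono x ((j : ℕ) + 1 + 3) 0 σ
  have hd := fun i => h₂ (F l) (dlam F l v) (fun z => P₁ z + P₂ z) x ((M : ℝ) ^ E₁ * ζ) hP.smooth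
    hw.smooth (s₁.add s₂) hP.jets hw.jets (by positivity) _ hclose i
  have hsum : ∀ {g : SF}, JetFn g → var g (F l) (fun z => P₁ z + P₂ z) x =
      var g (F l) P₁ x + var g (F l) P₂ x := fun h => var_add_dir h hP.smooth s₁ s₂
  have hz : ∀ {g : SF} {N : ℕ}, JetAt N g → N < (j : ℕ) + 1 + 3 →
      var g (F l) (fun z => P₁ z + P₂ z) x = 0 := fun h hN => by
    rw [hsum h.jetFn, hP₁, hP₂, var_eq_zero h hP.smooth s₁ (van_mono x _ _ _) hN,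
      var_eq_zero h hP.smooth s₂ (van_mono x _ _ _) hN, add_zero]
  refine ⟨v, hv, hw.jets.trans (pow_le_pow_right₀ hM1 (by omega)), fun i hi => ?_, fun i hi => ?_, ?_⟩
  · have hi' : (i : ℕ) ≤ j := hi
    exact (dir_exact hM1 (hcl ((hd i).1.1 (by omega)))).1
      (hz (rowsK_jetAt _).1 (by omega))
  · have hi' : (i : ℕ) < j := hi
    exact (dir_exact hM1 (hcl ((hd i).1.2 (by omega)))).1
      (hz (rowsK_jetAt _).2 (by omega))
  · refine (dir_exact hM1 (hcl ((hd j).1.2 (by omega)))).2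
      (c + c) (by omega) ?_
    rw [hsum (rowsK_jetAt _).2.jetFn, hP₁, hP₂,
      sym_beK_b hP.smooth hP.gdet_pos.ne' ((j : ℕ) + 1) (nu2_unit1 (F l) x).1,
      sym_beK_a hP.smooth hP.gdet_pos.ne' ((j : ℕ) + 1), (nu2_unit1 (F l) x).2,
      show ⟪nu1 (F l) x, σ⟫ = 0 by
        rw [hσdef, absSig, real_inner_smul_right, inner_nu1_nu2, mul_zero]]
    simp only [mul_zero, add_zero]
    rw [← mul_assoc, mul_right_comm]
    refine big_mul hM0 ?_ ((big_norm hM1 _ hn).trans (le_abs_self _))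
    have h := hp j.succ
    rwa [pvec, Fin.cons_succ, pivK, brK] at h

/-- Chart `D`: first directions for `π_n`. -/
theorem dirII_A (b : Bool) (A c : ℕ) : ∃ E : ℕ, ∀ᶠ M : ℕ in atTop,
    ∀ d (F : (Fin d → ℝ) → E2 → R4) K C V s,
    Setup b F K C A V s M → C ≤ M → ∀ l ∈ cube d, ∀ x ∈ K,
    (∀ j, ((M : ℝ) ^ c)⁻¹ ≤ |pvec (pivA b) j (F l) x|) →
    ∀ j, DirII rowsD F M E V ((M : ℝ) ^ E * ((M : ℝ) ^ s)⁻¹) l x j := by
  obtain ⟨E₁, h₁⟩ := fine_top A c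
  obtain ⟨E₂, h₂⟩ := row_close rowsD_jetAt A
  refine ⟨E₁ + E₂ + A + 2 * c + 4, ?_⟩
  filter_upwards [h₁, h₂, eventually_ge_atTop 1] with M h₁ h₂ hM d F K C V s hS hC l hl x hx hp j
  have hM1 : (1 : ℝ) ≤ M := by exact_mod_cast hM
  have hM0 : (0 : ℝ) < M := by linarith
  have hP := hS.pt l hl x hx
  have hn : ((M : ℝ) ^ c)⁻¹ ≤ ⟪nu1 (F l) x, nu1 (F l) x⟫ := by
    have h := hp 0
    rwa [pvec, Fin.cons_zero, bb_eq, abs_neg, abs_of_nonneg real_inner_self_nonneg] at h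
  have hG : ((M : ℝ) ^ 4)⁻¹ ≤ gdet (F l) x := by
    refine le_trans (inv_anti₀ (pow_pos (lt_of_lt_of_le one_pos hP.one_le) 4) ?_) hP.gdet_ge
    exact pow_le_pow_left₀ (by linarith [hP.one_le]) hC 4
  obtain ⟨τ, t₁, t₂, t₃, hpiv⟩ : ∃ τ, Normal (F l) x τ ∧ (b = true → ⟪τ, fyy (F l) x⟫ = 0) ∧
      ‖τ‖ ≤ 1 ∧ ((M : ℝ) ^ (2 * c + 4))⁻¹ ≤
        |var (rowsD ((j : ℕ) + 1)).1 (F l) (mono x ((j : ℕ) + 1 + 2) 0 τ) x| := by
    have h := hp j.succ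
    rw [pvec, Fin.cons_succ] at h
    cases b with
    | true =>
      obtain ⟨u₁, u₂, u₃, -, -⟩ := unit1_props (F l) x
      refine ⟨_, u₂, fun _ => u₃, u₁, ?_⟩
      rw [sym_piD_a hP.smooth hP.gdet_pos.ne', (nu2_unit1 (F l) x).1, (nu2_unit1 (F l) x).2, abs_neg,
        mul_zero, mul_zero, zero_mul, add_zero, ← mul_assoc _ (Qp _ _), ← mul_assoc]
      exact big_mono hM1 (show c + c ≤ 2 * c + 4 by omega)
        (big_mul hM0 h ((big_norm hM1 _ hn).trans (le_abs_self _)))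
    | false =>
      obtain ⟨u₁, u₂, u₃, u₄⟩ := unit2_props (F l) x
      refine ⟨_, u₂, fun h => Bool.noConfusion h, u₁, ?_⟩
      rw [sym_piD_a hP.smooth hP.gdet_pos.ne', u₃, u₄, abs_neg, mul_zero, zero_add,
        show pD (F l) x ^ (2 * ((j : ℕ) + 1)) * (DD (F l) x * (gdet (F l) x * (bb (F l) x *
          ‖nu2 (F l) x‖) * (DD (F l) x * DD (F l) x))) =
          pivA false ((j : ℕ) + 1) (F l) x * ‖nu2 (F l) x‖ by simp only [pivA]; ring]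
      refine big_mono hM1 (by omega) (big_mul hM0 h (le_trans ?_ (le_abs_self _)) (a' := 4 + c))
      refine big_norm hM1 _ ?_
      rw [inner_nu2_nu2, pow_add, mul_inv]
      exact mul_le_mul hG hn (by positivity) hP.gdet_pos.le
  have hj := j.isLt
  obtain ⟨v, hv, hw⟩ := hS.fine l hl x hx ((j : ℕ) + 1 + 2) ((j : ℕ) + 1 + 2) (by omega) (by omega)
    (Or.inl rfl) τ t₁ t₂ t₃
  set ζ := ((M : ℝ) ^ s)⁻¹ with hζdef
  have hζ : 0 ≤ ζ := by positivity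
  have hcl : ∀ {r : ℝ}, r ≤ (M : ℝ) ^ E₂ * ((M : ℝ) ^ E₁ * ζ) →
      r ≤ (M : ℝ) ^ (E₁ + E₂ + A + 2 * c + 4) * ζ := fun h => two_pow_le hM1 (by omega) hζ h
  have hclose := (h₁ b C (F l) x _ _ _ ζ hP hC hζ (by omega) (by omega) t₁ t₂ t₃ hn).1 hw
  have hPs := contDiff_mono x ((j : ℕ) + 1 + 2) 0 τ
  have hd := fun i => h₂ (F l) (dlam F l v) _ x ((M : ℝ) ^ E₁ * ζ) hP.smooth hw.smooth hPs hP.jets
    hw.jets (by positivity) _ hclose i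
  refine ⟨v, hv, hw.jets.trans (pow_le_pow_right₀ hM1 (by omega)), fun i hi => ?_,
    fun i => (hd i).2.trans (pow_le_pow_right₀ hM1 (by omega)), ?_⟩
  · have hi' : (i : ℕ) < j := hi
    exact (dir_exact hM1 (hcl ((hd i).1.1 (by omega)))).1
      (var_eq_zero (rowsD_jetAt _).1 hP.smooth hPs (van_mono x _ 0 _) (by omega))
  · exact (dir_exact hM1 (hcl ((hd j).1.1 (by omega)))).2
      (2 * c + 4) (by omega) hpiv

/-- Chart `D`, `II(∂y,∂y)` not small: second directions for `π_n`. -/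
theorem dirII_B (A c : ℕ) : ∃ E : ℕ, ∀ᶠ M : ℕ in atTop, ∀ d (F : (Fin d → ℝ) → E2 → R4) K C V s,
    Setup true F K C A V s M → C ≤ M → ∀ l ∈ cube d, ∀ x ∈ K,
    (∀ j, ((M : ℝ) ^ c)⁻¹ ≤ |pvec pivB j (F l) x|) →
    ∀ j, DirII rowsD F M E V ((M : ℝ) ^ E * ((M : ℝ) ^ s)⁻¹) l x j := by
  obtain ⟨E₁, h₁⟩ := fine_top A c
  obtain ⟨E₂, h₂⟩ := row_close rowsD_jetAt A
  refine ⟨E₁ + E₂ + A + 2 * c, ?_⟩
  filter_upwards [h₁, h₂, eventually_ge_atTop 1] with M h₁ h₂ hM d F K C V s hS hC l hl x hx hp j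
  have hM1 : (1 : ℝ) ≤ M := by exact_mod_cast hM
  have hM0 : (0 : ℝ) < M := by linarith
  have hP := hS.pt l hl x hx
  have hn : ((M : ℝ) ^ c)⁻¹ ≤ ⟪nu1 (F l) x, nu1 (F l) x⟫ := by
    have h := hp 0
    rwa [pvec, Fin.cons_zero, bb_eq, abs_neg, abs_of_nonneg real_inner_self_nonneg] at h
  have hn0 : 0 < ⟪nu1 (F l) x, nu1 (F l) x⟫ := lt_of_lt_of_le (by positivity) hn
  have hr0 : 0 < ‖nu1 (F l) x‖ := by
    by_contra h
    rw [real_inner_self_eq_norm_sq] at hn0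
    nlinarith [norm_nonneg (nu1 (F l) x), not_lt.1 h]
  obtain ⟨u₁, u₂, u₃, -, -⟩ := unit1_props (F l) x
  have hj := j.isLt
  obtain ⟨v, hv, hw⟩ := hS.fine l hl x hx ((j : ℕ) + 1 + 2) ((j : ℕ) + 1 + 1) (by omega) (by omega)
    (Or.inr rfl) (unit1 (F l) x) u₂ (fun _ => u₃) u₁
  set ζ := ((M : ℝ) ^ s)⁻¹ with hζdef
  have hζ : 0 ≤ ζ := by positivity
  have hcl : ∀ {r : ℝ}, r ≤ (M : ℝ) ^ E₂ * ((M : ℝ) ^ E₁ * ζ) →
      r ≤ (M : ℝ) ^ (E₁ + E₂ + A + 2 * c) * ζ := fun h => two_pow_le hM1 (by omega) hζ h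
  have hclose :=
    (h₁ true C (F l) x _ _ _ ζ hP hC hζ (by omega) (by omega) u₂ (fun _ => u₃) u₁ hn).2 hw
  set σ := absSig true (F l) x (unit1 (F l) x) with hσdef
  set P₁ := mono x ((j : ℕ) + 1 + 1) 1 (unit1 (F l) x) with hP₁
  set P₂ := mono x ((j : ℕ) + 1 + 2) 0 σ with hP₂
  have s₁ := contDiff_mono x ((j : ℕ) + 1 + 1) 1 (unit1 (F l) x)
  have s₂ := contDiff_mono x ((j : ℕ) + 1 + 2) 0 σ
  have hd := fun i => h₂ (F l) (dlam F l v) (fun z => P₁ z + P₂ z) x ((M : ℝ) ^ E₁ * ζ) hP.smooth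
    hw.smooth (s₁.add s₂) hP.jets hw.jets (by positivity) _ hclose i
  have hsum : ∀ {g : SF}, JetFn g → var g (F l) (fun z => P₁ z + P₂ z) x =
      var g (F l) P₁ x + var g (F l) P₂ x := fun h => var_add_dir h hP.smooth s₁ s₂
  refine ⟨v, hv, hw.jets.trans (pow_le_pow_right₀ hM1 (by omega)), fun i hi => ?_,
    fun i => (hd i).2.trans (pow_le_pow_right₀ hM1 (by omega)), ?_⟩
  · have hi' : (i : ℕ) < j := hi
    refine (dir_exact hM1 (hcl ((hd i).1.1 (by omega)))).1 ?_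
    rw [hsum (rowsD_jetAt _).1.jetFn, hP₁, hP₂,
      var_eq_zero (rowsD_jetAt _).1 hP.smooth s₁ (van_mono x _ _ _) (by omega),
      var_eq_zero (rowsD_jetAt _).1 hP.smooth s₂ (van_mono x _ _ _) (by omega), add_zero]
  · refine (dir_exact hM1 (hcl ((hd j).1.1 (by omega)))).2
      (c + c) (by omega) ?_
    have hσ1 : ⟪nu1 (F l) x, σ⟫ = 0 := by
      rw [hσdef, absSig, real_inner_smul_right, inner_nu1_nu2, mul_zero]
    have hσ2 : bb (F l) x * ⟪nu2 (F l) x, σ⟫ =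
        DD (F l) x * gdet (F l) x * ‖nu1 (F l) x‖ := by
      have e : ⟪fxy (F l) x, unit1 (F l) x⟫ = DD (F l) x / (2 * ‖nu1 (F l) x‖) := by
        rw [unit1, real_inner_smul_right, DD]; field_simp
      have hb : bb (F l) x ≠ 0 := by rw [bb_eq]; exact neg_ne_zero.2 hn0.ne'
      rw [hσdef, absSig, if_pos rfl, real_inner_smul_right, inner_nu2_nu2, e,
        real_inner_self_eq_norm_sq]
      field_simp
    rw [hsum (rowsD_jetAt _).1.jetFn, hP₁, hP₂,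
      sym_piD_b hP.smooth hP.gdet_pos.ne' (j : ℕ) (nu2_unit1 (F l) x).1,
      sym_piD_a hP.smooth hP.gdet_pos.ne', (nu2_unit1 (F l) x).2, hσ1, hσ2]
    have h := hp j.succ
    rw [pvec, Fin.cons_succ] at h
    have e : pD (F l) x ^ (2 * ((j : ℕ) + 1)) * (‖nu1 (F l) x‖ * (-8 * Qb (F l) x
        + (((j : ℕ) : ℝ) + 3) * (kk (F l) x * Qp (F l) x)))
        + -(pD (F l) x ^ (2 * ((j : ℕ) + 1)) * (DD (F l) x * (Qp (F l) x * 0
          + gdet (F l) x * (DD (F l) x * gdet (F l) x * ‖nu1 (F l) x‖)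
            * (DD (F l) x * DD (F l) x)))) =
        pivB ((j : ℕ) + 1) (F l) x * ‖nu1 (F l) x‖ := by
      simp only [pivB, brB]; push_cast; ring
    rw [e]
    exact big_mul hM0 h ((big_norm hM1 _ hn).trans (le_abs_self _))

end Vale.Agent.P205F
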