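import Vale.Agent.P205F.GoodProb.Bounds

/-!
# P205, GoodProb: the top symbols of the rows of G1

At a test monomial flat to the top order of `β_n` (order `n + 3`), resp. `π_n` (order `n + 2`), the
variation obeys `V_{n+1}(w) = p² V_n(w_x) + p q V_n(w_y)`, so it is explicit in `n`.
-/

namespace Vale.Agent.P205F

open scoped ContDiff RealInnerProductSpace

variable {f w : E2 → R4} {x : E2}

/-- `b²`-multiple of the quadratic of the rows. -/
noncomputable def Qb : SF := fun f x =>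
  Del f x * (kk f x * kk f x) - A11 f x * (kk f x * DD f x) + A10 f x * (DD f x * DD f x)

/-- Its derivative in `k`. -/
noncomputable def Qp : SF := fun f x => 2 * Del f x * kk f x - A11 f x * DD f x

theorem JetAt.Qb : JetAt 2 P205F.Qb :=
  ((Del.mul (kk.mul kk)).sub (A11.mul (kk.mul DD))).add (A10.mul (DD.mul DD))

theorem JetAt.Qp : JetAt 2 P205F.Qp :=
  ((((JetAt.const (2 : ℝ)).mul Del).mul kk).sub (A11.mul DD))

/-! ### Flat directions -/

theorem van_mono (x : E2) (a b : ℕ) (v : R4) : Van (a + b) (mono x a b v) x := fun i j h => by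
  rw [pdm_mono, if_neg (by omega)]

theorem Van.pd {n : ℕ} (h : Van (n + 1) w x) (hw : ContDiff ℝ ∞ w) (i : Fin 2) :
    Van n (P205F.pd i w) x := fun a c hac => by
  obtain rfl | rfl : i = 0 ∨ i = 1 := by omega
  · rw [pdm_pd0 hw]; exact h _ _ (by omega)
  · rw [pdm_pd1]; exact h _ _ (by omega)

theorem var_zero {X : Type*} [NormedAddCommGroup X] [NormedSpace ℝ X] {c : (E2 → R4) → E2 → X}
    (hc : JetFn c) (hf : ContDiff ℝ ∞ f) : var c f (0 : E2 → R4) x = 0 := by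
  obtain ⟨N, g, hg, e⟩ := hc
  exact var_eq_zero (N := N) ⟨g, hg, e⟩ hf contDiff_const
    (n := N + 1) (fun i j _ => by rw [pdm_zero]; rfl) N.lt_succ_self

theorem tan_mono (hf : ContDiff ℝ ∞ f) (hG : gdet f x ≠ 0) {a b : ℕ} (hab : a + b = 2) (v : R4) :
    Tan f (mono x a b v) x := by
  refine ⟨hf, contDiff_mono x a b v, hG, fun i => ?_⟩
  have h : pd i (mono x a b v) x = 0 := by
    obtain rfl | rfl : i = 0 ∨ i = 1 := by omega
    · exact van_mono x a b v 1 0 (by omega)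
    · exact van_mono x a b v 0 1 (by omega)
  rw [h]; exact cross_zero₃ _ _

/-- The variations at a monomial of order two. -/
theorem sym_two (hf : ContDiff ℝ ∞ f) (hG : gdet f x ≠ 0) {a b : ℕ} (hab : a + b = 2) (hb : b ≤ 1)
    (v : R4) :
    var bb f (mono x a b v) x = 0 ∧ var Del f (mono x a b v) x = 0 ∧
    var kk f (mono x a b v) x = (if b = 0 then ⟪nu1 f x, v⟫ else 0) ∧
    var DD f (mono x a b v) x = (if b = 0 then 0 else 2 * ⟪nu1 f x, v⟫) ∧
    var dd f (mono x a b v) x = (if b = 0 then ⟪nu2 f x, v⟫ else 0) ∧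
    var cc f (mono x a b v) x = (if b = 0 then 0 else ⟪nu2 f x, v⟫) ∧
    var A10 f (mono x a b v) x = (if b = 0 then gdet f x * (bb f x * ⟪nu2 f x, v⟫) else 0) ∧
    var A11 f (mono x a b v) x =
      (if b = 0 then 0 else 2 * (gdet f x * (bb f x * ⟪nu2 f x, v⟫))) := by
  have hT := tan_mono hf hG hab v
  have hp : ∀ i : Fin 2, pd i (mono x a b v) x = 0 := fun i => by
    obtain rfl | rfl : i = 0 ∨ i = 1 := by omega
    · exact van_mono x a b v 1 0 (by omega)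
    · exact van_mono x a b v 0 1 (by omega)
  have htr : tr f (mono x a b v) x = 0 := by simp [tr, hp]
  have hyy : fyy (mono x a b v) x = 0 :=
    (pdm_mono x a b v 0 2).trans (if_neg (by omega))
  have hxx : fxx (mono x a b v) x = if b = 0 then v else 0 :=
    (pdm_mono x a b v 2 0).trans (if_congr (by omega) rfl rfl)
  have hxy : fxy (mono x a b v) x = if b = 0 then 0 else v := by
    refine (pdm_mono x a b v 1 1).trans ?_
    split_ifs <;> first | rfl | omega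
  have hn : nv f x (0 : R4) = 0 := cross_zero₃ _ _
  refine ⟨?_, ?_, ?_, ?_, ?_, ?_, ?_, ?_⟩
  · simp [hT.var_bb, htr, hyy]
  · simp [hT.var_Del, htr, hyy]
  · rw [hT.var_kk, htr, hyy, hxx, omega_eq, hn]; split_ifs <;> simp
  · rw [hT.var_DD, htr, hyy, hxy, omega_eq, hn]; split_ifs <;> simp
  · rw [hT.var_dd, htr, hyy, hxx, hn]; split_ifs <;> simp
  · rw [hT.var_cc, htr, hyy, hxy, hn]; split_ifs <;> simp
  · rw [hT.var_A10, htr, hyy, hxx, hn]; split_ifs <;> simp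
  · rw [hT.var_A11, htr, hyy, hxy, hn]; split_ifs <;> simp; ring

/-! ### The order three coefficients -/

section Three

variable (hf : ContDiff ℝ ∞ f) (hw : ContDiff ℝ ∞ w) (hv : Van 3 w x)
include hf hw hv

theorem var_alD_top : var alD f w x = Del f x * (DD f x * var kk f (pd 1 w) x
    - var DD f (pd 1 w) x * kk f x) := by
  have l : ∀ {c : SF}, JetAt 2 c → var c f w x = 0 := fun h => var_eq_zero h hf hw hv (by omega)
  have t : ∀ {c : SF}, JetAt 2 c → ∀ i : Fin 2,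
      var (fun f x => pd i (c f) x) f w x = var c f (pd i w) x :=
    fun h i => var_pd_top h hf hw hv (by omega) i
  have kB := (JetFn.B00.mul JetFn.DD).sub (JetFn.B01.mul JetFn.kk)
  have kA := (JetFn.DD.mul (JetFn.kk.pd 1)).sub ((JetFn.DD.pd 1).mul JetFn.kk)
  unfold alD
  rw [var_add (JetFn.Del.mul kA) (JetFn.DD.mul kB) hf hw, var_mul JetFn.Del kA hf hw,
    var_mul JetFn.DD kB hf hw, var_sub (JetFn.DD.mul (JetFn.kk.pd 1)) ((JetFn.DD.pd 1).mul JetFn.kk)
      hf hw, var_sub (JetFn.B00.mul JetFn.DD) (JetFn.B01.mul JetFn.kk) hf hw,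
    var_mul JetFn.DD (JetFn.kk.pd 1) hf hw, var_mul (JetFn.DD.pd 1) JetFn.kk hf hw,
    var_mul JetFn.B00 JetFn.DD hf hw, var_mul JetFn.B01 JetFn.kk hf hw, l JetAt.Del, l JetAt.DD,
    l JetAt.kk, l JetAt.B00, l JetAt.B01, t JetAt.kk, t JetAt.DD]
  ring

theorem var_B10_top : var B10 f w x =
    gdet f x * (bb f x * var dd f (pd 1 w) x - var bb f (pd 1 w) x * dd f x) := by
  have l : ∀ {c : SF}, JetAt 2 c → var c f w x = 0 := fun h => var_eq_zero h hf hw hv (by omega)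
  have t : ∀ {c : SF}, JetAt 2 c → ∀ i : Fin 2,
      var (fun f x => pd i (c f) x) f w x = var c f (pd i w) x :=
    fun h i => var_pd_top h hf hw hv (by omega) i
  have k₁ := (JetFn.bb.mul (JetFn.dd.pd 1)).sub ((JetFn.bb.pd 1).mul JetFn.dd)
  have k₂ := JetFn.bb2.mul (JetFn.gam 1 0)
  have k₃ := (JetFn.bb.mul (JetFn.gam 1 2)).mul JetFn.dd
  unfold B10
  rw [var_add ((JetFn.gdet.mul k₁).sub k₂) k₃ hf hw, var_sub (JetFn.gdet.mul k₁) k₂ hf hw,
    var_mul JetFn.gdet k₁ hf hw,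
    var_sub (JetFn.bb.mul (JetFn.dd.pd 1)) ((JetFn.bb.pd 1).mul JetFn.dd) hf hw,
    var_mul JetFn.bb (JetFn.dd.pd 1) hf hw, var_mul (JetFn.bb.pd 1) JetFn.dd hf hw,
    l (JetAt.bb2.mul (JetAt.gam 1 0)), l ((JetAt.bb.mul (JetAt.gam 1 2)).mul JetAt.dd),
    l (JetAt.gdet.mono one_le_two), l JetAt.bb, l JetAt.dd, t JetAt.dd, t JetAt.bb]
  ring

theorem var_B11_top : var B11 f w x =
    2 * gdet f x * (bb f x * var cc f (pd 1 w) x - var bb f (pd 1 w) x * cc f x) := by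
  have l : ∀ {c : SF}, JetAt 2 c → var c f w x = 0 := fun h => var_eq_zero h hf hw hv (by omega)
  have t : ∀ {c : SF}, JetAt 2 c → ∀ i : Fin 2,
      var (fun f x => pd i (c f) x) f w x = var c f (pd i w) x :=
    fun h i => var_pd_top h hf hw hv (by omega) i
  have k₁ := (JetFn.bb.mul (JetFn.cc.pd 1)).sub ((JetFn.bb.pd 1).mul JetFn.cc)
  have k₂ := JetFn.bb2.mul (JetFn.gam 1 1)
  have k₃ := (((JetFn.const (2 : ℝ)).mul JetFn.bb).mul (JetFn.gam 1 2)).mul JetFn.cc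
  have G := (JetFn.const (2 : ℝ)).mul JetFn.gdet
  unfold B11
  rw [var_add ((G.mul k₁).sub k₂) k₃ hf hw, var_sub (G.mul k₁) k₂ hf hw,
    var_mul G k₁ hf hw,
    var_sub (JetFn.bb.mul (JetFn.cc.pd 1)) ((JetFn.bb.pd 1).mul JetFn.cc) hf hw,
    var_mul JetFn.bb (JetFn.cc.pd 1) hf hw, var_mul (JetFn.bb.pd 1) JetFn.cc hf hw,
    l (JetAt.bb2.mul (JetAt.gam 1 1)),
    l ((((JetAt.const (2 : ℝ)).mul JetAt.bb).mul (JetAt.gam 1 2)).mul JetAt.cc),
    l (((JetAt.const (2 : ℝ)).mul JetAt.gdet).mono (by omega)), l JetAt.bb, l JetAt.cc,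
    t JetAt.cc, t JetAt.bb]
  ring

theorem var_alK_top : var alK f w x =
    A10 f x * (var kk f (pd 1 w) x * DD f x - kk f x * var DD f (pd 1 w) x)
      + kk f x * (kk f x * var B11 f w x - var B10 f w x * DD f x) := by
  have l : ∀ {c : SF}, JetAt 2 c → var c f w x = 0 := fun h => var_eq_zero h hf hw hv (by omega)
  have t : ∀ {c : SF}, JetAt 2 c → ∀ i : Fin 2,
      var (fun f x => pd i (c f) x) f w x = var c f (pd i w) x :=
    fun h i => var_pd_top h hf hw hv (by omega) i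
  have k₁ := ((JetFn.kk.pd 1).mul JetFn.DD).sub (JetFn.kk.mul (JetFn.DD.pd 1))
  have k₂ := (JetFn.kk.mul JetFn.B11).sub (JetFn.B10.mul JetFn.DD)
  unfold alK
  rw [var_add (JetFn.A10.mul k₁) (JetFn.kk.mul k₂) hf hw, var_mul JetFn.A10 k₁ hf hw,
    var_mul JetFn.kk k₂ hf hw,
    var_sub ((JetFn.kk.pd 1).mul JetFn.DD) (JetFn.kk.mul (JetFn.DD.pd 1)) hf hw,
    var_sub (JetFn.kk.mul JetFn.B11) (JetFn.B10.mul JetFn.DD) hf hw,
    var_mul (JetFn.kk.pd 1) JetFn.DD hf hw, var_mul JetFn.kk (JetFn.DD.pd 1) hf hw,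
    var_mul JetFn.kk JetFn.B11 hf hw, var_mul JetFn.B10 JetFn.DD hf hw, l JetAt.A10, l JetAt.DD,
    l JetAt.kk, t JetAt.kk, t JetAt.DD]
  ring

theorem var_beD_top : var beD f w x =
    DD f x * (DD f x * (var B11 f w x * kk f x - var B10 f w x * DD f x))
      - Del f x * (DD f x * (DD f x * var kk f (pd 0 w) x - var DD f (pd 0 w) x * kk f x))
      - kk f x * var alD f w x
      + A11 f x * (DD f x * (DD f x * var kk f (pd 1 w) x - var DD f (pd 1 w) x * kk f x)) := by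
  have l : ∀ {c : SF}, JetAt 2 c → var c f w x = 0 := fun h => var_eq_zero h hf hw hv (by omega)
  have t : ∀ {c : SF}, JetAt 2 c → ∀ i : Fin 2,
      var (fun f x => pd i (c f) x) f w x = var c f (pd i w) x :=
    fun h i => var_pd_top h hf hw hv (by omega) i
  have a₀ := (JetFn.B11.mul JetFn.kk).sub (JetFn.B10.mul JetFn.DD)
  have a₁ := fun i : Fin 2 => (JetFn.DD.mul (JetFn.kk.pd i)).sub ((JetFn.DD.pd i).mul JetFn.kk)
  have k₁ := JetFn.DD.mul (JetFn.DD.mul a₀)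
  have k₂ := JetFn.Del.mul (JetFn.DD.mul (a₁ 0))
  have k₃ := JetFn.kk.mul JetFn.alD
  have k₄ := JetFn.A11.mul (JetFn.DD.mul (a₁ 1))
  unfold beD
  rw [var_add ((k₁.sub k₂).sub k₃) k₄ hf hw, var_sub (k₁.sub k₂) k₃ hf hw, var_sub k₁ k₂ hf hw,
    var_mul JetFn.DD (JetFn.DD.mul a₀) hf hw, var_mul JetFn.DD a₀ hf hw,
    var_mul JetFn.Del (JetFn.DD.mul (a₁ 0)) hf hw, var_mul JetFn.DD (a₁ 0) hf hw,
    var_mul JetFn.kk JetFn.alD hf hw, var_mul JetFn.A11 (JetFn.DD.mul (a₁ 1)) hf hw,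
    var_mul JetFn.DD (a₁ 1) hf hw,
    var_sub (JetFn.B11.mul JetFn.kk) (JetFn.B10.mul JetFn.DD) hf hw,
    var_sub (JetFn.DD.mul (JetFn.kk.pd 0)) ((JetFn.DD.pd 0).mul JetFn.kk) hf hw,
    var_sub (JetFn.DD.mul (JetFn.kk.pd 1)) ((JetFn.DD.pd 1).mul JetFn.kk) hf hw,
    var_mul JetFn.B11 JetFn.kk hf hw, var_mul JetFn.B10 JetFn.DD hf hw,
    var_mul JetFn.DD (JetFn.kk.pd 0) hf hw, var_mul (JetFn.DD.pd 0) JetFn.kk hf hw,
    var_mul JetFn.DD (JetFn.kk.pd 1) hf hw, var_mul (JetFn.DD.pd 1) JetFn.kk hf hw,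
    l JetAt.Del, l JetAt.DD, l JetAt.kk, l JetAt.A11, t JetAt.kk, t JetAt.kk, t JetAt.DD,
    t JetAt.DD]
  ring

theorem var_beK_top : var beK f w x =
    -(Del f x * (kk f x * (kk f x * var DD f (pd 0 w) x - var kk f (pd 0 w) x * DD f x)))
      - DD f x * var alK f w x := by
  have l : ∀ {c : SF}, JetAt 2 c → var c f w x = 0 := fun h => var_eq_zero h hf hw hv (by omega)
  have t : ∀ {c : SF}, JetAt 2 c → ∀ i : Fin 2,
      var (fun f x => pd i (c f) x) f w x = var c f (pd i w) x :=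
    fun h i => var_pd_top h hf hw hv (by omega) i
  have a₀ := (JetFn.B00.mul JetFn.DD).sub (JetFn.kk.mul JetFn.B01)
  have a₁ := (JetFn.kk.mul (JetFn.DD.pd 0)).sub ((JetFn.kk.pd 0).mul JetFn.DD)
  have k₁ := JetFn.kk.mul (JetFn.kk.mul a₀)
  have k₂ := JetFn.Del.mul (JetFn.kk.mul a₁)
  have k₃ := JetFn.DD.mul JetFn.alK
  unfold beK
  rw [var_sub (k₁.sub k₂) k₃ hf hw, var_sub k₁ k₂ hf hw,
    var_mul JetFn.kk (JetFn.kk.mul a₀) hf hw, var_mul JetFn.kk a₀ hf hw,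
    var_mul JetFn.Del (JetFn.kk.mul a₁) hf hw, var_mul JetFn.kk a₁ hf hw,
    var_mul JetFn.DD JetFn.alK hf hw,
    var_sub (JetFn.B00.mul JetFn.DD) (JetFn.kk.mul JetFn.B01) hf hw,
    var_sub (JetFn.kk.mul (JetFn.DD.pd 0)) ((JetFn.kk.pd 0).mul JetFn.DD) hf hw,
    var_mul JetFn.B00 JetFn.DD hf hw, var_mul JetFn.kk JetFn.B01 hf hw,
    var_mul JetFn.kk (JetFn.DD.pd 0) hf hw, var_mul (JetFn.kk.pd 0) JetFn.DD hf hw,
    l JetAt.Del, l JetAt.DD, l JetAt.kk, l JetAt.B00, l JetAt.B01, t JetAt.kk, t JetAt.DD]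
  ring

end Three

/-! ### The recursion -/

section Rows

variable {p q α : SF} {r : SF × SF}

theorem var_rows_beta (hp : JetAt 2 p) (hq : JetAt 2 q) (hα : JetAt 3 α) (h₁ : JetAt 2 r.1)
    (h₂ : JetAt 3 r.2) (n : ℕ) (hf : ContDiff ℝ ∞ f) (hw : ContDiff ℝ ∞ w)
    (hv : Van (n + 4) w x) :
    var (rows p q α r (n + 1)).2 f w x =
      p f x * p f x * var (rows p q α r n).2 f (pd 0 w) x
      + p f x * q f x * var (rows p q α r n).2 f (pd 1 w) x
      + (rows p q α r n).1 f x * (p f x * var α f (pd 1 w) x) := by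
  obtain ⟨hπ, hβ⟩ := JetAt.rows hp hq hα h₁ h₂ n
  have lp := var_eq_zero hp hf hw hv (by omega)
  have lq := var_eq_zero hq hf hw hv (by omega)
  have la := var_eq_zero hα hf hw hv (by omega)
  have lπ := var_eq_zero hπ hf hw hv (by omega)
  have lβ := var_eq_zero hβ hf hw hv (by omega)
  have tβ := fun i => var_pd_top hβ hf hw hv (by omega) i
  have ta := var_pd_top hα hf hw hv (by omega) 1
  have tp := (var_pd_top hp hf hw hv (by omega) 1).trans
    (var_eq_zero hp hf (contDiff_pd hw 1) ((hv.mono le_rfl).pd hw 1) (by omega))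
  have P := hp.jetFn
  have Q := hq.jetFn
  have Al := hα.jetFn
  have Pi' := hπ.jetFn
  have Bt := hβ.jetFn
  show var (stepBeta p q α (rows p q α r n).1 (rows p q α r n).2) f w x = _
  unfold stepBeta
  rw [var_add ((P.mul ((P.mul (Bt.pd 0)).add (Q.mul (Bt.pd 1)))).add
      (Pi'.mul ((P.mul (Al.pd 1)).sub ((P.pd 1).mul Al)))) (Bt.mul (P.mul Al)) hf hw,
    var_add (P.mul ((P.mul (Bt.pd 0)).add (Q.mul (Bt.pd 1))))
      (Pi'.mul ((P.mul (Al.pd 1)).sub ((P.pd 1).mul Al))) hf hw,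
    var_mul P ((P.mul (Bt.pd 0)).add (Q.mul (Bt.pd 1))) hf hw,
    var_add (P.mul (Bt.pd 0)) (Q.mul (Bt.pd 1)) hf hw, var_mul P (Bt.pd 0) hf hw,
    var_mul Q (Bt.pd 1) hf hw, var_mul Pi' ((P.mul (Al.pd 1)).sub ((P.pd 1).mul Al)) hf hw,
    var_sub (P.mul (Al.pd 1)) ((P.pd 1).mul Al) hf hw, var_mul P (Al.pd 1) hf hw,
    var_mul (P.pd 1) Al hf hw, var_mul Bt (P.mul Al) hf hw, var_mul P Al hf hw,
    lp, lq, la, lπ, lβ, tp, ta, tβ, tβ]
  ring

theorem var_rows_pi (hp : JetAt 2 p) (hq : JetAt 2 q) (hα : JetAt 3 α) (h₁ : JetAt 2 r.1)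
    (h₂ : JetAt 3 r.2) (n : ℕ) (hf : ContDiff ℝ ∞ f) (hw : ContDiff ℝ ∞ w)
    (hv : Van (n + 3) w x) :
    var (rows p q α r (n + 1)).1 f w x =
      p f x * p f x * var (rows p q α r n).1 f (pd 0 w) x
      + p f x * q f x * var (rows p q α r n).1 f (pd 1 w) x
      + (rows p q α r n).1 f x *
        (p f x * var α f w x + var p f (pd 1 w) x * q f x - p f x * var q f (pd 1 w) x) := by
  obtain ⟨hπ, -⟩ := JetAt.rows hp hq hα h₁ h₂ n
  have lp := var_eq_zero hp hf hw hv (by omega)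
  have lq := var_eq_zero hq hf hw hv (by omega)
  have lπ := var_eq_zero hπ hf hw hv (by omega)
  have tπ := fun i => var_pd_top hπ hf hw hv (by omega) i
  have tp := var_pd_top hp hf hw hv (by omega) 1
  have tq := var_pd_top hq hf hw hv (by omega) 1
  have P := hp.jetFn
  have Q := hq.jetFn
  have Al := hα.jetFn
  have Pi' := hπ.jetFn
  show var (stepPi p q α (rows p q α r n).1) f w x = _
  unfold stepPi
  rw [var_add (P.mul ((P.mul (Pi'.pd 0)).add (Q.mul (Pi'.pd 1))))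
      (Pi'.mul (((P.mul Al).add ((P.pd 1).mul Q)).sub (P.mul (Q.pd 1)))) hf hw,
    var_mul P ((P.mul (Pi'.pd 0)).add (Q.mul (Pi'.pd 1))) hf hw,
    var_add (P.mul (Pi'.pd 0)) (Q.mul (Pi'.pd 1)) hf hw, var_mul P (Pi'.pd 0) hf hw,
    var_mul Q (Pi'.pd 1) hf hw,
    var_mul Pi' (((P.mul Al).add ((P.pd 1).mul Q)).sub (P.mul (Q.pd 1))) hf hw,
    var_sub ((P.mul Al).add ((P.pd 1).mul Q)) (P.mul (Q.pd 1)) hf hw,
    var_add (P.mul Al) ((P.pd 1).mul Q) hf hw, var_mul P Al hf hw, var_mul (P.pd 1) Q hf hw,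
    var_mul P (Q.pd 1) hf hw, lp, lq, lπ, tp, tq, tπ, tπ]
  ring

end Rows

/-! ### The series -/

theorem pd_mono' (x : E2) (a : ℕ) (v : R4) :
    pd 0 (mono x (a + 1) 0 v) = mono x a 0 v ∧ pd 1 (mono x (a + 1) 0 v) = 0 ∧
    pd 0 (mono x (a + 1) 1 v) = mono x a 1 v ∧ pd 1 (mono x (a + 1) 1 v) = mono x (a + 1) 0 v :=
  ⟨(pd_mono x a 0 v).1, (pd_mono x (a + 1) 0 v).2.2.2, (pd_mono x a 1 v).1,
    (pd_mono x (a + 1) 0 v).2.1⟩

variable (hf : ContDiff ℝ ∞ f) (hG : gdet f x ≠ 0)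
include hf hG

theorem sym_beD (n : ℕ) (v : R4) :
    var (rowsD n).2 f (mono x (n + 3) 0 v) x = -(pD f x ^ (2 * n + 1) * ⟪nu1 f x, v⟫) := by
  induction n with
  | zero =>
    obtain ⟨-, -, k, D, -⟩ := sym_two (x := x) hf hG (a := 2) (b := 0) rfl (by omega) v
    obtain ⟨p₀, p₁, -⟩ := pd_mono' x 2 v
    have hv := van_mono x 3 0 v
    have hw := contDiff_mono x 3 0 v
    show var beD f (mono x 3 0 v) x = _
    rw [var_beD_top hf hw hv, var_B10_top hf hw hv, var_B11_top hf hw hv, var_alD_top hf hw hv,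
      p₀, p₁, k, D, var_zero JetFn.kk hf, var_zero JetFn.DD hf, var_zero JetFn.bb hf,
      var_zero JetFn.dd hf, var_zero JetFn.cc hf, pD]
    simp; ring
  | succ n ih =>
    obtain ⟨p₀, p₁, -⟩ := pd_mono' x (n + 3) v
    rw [rowsD, var_rows_beta JetAt.pD JetAt.qD JetAt.alD (r := (piD, beD)) JetAt.piD JetAt.beD n hf
      (contDiff_mono x _ 0 v) (van_mono x (n + 1 + 3) 0 v), show n + 1 + 3 = n + 3 + 1 from rfl,
      p₀, p₁, ← rowsD, ih, var_zero (rowsD_jetFn n).2 hf, var_zero JetFn.alD hf]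
    ring

theorem sym_beK_a (n : ℕ) (v : R4) : var (rowsK n).2 f (mono x (n + 3) 0 v) x =
    pK f x ^ (2 * n) * (Del f x * (kk f x * (DD f x * ⟪nu1 f x, v⟫))) := by
  induction n with
  | zero =>
    obtain ⟨-, -, k, D, -⟩ := sym_two (x := x) hf hG (a := 2) (b := 0) rfl (by omega) v
    obtain ⟨p₀, p₁, -⟩ := pd_mono' x 2 v
    have hv := van_mono x 3 0 v
    have hw := contDiff_mono x 3 0 v
    show var beK f (mono x 3 0 v) x = _
    rw [var_beK_top hf hw hv, var_alK_top hf hw hv, var_B10_top hf hw hv, var_B11_top hf hw hv,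
      p₀, p₁, k, D, var_zero JetFn.kk hf, var_zero JetFn.DD hf, var_zero JetFn.bb hf,
      var_zero JetFn.dd hf, var_zero JetFn.cc hf]
    simp only [↓reduceIte]; ring
  | succ n ih =>
    obtain ⟨p₀, p₁, -⟩ := pd_mono' x (n + 3) v
    rw [rowsK, var_rows_beta JetAt.pK JetAt.qK JetAt.alK (r := (piK, beK)) JetAt.piK JetAt.beK n hf
      (contDiff_mono x _ 0 v) (van_mono x (n + 1 + 3) 0 v), show n + 1 + 3 = n + 3 + 1 from rfl,
      p₀, p₁, ← rowsK, ih, var_zero (rowsK_jetFn n).2 hf, var_zero JetFn.alK hf]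
    ring

theorem sym_beK_b (n : ℕ) {v : R4} (hU : ⟪nu2 f x, v⟫ = 0) :
    var (rowsK n).2 f (mono x (n + 2) 1 v) x = pK f x ^ (2 * n) * (⟪nu1 f x, v⟫ *
      (-2 * (Del f x * (kk f x * kk f x)) - A10 f x * (DD f x * DD f x)
        + n * (DD f x * (A10 f x * DD f x - A11 f x * kk f x)))) := by
  induction n with
  | zero =>
    obtain ⟨b₀, -, k, D, dd', cc', -⟩ :=
      sym_two (x := x) hf hG (a := 2) (b := 0) rfl (by omega) v
    obtain ⟨-, -, k', D', -⟩ := sym_two (x := x) hf hG (a := 1) (b := 1) rfl (by omega) v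
    obtain ⟨-, -, p₀, p₁⟩ := pd_mono' x 1 v
    have hv := van_mono x 2 1 v
    have hw := contDiff_mono x 2 1 v
    show var beK f (mono x 2 1 v) x = _
    rw [var_beK_top hf hw hv, var_alK_top hf hw hv, var_B10_top hf hw hv, var_B11_top hf hw hv,
      p₀, p₁, k, D, b₀, dd', cc', k', D', hU]
    simp; ring
  | succ n ih =>
    obtain ⟨-, -, p₀, p₁⟩ := pd_mono' x (n + 2) v
    rw [rowsK, var_rows_beta JetAt.pK JetAt.qK JetAt.alK (r := (piK, beK)) JetAt.piK JetAt.beK n hf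
      (contDiff_mono x _ 1 v) (van_mono x (n + 1 + 2) 1 v), show n + 1 + 2 = n + 2 + 1 from rfl,
      p₀, p₁, ← rowsK, ih, sym_beK_a hf hG]
    have hα : var alK f (mono x (n + 2 + 1) 0 v) x = 0 := by
      cases n with
      | zero =>
        have hv := van_mono x 3 0 v
        have hw := contDiff_mono x 3 0 v
        rw [var_alK_top hf hw hv, var_B10_top hf hw hv, var_B11_top hf hw hv,
          (pd_mono' x 2 v).2.1, var_zero JetFn.kk hf, var_zero JetFn.DD hf, var_zero JetFn.bb hf,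
          var_zero JetFn.dd hf, var_zero JetFn.cc hf]
        simp
      | succ n => exact var_eq_zero JetAt.alK hf (contDiff_mono _ _ _ _) (van_mono _ _ _ _) (by omega)
    rw [hα]
    simp only [pK, qK]; push_cast; ring

theorem sym_piD_base (v : R4) :
    var piD f (mono x 2 0 v) x = -(DD f x * (Qp f x * ⟪nu1 f x, v⟫
      + gdet f x * (bb f x * ⟪nu2 f x, v⟫) * (DD f x * DD f x))) ∧
    (⟪nu2 f x, v⟫ = 0 → var piD f (mono x 1 1 v) x =
      -(⟪nu1 f x, v⟫ * (6 * Qb f x - 2 * (kk f x * Qp f x)))) := by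
  have key : ∀ w, ContDiff ℝ ∞ w → var piD f w x =
      -(var DD f w x * Qb f x + DD f x * var Qb f w x) := fun w hw => by
    show var (fun f x => -(DD f x * Qb f x)) f w x = _
    rw [var_neg (JetFn.DD.mul JetAt.Qb.jetFn) hf hw, var_mul JetFn.DD JetAt.Qb.jetFn hf hw]
  have hQ : ∀ w, ContDiff ℝ ∞ w → var Qb f w x =
      var Del f w x * (kk f x * kk f x) + Del f x * (2 * (kk f x * var kk f w x))
        - (var A11 f w x * (kk f x * DD f x)
          + A11 f x * (var kk f w x * DD f x + kk f x * var DD f w x))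
        + (var A10 f w x * (DD f x * DD f x) + A10 f x * (2 * (DD f x * var DD f w x))) := fun w hw => by
    have k₁ := JetFn.Del.mul (JetFn.kk.mul JetFn.kk)
    have k₂ := JetFn.A11.mul (JetFn.kk.mul JetFn.DD)
    have k₃ := JetFn.A10.mul (JetFn.DD.mul JetFn.DD)
    unfold Qb
    rw [var_add (k₁.sub k₂) k₃ hf hw, var_sub k₁ k₂ hf hw,
      var_mul JetFn.Del (JetFn.kk.mul JetFn.kk) hf hw, var_mul JetFn.A11 (JetFn.kk.mul JetFn.DD) hf hw,
      var_mul JetFn.A10 (JetFn.DD.mul JetFn.DD) hf hw, var_mul JetFn.kk JetFn.kk hf hw,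
      var_mul JetFn.kk JetFn.DD hf hw, var_mul JetFn.DD JetFn.DD hf hw]
    ring
  refine ⟨?_, fun hU => ?_⟩
  · obtain ⟨-, l, k, D, -, -, a, b⟩ := sym_two (x := x) hf hG (a := 2) (b := 0) rfl (by omega) v
    rw [key _ (contDiff_mono _ _ _ _), hQ _ (contDiff_mono _ _ _ _), l, k, D, a, b]
    simp only [↓reduceIte]; simp only [Qp]; ring
  · obtain ⟨-, l, k, D, -, -, a, b⟩ := sym_two (x := x) hf hG (a := 1) (b := 1) rfl (by omega) v
    rw [key _ (contDiff_mono _ _ _ _), hQ _ (contDiff_mono _ _ _ _), l, k, D, a, b, hU]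
    simp [Qp, Qb]; ring

theorem sym_piD_a (n : ℕ) (v : R4) : var (rowsD n).1 f (mono x (n + 2) 0 v) x =
    -(pD f x ^ (2 * n) * (DD f x * (Qp f x * ⟪nu1 f x, v⟫
      + gdet f x * (bb f x * ⟪nu2 f x, v⟫) * (DD f x * DD f x)))) := by
  induction n with
  | zero => show var piD f (mono x 2 0 v) x = _; rw [(sym_piD_base hf hG v).1]; simp
  | succ n ih =>
    obtain ⟨p₀, p₁, -⟩ := pd_mono' x (n + 2) v
    have hα : var alD f (mono x (n + 3) 0 v) x = 0 := by
      cases n with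
      | zero =>
        rw [var_alD_top hf (contDiff_mono _ _ _ _) (van_mono x 3 0 v), (pd_mono' x 2 v).2.1,
          var_zero JetFn.kk hf, var_zero JetFn.DD hf]
        simp
      | succ n => exact var_eq_zero JetAt.alD hf (contDiff_mono _ _ _ _) (van_mono _ _ _ _) (by omega)
    rw [rowsD, var_rows_pi JetAt.pD JetAt.qD JetAt.alD (r := (piD, beD)) JetAt.piD JetAt.beD n hf
      (contDiff_mono x _ 0 v) (van_mono x (n + 1 + 2) 0 v), show n + 1 + 2 = n + 2 + 1 from rfl,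
      p₀, p₁, ← rowsD, ih, hα, var_zero (rowsD_jetFn n).1 hf, var_zero JetFn.pD hf,
      var_zero JetFn.qD hf]
    ring

theorem sym_piD_b (n : ℕ) {v : R4} (hU : ⟪nu2 f x, v⟫ = 0) :
    var (rowsD (n + 1)).1 f (mono x (n + 2) 1 v) x = pD f x ^ (2 * (n + 1)) *
      (⟪nu1 f x, v⟫ * (-8 * Qb f x + (n + 3) * (kk f x * Qp f x))) := by
  induction n with
  | zero =>
    obtain ⟨-, Dl, k, D, -⟩ := sym_two (x := x) hf hG (a := 2) (b := 0) rfl (by omega) v
    obtain ⟨-, -, p₀, p₁⟩ := pd_mono' x 1 v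
    have hw := contDiff_mono x 2 1 v
    have hw₂ := contDiff_mono x 2 0 v
    rw [rowsD, var_rows_pi JetAt.pD JetAt.qD JetAt.alD (r := (piD, beD)) JetAt.piD JetAt.beD 0 hf
      hw (van_mono x 2 1 v), p₀, p₁, var_alD_top hf hw (van_mono x 2 1 v), p₁]
    show _ + _ * var piD f (mono x 2 0 v) x + piD f x * _ = _
    rw [show (rows pD qD alD (piD, beD) 0).1 = piD from rfl, (sym_piD_base hf hG v).1,
      (sym_piD_base hf hG v).2 hU, k, D, hU]
    have e₁ : var pD f (mono x 2 0 v) x = 0 := by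
      show var (fun f x => Del f x * (DD f x * DD f x)) f _ x = _
      rw [var_mul JetFn.Del (JetFn.DD.mul JetFn.DD) hf hw₂, var_mul JetFn.DD JetFn.DD hf hw₂, Dl, D]
      simp
    have e₂ : var qD f (mono x 2 0 v) x = -(Del f x * (DD f x * ⟪nu1 f x, v⟫)) := by
      show var (fun f x => -(Del f x * (DD f x * kk f x))) f _ x = _
      rw [var_neg (JetFn.Del.mul (JetFn.DD.mul JetFn.kk)) hf hw₂,
        var_mul JetFn.Del (JetFn.DD.mul JetFn.kk) hf hw₂, var_mul JetFn.DD JetFn.kk hf hw₂, Dl, D, k]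
      simp
    rw [e₁, e₂]
    simp [piD, pD, qD, Qb]; ring
  | succ n ih =>
    obtain ⟨-, -, p₀, p₁⟩ := pd_mono' x (n + 2) v
    have hw := contDiff_mono x (n + 2 + 1) 1 v
    have hw' := contDiff_mono x (n + 2 + 1) 0 v
    have hz : ∀ {c : SF} {N : ℕ}, JetAt N c → N < n + 3 →
        var c f (mono x (n + 2 + 1) 0 v) x = 0 := fun h hN =>
      var_eq_zero h hf hw' (van_mono _ _ _ _) (by omega)
    rw [rowsD, var_rows_pi JetAt.pD JetAt.qD JetAt.alD (r := (piD, beD)) JetAt.piD JetAt.beD (n + 1) hf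
      hw (van_mono x (n + 2 + 1) 1 v), p₀, p₁, ← rowsD, ih, sym_piD_a hf hG (n + 1), hU,
      hz JetAt.pD (by omega), hz JetAt.qD (by omega),
      var_eq_zero JetAt.alD hf hw (van_mono _ _ _ _) (by omega)]
    simp only [pD, qD]; push_cast; ring

end Vale.Agent.P205F
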