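import Vale.Agent.P205F.GoodProb.Spec
import Vale.Agent.P205F.GoodAlg.G2

/-!
# P205, GoodProb: the goodness lemma from its two regimes

One identity dominates all the elements used by the regimes (`exists_ident_good`); a parameter
outside the two small bad sets is good at every point.
-/

namespace Vale.Agent.P205F

open scoped ContDiff
open Filter MeasureTheory Prob Set

/-- Finitely many identities add. -/
theorem Ident.exists_sum {ι : Type*} (s : Finset ι) (J : Ident) (I : ι → Ident) :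
    ∃ K : Ident, ∀ f x, K.den (jet K.N f x) =
      J.den (jet J.N f x) + ∑ i ∈ s, (I i).den (jet (I i).N f x) := by
  classical
  induction s using Finset.induction_on with
  | empty => exact ⟨J, fun f x => by simp⟩
  | insert a s ha ih =>
    obtain ⟨K, hK⟩ := ih
    obtain ⟨K', hK'⟩ := Ident.exists_add (I a) K
    exact ⟨K', fun f x => by rw [hK', hK, Finset.sum_insert ha]; ring⟩

/-- One identity sees a point that is not small for some element. -/
theorem exists_ident_good : ∃ I : Ident, ∀ (f : E2 → R4) (x : E2) (M e e' : ℕ), ContDiff ℝ ∞ f →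
    1 ≤ M → I.den (jet I.N f x) < 1 / (M : ℝ) ^ (2 * max e e') →
      PairsSmall e M f x ∧ DescentSmall e' M f x := by
  obtain ⟨S, hS⟩ := exists_ident_small
  obtain ⟨G, hG⟩ := (g2Den_inIdl 0 1 3 0).exists_ident (JetFn.g2Den 0 1 3 0)
  obtain ⟨J, hJ⟩ := Ident.exists_add S G
  choose ID hID using fun p : Fin 5 × Fin 5 => InIdl.exists_ident (inIdl_D p.1 p.2)
    (JetFn.DD.mul (((rowsD_jetFn p.1).1.mul (rowsD_jetFn p.2).2).sub
      ((rowsD_jetFn p.2).1.mul (rowsD_jetFn p.1).2)))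
  choose IK hIK using fun p : Fin 5 × Fin 5 => InIdl.exists_ident (inIdl_K p.1 p.2)
    (JetFn.kk.mul (((rowsK_jetFn p.1).1.mul (rowsK_jetFn p.2).2).sub
      ((rowsK_jetFn p.2).1.mul (rowsK_jetFn p.1).2)))
  obtain ⟨I₁, h₁⟩ := Ident.exists_sum Finset.univ J ID
  obtain ⟨I₂, h₂⟩ := Ident.exists_sum Finset.univ I₁ IK
  refine ⟨I₂, fun f x M e e' hf hM hlt => ?_⟩
  have hM1 : (1 : ℝ) ≤ M := by exact_mod_cast hM
  rw [h₂, h₁, hJ, hS f x hf, hG f x hf] at hlt
  have nD : ∀ q, 0 ≤ (ID q).den (jet (ID q).N f x) := fun q => (ID q).den_nonneg _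
  have nK : ∀ q, 0 ≤ (IK q).den (jet (IK q).N f x) := fun q => (IK q).den_nonneg _
  have sD := Finset.sum_nonneg (s := Finset.univ) fun q _ => nD q
  have sK := Finset.sum_nonneg (s := Finset.univ) fun q _ => nK q
  have small : ∀ {t : ℝ} {k : ℕ}, k ≤ max e e' → t ^ 2 ≤ 1 / (M : ℝ) ^ (2 * max e e') →
      |t| ≤ ((M : ℝ) ^ k)⁻¹ := fun {t k} hk ht => by
    refine abs_le_of_sq_le_sq (ht.trans ?_) (by positivity)
    rw [inv_pow, ← pow_mul, one_div]
    exact inv_anti₀ (by positivity) (pow_le_pow_right₀ hM1 (by omega))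
  refine ⟨fun m hm n hn => ?_, small (le_max_right _ _) ?_, small (le_max_right _ _) ?_⟩
  · set p : Fin 5 × Fin 5 := (⟨m, by omega⟩, ⟨n, by omega⟩)
    have d := Finset.single_le_sum (fun q _ => nD q) (Finset.mem_univ p)
    have k := Finset.single_le_sum (fun q _ => nK q) (Finset.mem_univ p)
    rw [hID p f x hf] at d
    rw [hIK p f x hf] at k
    refine ⟨small (le_max_left _ _) ?_, small (le_max_left _ _) ?_⟩
    · refine le_trans d ?_
      nlinarith [sq_nonneg (2 * D2 f x * sDen f x), sq_nonneg (bb f x * g2Den 0 1 3 0 f x)]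
    · refine le_trans k ?_
      nlinarith [sq_nonneg (2 * D2 f x * sDen f x), sq_nonneg (bb f x * g2Den 0 1 3 0 f x)]
  · nlinarith [sq_nonneg (2 * D2 f x * sDen f x)]
  · nlinarith [sq_nonneg (bb f x * g2Den 0 1 3 0 f x)]

/-- GOODNESS LEMMA from the two regimes. -/
theorem goodProbStmt_of (b : Bool) (h₁ : G1Stmt b) (h₂ : G2Stmt b) : GoodProbStmt b := by
  obtain ⟨I, hI⟩ := exists_ident_good
  refine ⟨I, fun e₁ => ?_⟩
  obtain ⟨σ, s₂, H₂⟩ := h₂ (2 * e₁ + 3)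
  obtain ⟨s₁, H₁⟩ := h₁ (2 * e₁ + 3) σ
  refine ⟨max s₁ s₂ + 2 * e₁ + 3, fun e₂ => ?_⟩
  obtain ⟨ea, H₁⟩ := H₁ (e₂ + 1)
  obtain ⟨eb, H₂⟩ := H₂ (e₂ + 1)
  refine ⟨2 * max ea eb, fun d K C hK => ⟨1, one_pos, ?_⟩⟩
  have hδ : (0 : ℝ) < 2 ^ d / 4 := by positivity
  obtain ⟨M₀, hM₀⟩ := eventually_atTop.1
    ((((setup_of_fam b e₁ e₂ _ (max s₁ s₂) le_rfl K C).and (H₁ d K (max C 1) _ hK hδ)).and
      (H₂ d K (max C 1) _ hK hδ)).and (eventually_ge_atTop 1))
  refine ⟨M₀, fun M hM F hFam => ?_⟩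
  obtain ⟨⟨⟨hset, hv₁⟩, hv₂⟩, hM1⟩ := hM₀ M hM
  have hS := hset d F hFam
  have v₁ := hv₁ F (hS.mono_s (le_max_left _ _) hM1)
  have v₂ := hv₂ F (hS.mono_s (le_max_right _ _) hM1)
  by_contra hno
  push Not at hno
  have hcov : cube d ⊆
      Bad F K (fun f x => ((M : ℝ) ^ σ)⁻¹ ≤ max |kk f x| |DD f x| ∧ PairsSmall ea M f x) ∪
      Bad F K (fun f x => max |kk f x| |DD f x| ≤ ((M : ℝ) ^ σ)⁻¹ ∧ DescentSmall eb M f x) := by
    intro l hl
    obtain ⟨x, hx, hlt⟩ := hno l fun i => abs_le.2 ⟨hl.1 i, hl.2 i⟩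
    obtain ⟨hp, hd⟩ := hI (F l) x M ea eb (contDiff_slice hFam.1 l) hM1 hlt
    rcases le_total ((M : ℝ) ^ σ)⁻¹ (max |kk (F l) x| |DD (F l) x|) with h | h
    · exact Or.inl ⟨hl, x, hx, h, hp⟩
    · exact Or.inr ⟨hl, x, hx, h, hd⟩
  have h := ((measure_mono (μ := volume) hcov).trans (measure_union_le _ _)).trans
    (add_le_add v₁ v₂)
  rw [volume_cube, ← ENNReal.ofReal_add hδ.le hδ.le,
    ENNReal.ofReal_le_ofReal_iff (by positivity)] at h
  linarith

end Vale.Agent.P205F
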