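import Vale.Agent.P205F.GoodProb.CaseAMain
import Vale.Agent.P205F.GoodProb.CaseB
import Vale.Agent.P205F.GoodProb.CaseC
import Vale.Agent.P205F.GoodProb.Main

/-!
# P205, GoodProb: the small regime; the goodness lemma from the large one
-/

namespace Vale.Agent.P205F

/-- `N` small. -/
theorem g2Stmt (b : Bool) : G2Stmt b := g2Stmt_of b (caseAStmt b) caseBStmt caseCStmt

/-- The goodness lemma from the regime `N` not small. -/
theorem goodProbStmt_of_g1 (b : Bool) (h : G1Stmt b) : GoodProbStmt b :=
  goodProbStmt_of b h (g2Stmt b)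

end Vale.Agent.P205F
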