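import Vale.Agent.P205F.GoodProb.Spec
import Vale.Agent.P205F.GoodProb.CaseA

/-!
# P205, GoodProb: the three cases of the small regime

(a) `ν₁` not small: `g2Den`; (b) `D₂` not small (exact modulo `ν²`): `sDen`; (c) both small
(exact modulo `ν²` only: on a final twist `ν₁` cannot be small).
-/

namespace Vale.Agent.P205F

open scoped ContDiff RealInnerProductSpace
open Filter MeasureTheory Prob

/-- Case (a). -/
def CaseAStmt (b : Bool) : Prop :=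
  ∀ A a : ℕ, ∃ S e : ℕ, ∀ (σ s V d : ℕ) (K : Set E2) (C δ : ℝ), S ≤ σ → S ≤ s → IsCompact K → 0 < δ →
    ∀ᶠ M : ℕ in atTop, ∀ F : (Fin d → ℝ) → E2 → R4, Setup b F K C A V s M →
      volume (Bad F K fun f x => max |kk f x| |DD f x| ≤ ((M : ℝ) ^ σ)⁻¹ ∧
        ((M : ℝ) ^ a)⁻¹ ≤ q1sq f x ∧ |g2Den 0 1 3 0 f x| ≤ ((M : ℝ) ^ e)⁻¹) ≤ ENNReal.ofReal δ

/-- Case (b). -/
def CaseBStmt : Prop :=
  ∀ A cb : ℕ, ∃ S e : ℕ, ∀ (σ s V d : ℕ) (K : Set E2) (C δ : ℝ), S ≤ σ → S ≤ s → IsCompact K → 0 < δ →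
    ∀ᶠ M : ℕ in atTop, ∀ F : (Fin d → ℝ) → E2 → R4, Setup false F K C A V s M →
      volume (Bad F K fun f x => max |kk f x| |DD f x| ≤ ((M : ℝ) ^ σ)⁻¹ ∧
        ((M : ℝ) ^ cb)⁻¹ ≤ |D2 f x| ∧ |sDen f x| ≤ ((M : ℝ) ^ e)⁻¹) ≤ ENNReal.ofReal δ

/-- Case (c). -/
def CaseCStmt : Prop :=
  ∀ A : ℕ, ∃ a cb S : ℕ, ∀ (σ s V d : ℕ) (K : Set E2) (C δ : ℝ), S ≤ σ → S ≤ s → IsCompact K → 0 < δ →
    ∀ᶠ M : ℕ in atTop, ∀ F : (Fin d → ℝ) → E2 → R4, Setup false F K C A V s M →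
      volume (Bad F K fun f x => max |kk f x| |DD f x| ≤ ((M : ℝ) ^ σ)⁻¹ ∧
        q1sq f x ≤ ((M : ℝ) ^ a)⁻¹ ∧ |D2 f x| ≤ ((M : ℝ) ^ cb)⁻¹) ≤ ENNReal.ofReal δ

/-- On a final twist `ν₁` is not small. -/
theorem q1sq_ge {C : ℝ} {A M : ℕ} {f : E2 → R4} {x : E2} (h : Pt true C A M f x) :
    (C ^ 6)⁻¹ ≤ q1sq f x := by
  have hn : Normal f x (nrm f x (fyy f x)) := by
    have o : ∀ v, ⟪fderiv ℝ f x v, nrm f x (fyy f x)⟫ = 0 := fun v =>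
      ((LinearMap.range (fderiv ℝ f x).toLinearMap)ᗮ.starProjection_apply_mem (fyy f x))
        _ ⟨v, rfl⟩
    exact ⟨o _, o _⟩
  have e : nu1 f x = nv f x (nrm f x (fyy f x)) := by
    rw [nu1_eq]
    exact nv_eq_of_inner fun σ hσ => by
      rw [real_inner_comm σ (nrm f x (fyy f x)), inner_nrm, hσ.nrm_eq, real_inner_comm]
  have hq : q1sq f x = gdet f x * ‖II f x (ev 1)‖ ^ 2 := by
    rw [← real_inner_self_eq_norm_sq, q1sq, e, inner_nv_normal f x hn.1 hn.2]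
    rfl
  have hC : 0 < C := lt_of_lt_of_le one_pos h.one_le
  rw [hq, show (C ^ 6)⁻¹ = (C ^ 4)⁻¹ * C⁻¹ ^ 2 by ring]
  exact mul_le_mul h.gdet_ge (pow_le_pow_left₀ (by positivity) (h.abs rfl) 2) (by positivity)
    h.gdet_pos.le

/-- The small regime from its three cases. -/
theorem g2Stmt_of (b : Bool) (hA : CaseAStmt b) (hB : CaseBStmt) (hC : CaseCStmt) : G2Stmt b := by
  intro A
  obtain ⟨a₀, cb, SC, hC⟩ := hC A
  set a := a₀ + 6 with ha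
  obtain ⟨SA, eA, hA⟩ := hA A a
  obtain ⟨SB, eB, hB⟩ := hB A cb
  refine ⟨SA + SB + SC, SA + SB + SC, fun V => ⟨a + cb + eA + eB, fun d K C δ hK hδ => ?_⟩⟩
  set σ := SA + SB + SC with hσ
  filter_upwards [hA σ σ V d K C (δ / 3) (by omega) (by omega) hK (by positivity),
    hB σ σ V d K C (δ / 3) (by omega) (by omega) hK (by positivity),
    hC σ σ V d K C (δ / 3) (by omega) (by omega) hK (by positivity),
    eventually_ge_atTop 1, (tendsto_natCast_atTop_atTop (R := ℝ)).eventually_ge_atTop C]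
    with M hA hB hC hM hCM F hF
  have hM1 : (1 : ℝ) ≤ M := by exact_mod_cast hM
  have hpow : ∀ {p q : ℕ}, p ≤ q → ((M : ℝ) ^ q)⁻¹ ≤ ((M : ℝ) ^ p)⁻¹ := fun h =>
    inv_anti₀ (by positivity) (pow_le_pow_right₀ hM1 h)
  -- a product is small and one factor is not
  have cut : ∀ {r v : ℝ} {p e : ℕ}, p + e ≤ a + cb + eA + eB → ((M : ℝ) ^ p)⁻¹ ≤ |r| →
      |r * v| ≤ ((M : ℝ) ^ (a + cb + eA + eB))⁻¹ → |v| ≤ ((M : ℝ) ^ e)⁻¹ := fun {r v p e} hpe hr h => by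
    rw [abs_mul] at h
    have h1 := ((mul_le_mul_of_nonneg_right hr (abs_nonneg v)).trans h).trans (hpow hpe)
    rw [pow_add, mul_inv] at h1
    exact le_of_mul_le_mul_left h1 (by positivity)
  set PA := Bad F K fun f x => max |kk f x| |DD f x| ≤ ((M : ℝ) ^ σ)⁻¹ ∧
    ((M : ℝ) ^ a)⁻¹ ≤ q1sq f x ∧ |g2Den 0 1 3 0 f x| ≤ ((M : ℝ) ^ eA)⁻¹
  cases b with
  | true =>
    refine le_trans ((measure_mono (t := PA) ?_).trans (hA F hF)) (ENNReal.ofReal_le_ofReal (by linarith))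
    rintro l ⟨hl, x, hx, hN, hd⟩
    have hP := hF.pt l hl x hx
    have hq : ((M : ℝ) ^ a)⁻¹ ≤ q1sq (F l) x :=
      ((hpow (show 6 ≤ a by omega)).trans (inv_anti₀ (pow_pos (lt_of_lt_of_le one_pos hP.one_le) 6)
        (pow_le_pow_left₀ (by linarith [hP.one_le]) hCM 6))).trans (q1sq_ge hP)
    refine ⟨hl, x, hx, hN, hq, cut (p := a) (by omega) (r := bb (F l) x) ?_ hd.1⟩
    rw [bb_eq, abs_neg, abs_of_nonneg real_inner_self_nonneg]; exact hq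
  | false =>
    set PB := Bad F K fun f x => max |kk f x| |DD f x| ≤ ((M : ℝ) ^ σ)⁻¹ ∧
      ((M : ℝ) ^ cb)⁻¹ ≤ |D2 f x| ∧ |sDen f x| ≤ ((M : ℝ) ^ eB)⁻¹
    set PC := Bad F K fun f x => max |kk f x| |DD f x| ≤ ((M : ℝ) ^ σ)⁻¹ ∧
      q1sq f x ≤ ((M : ℝ) ^ a₀)⁻¹ ∧ |D2 f x| ≤ ((M : ℝ) ^ cb)⁻¹
    refine (measure_mono (t := PA ∪ (PB ∪ PC)) ?_).trans
      (((measure_union_le _ _).trans (add_le_add (hA F hF) ((measure_union_le _ _).trans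
        (add_le_add (hB F hF) (hC F hF))))).trans_eq ?_)
    · rintro l ⟨hl, x, hx, hN, hd⟩
      by_cases hq : ((M : ℝ) ^ a)⁻¹ ≤ q1sq (F l) x
      · refine Or.inl ⟨hl, x, hx, hN, hq, cut (p := a) (by omega) (r := bb (F l) x) ?_ hd.1⟩
        rw [bb_eq, abs_neg, abs_of_nonneg real_inner_self_nonneg]; exact hq
      by_cases hb : ((M : ℝ) ^ cb)⁻¹ ≤ |D2 (F l) x|
      · refine Or.inr (Or.inl ⟨hl, x, hx, hN, hb, cut (p := cb) (by omega) (r := 2 * D2 (F l) x) ?_ hd.2⟩)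
        rw [abs_mul, abs_two]; linarith [abs_nonneg (D2 (F l) x)]
      exact Or.inr (Or.inr ⟨hl, x, hx, hN, (not_le.1 hq).le.trans (hpow (by omega)), (not_le.1 hb).le⟩)
    · rw [← ENNReal.ofReal_add (by positivity) (by positivity),
        ← ENNReal.ofReal_add (by positivity) (by positivity)]
      congr 1; ring

end Vale.Agent.P205F
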