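import Vale.Agent.P205F.GoodProb.G1Case
import Vale.Agent.P205F.GoodProb.G2Main

/-!
# P205, GoodProb: the goodness lemma
-/

namespace Vale.Agent.P205F

/-- GOODNESS LEMMA, both for `II(∂y,∂y)` bounded below and not. -/
theorem goodProbStmt (b : Bool) : GoodProbStmt b := goodProbStmt_of_g1 b (g1Stmt b)

end Vale.Agent.P205F
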