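import Vale.Agent.P205F.GoodProb.Pdm

/-!
# P205, GoodProb: functions of jets of a known order, and their first variation

`JetAt N c`: `c f x` is a temperate function of the `N`-jet. `var c f w x` is the derivative of `c`
at `f` in the direction `w`; it commutes with partial derivatives and only sees the `N`-jet of `w`.
-/

namespace Vale.Agent.P205F

open scoped ContDiff RealInnerProductSpace

variable {X Y Z : Type*} [NormedAddCommGroup X] [NormedSpace ℝ X] [NormedAddCommGroup Y]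
  [NormedSpace ℝ Y] [NormedAddCommGroup Z] [NormedSpace ℝ Z]

/-- A function of jets of order `N`. -/
def JetAt (N : ℕ) (c : (E2 → R4) → E2 → X) : Prop :=
  ∃ g : Jet N → X, Function.HasTemperateGrowth g ∧
    ∀ f x, ContDiff ℝ ∞ f → c f x = g (jet N f x)

namespace JetAt

variable {N M : ℕ} {c d : (E2 → R4) → E2 → X}

theorem jetFn (h : JetAt N c) : JetFn c :=
  let ⟨g, hg, e⟩ := h
  ⟨N, g, hg, e⟩

theorem congr (h : JetAt N c) (e : ∀ f x, ContDiff ℝ ∞ f → d f x = c f x) : JetAt N d :=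
  let ⟨g, hg, hc⟩ := h
  ⟨g, hg, fun f x hf => (e f x hf).trans (hc f x hf)⟩

theorem mono (h : JetAt N c) (hNM : N ≤ M) : JetAt M c :=
  let ⟨g, hg, hc⟩ := h
  ⟨g ∘ Jet.res hNM, hg.comp (Jet.res hNM).hasTemperateGrowth,
    fun f x hf => by simp [hc f x hf, Jet.res_jet]⟩

theorem const (a : X) : JetAt 0 fun _ _ => a := ⟨fun _ => a, .const a, fun _ _ _ => rfl⟩

theorem clm (h : JetAt N c) (A : X →L[ℝ] Y) : JetAt N fun f x => A (c f x) :=
  let ⟨g, hg, hc⟩ := h
  ⟨A ∘ g, A.hasTemperateGrowth.comp hg, fun f x hf => by simp [hc f x hf]⟩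

theorem comp (h : JetAt N c) {G : X → Y} (hG : G.HasTemperateGrowth) :
    JetAt N fun f x => G (c f x) :=
  let ⟨g, hg, hc⟩ := h
  ⟨G ∘ g, hG.comp hg, fun f x hf => by simp [hc f x hf]⟩

theorem bilin {e : (E2 → R4) → E2 → Y} (hc : JetAt N c) (he : JetAt M e) (B : X →L[ℝ] Y →L[ℝ] Z) :
    JetAt (max N M) fun f x => B (c f x) (e f x) := by
  obtain ⟨g₁, hg₁, e₁⟩ := hc.mono (le_max_left N M)
  obtain ⟨g₂, hg₂, e₂⟩ := he.mono (le_max_right N M)
  exact ⟨fun z => B (g₁ z) (g₂ z), B.bilinear_hasTemperateGrowth hg₁ hg₂,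
    fun f x hf => by simp [e₁ f x hf, e₂ f x hf]⟩

theorem add (hc : JetAt N c) (hd : JetAt M d) : JetAt (max N M) fun f x => c f x + d f x := by
  obtain ⟨g₁, hg₁, e₁⟩ := hc.mono (le_max_left N M)
  obtain ⟨g₂, hg₂, e₂⟩ := hd.mono (le_max_right N M)
  exact ⟨g₁ + g₂, hg₁.add hg₂, fun f x hf => by simp [e₁ f x hf, e₂ f x hf]⟩

theorem neg (hc : JetAt N c) : JetAt N fun f x => -c f x :=
  hc.clm (-ContinuousLinearMap.id ℝ X)

theorem sub (hc : JetAt N c) (hd : JetAt M d) : JetAt (max N M) fun f x => c f x - d f x :=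
  (hc.add hd.neg).congr fun _ _ _ => sub_eq_add_neg _ _

theorem mul {a b : (E2 → R4) → E2 → ℝ} (ha : JetAt N a) (hb : JetAt M b) :
    JetAt (max N M) fun f x => a f x * b f x :=
  ha.bilin hb (ContinuousLinearMap.mul ℝ ℝ)

theorem smul {a : (E2 → R4) → E2 → ℝ} (ha : JetAt N a) (hd : JetAt M d) :
    JetAt (max N M) fun f x => a f x • d f x :=
  ha.bilin hd (ContinuousLinearMap.lsmul ℝ ℝ)

theorem inner {u v : (E2 → R4) → E2 → R4} (hu : JetAt N u) (hv : JetAt M v) :
    JetAt (max N M) fun f x => ⟪u f x, v f x⟫ :=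
  (hu.bilin hv (innerSL ℝ)).congr fun _ _ _ => rfl

/-- The map itself. -/
theorem self : JetAt 0 fun f x => f x := by
  refine ⟨fun z => (continuousMultilinearCurryFin0 ℝ E2 R4) (z 0),
    ((continuousMultilinearCurryFin0 ℝ E2 R4).toContinuousLinearEquiv.toContinuousLinearMap.comp
      (ContinuousLinearMap.proj (R := ℝ)
        (φ := fun k : Fin (0 + 1) => ContinuousMultilinearMap ℝ (fun _ : Fin (k : ℕ) => E2) R4)
        0)).hasTemperateGrowth, fun f x _ => ?_⟩
  simp [jet]

theorem pd (hc : JetAt N c) (i : Fin 2) : JetAt (N + 1) fun f x => P205F.pd i (c f) x := by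
  obtain ⟨g, hg, e⟩ := hc
  refine ⟨fun z => fderiv ℝ g (Jet.res (Nat.le_succ N) z) (Jet.shift N i z),
    (ContinuousLinearMap.id ℝ (Jet N →L[ℝ] X)).bilinear_hasTemperateGrowth
      ((hasTemperateGrowth_fderiv hg).comp (Jet.res (Nat.le_succ N)).hasTemperateGrowth)
      (Jet.shift N i).hasTemperateGrowth, fun f x hf => ?_⟩
  have h : c f = g ∘ jet N f := funext fun z => e f z hf
  show fderiv ℝ (c f) x (ev i) = _
  rw [h, fderiv_comp x ((hg.1.differentiable (by simp)) _) (hasFDerivAt_jet hf N x).differentiableAt,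
    ContinuousLinearMap.comp_apply, fderiv_jet hf]
  rfl

theorem smooth (hc : JetAt N c) {f : E2 → R4} (hf : ContDiff ℝ ∞ f) : ContDiff ℝ ∞ (c f) :=
  hc.jetFn.smooth hf

end JetAt

/-- Vanishing of the jets of order `< n` at a point. -/
def Van (n : ℕ) (w : E2 → R4) (x : E2) : Prop := ∀ i j, i + j < n → pdm i j w x = 0

theorem Van.mono {n m : ℕ} {w : E2 → R4} {x : E2} (h : Van n w x) (hm : m ≤ n) : Van m w x :=
  fun i j hij => h i j (hij.trans_le hm)

theorem Van.jet_eq {n N : ℕ} {w : E2 → R4} {x : E2} (h : Van n w x) (hw : ContDiff ℝ ∞ w)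
    (hN : N < n) : jet N w x = 0 := by
  funext k
  exact iteratedFDeriv_eq_zero_of_pdm hw fun i j hij => h i j (by
    have := k.isLt; omega)

theorem jet_add_smul {f w : E2 → R4} (hf : ContDiff ℝ ∞ f) (hw : ContDiff ℝ ∞ w) (N : ℕ) (s : ℝ)
    (x : E2) : jet N (fun z => f z + s • w z) x = jet N f x + s • jet N w x := by
  funext k
  have hf' : ContDiffAt ℝ (k : ℕ) f x := (hf.of_le (by exact_mod_cast le_top)).contDiffAt
  have hw' : ContDiffAt ℝ (k : ℕ) w x := (hw.of_le (by exact_mod_cast le_top)).contDiffAt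
  show iteratedFDeriv ℝ (k : ℕ) (f + s • w) x = _
  have hsw : ContDiffAt ℝ (k : ℕ) (s • w) x := hw'.const_smul s
  rw [iteratedFDeriv_add_apply hf' hsw, iteratedFDeriv_const_smul_apply hw']
  rfl

theorem pd_pdm_comm {X : Type*} [NormedAddCommGroup X] [NormedSpace ℝ X] {f : E2 → X}
    (hf : ContDiff ℝ ∞ f) (i : Fin 2) (a b : ℕ) : pd i (pdm a b f) = pdm a b (pd i f) := by
  obtain rfl | rfl : i = 0 ∨ i = 1 := by omega
  · rw [pd0_pdm, pdm_pd0 hf]
  · rw [pd1_pdm hf, pdm_pd1]

/-- The jet of a partial derivative. -/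
theorem jet_pd {w : E2 → R4} (hw : ContDiff ℝ ∞ w) (N : ℕ) (i : Fin 2) (x : E2) :
    jet N (pd i w) x = Jet.shift N i (jet (N + 1) w x) := by
  funext k
  refine ContinuousMultilinearMap.ext fun m => ?_
  have e : m = fun a => ∑ j : Fin 2, (m a) j • ev j := funext fun a => sum_ev (m a)
  rw [congrArg (jet N (pd i w) x k) e, congrArg (Jet.shift N i (jet (N + 1) w x) k) e,
    ContinuousMultilinearMap.map_sum, ContinuousMultilinearMap.map_sum]
  refine Finset.sum_congr rfl fun σ _ => ?_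
  rw [ContinuousMultilinearMap.map_smul_univ, ContinuousMultilinearMap.map_smul_univ]
  refine congrArg _ ?_
  obtain ⟨a, b, _, hσ⟩ := iteratedFDeriv_ev (X := R4) (k : ℕ) σ
  have hd : DifferentiableAt ℝ (fun z => iteratedFDeriv ℝ (k : ℕ) w z) x :=
    ((hw.iteratedFDeriv_right (m := ∞) (by exact_mod_cast le_top)).differentiable (by simp)) x
  show iteratedFDeriv ℝ (k : ℕ) (pd i w) x (fun c => ev (σ c)) =
    iteratedFDeriv ℝ ((k : ℕ) + 1) w x (Fin.cons (ev i) fun c => ev (σ c))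
  rw [iteratedFDeriv_succ_apply_left, Fin.cons_zero, Fin.tail_cons, hσ _ (contDiff_pd hw i),
    ← fderiv_continuousMultilinear_apply_const_apply hd, ← pd_pdm_comm hw]
  show fderiv ℝ (pdm a b w) x (ev i) = _
  rw [show pdm a b w = fun z => iteratedFDeriv ℝ (k : ℕ) w z (fun c => ev (σ c)) from
    funext fun z => (hσ w hw z).symm]

theorem contDiff_line {f w : E2 → R4} (hf : ContDiff ℝ ∞ f) (hw : ContDiff ℝ ∞ w) (s : ℝ) :
    ContDiff ℝ ∞ fun z => f z + s • w z := hf.add (hw.const_smul s)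

theorem jet_add_zero_smul {N : ℕ} (a b : Jet N) : a + (0 : ℝ) • b = a := by
  funext k
  ext m
  simp

section Calc

variable {E F : Type*} [NormedAddCommGroup E] [NormedSpace ℝ E] [NormedAddCommGroup F]
  [NormedSpace ℝ F] {g : E → F}

/-- The derivative along a line of a derivative, applied to a line. -/
theorem hasDerivAt_fderiv_line (hg : ContDiff ℝ ∞ g) (a b c d : E) :
    HasDerivAt (fun s : ℝ => fderiv ℝ g (a + s • b) (c + s • d))
      (fderiv ℝ (fderiv ℝ g) a b c + fderiv ℝ g a d) 0 := by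
  have h1 : ∀ a b : E, HasDerivAt (fun s : ℝ => a + s • b) b 0 := fun a b => by
    simpa using ((hasDerivAt_id (0 : ℝ)).smul_const b).const_add a
  have hd : HasFDerivAt (fderiv ℝ g) (fderiv ℝ (fderiv ℝ g) a) a :=
    ((hg.fderiv_right (m := ∞) (by exact_mod_cast le_top)).differentiable (by simp) a).hasFDerivAt
  simpa using (hd.comp_hasDerivAt_of_eq 0 (h1 a b) (by simp)).clm_apply (h1 c d)

/-- The derivative of a derivative, applied. -/
theorem hasFDerivAt_fderiv_apply (hg : ContDiff ℝ ∞ g) {u v : E2 → E} {u' v' : E2 →L[ℝ] E} {x : E2}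
    (hu : HasFDerivAt u u' x) (hv : HasFDerivAt v v' x) :
    HasFDerivAt (fun z => fderiv ℝ g (u z) (v z))
      ((fderiv ℝ g (u x)).comp v' + ((fderiv ℝ (fderiv ℝ g) (u x)).comp u').flip (v x)) x := by
  have hd : HasFDerivAt (fderiv ℝ g) (fderiv ℝ (fderiv ℝ g) (u x)) (u x) :=
    ((hg.fderiv_right (m := ∞) (by exact_mod_cast le_top)).differentiable (by simp) (u x)).hasFDerivAt
  exact (hd.comp x hu).clm_apply hv

end Calc

/-- The first variation. -/
noncomputable def var (c : (E2 → R4) → E2 → X) (f w : E2 → R4) (x : E2) : X :=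
  deriv (fun s : ℝ => c (fun z => f z + s • w z) x) 0

section Var

variable {f w : E2 → R4} {x : E2} {N : ℕ}

theorem hasDerivAt_rep {c : (E2 → R4) → E2 → X} {g : Jet N → X} (hg : g.HasTemperateGrowth)
    (e : ∀ f x, ContDiff ℝ ∞ f → c f x = g (jet N f x)) (hf : ContDiff ℝ ∞ f)
    (hw : ContDiff ℝ ∞ w) :
    HasDerivAt (fun s : ℝ => c (fun z => f z + s • w z) x)
      (fderiv ℝ g (jet N f x) (jet N w x)) 0 := by
  have h : (fun s : ℝ => c (fun z => f z + s • w z) x) =
      fun s : ℝ => g (jet N f x + s • jet N w x) :=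
    funext fun s => by rw [e _ x (contDiff_line hf hw _), jet_add_smul hf hw]
  rw [h]
  have h1 : HasDerivAt (fun s : ℝ => jet N f x + s • jet N w x) (jet N w x) 0 := by
    simpa using ((hasDerivAt_id (0 : ℝ)).smul_const (jet N w x)).const_add (jet N f x)
  have h2 := (hg.1.differentiable (by simp) (jet N f x)).hasFDerivAt
  exact HasFDerivAt.comp_hasDerivAt_of_eq 0 h2 h1 (jet_add_zero_smul _ _).symm

theorem var_rep {c : (E2 → R4) → E2 → X} {g : Jet N → X} (hg : g.HasTemperateGrowth)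
    (e : ∀ f x, ContDiff ℝ ∞ f → c f x = g (jet N f x)) (hf : ContDiff ℝ ∞ f)
    (hw : ContDiff ℝ ∞ w) : var c f w x = fderiv ℝ g (jet N f x) (jet N w x) :=
  (hasDerivAt_rep hg e hf hw).deriv

theorem hasDerivAt_var {c : (E2 → R4) → E2 → X} (hc : JetFn c) (hf : ContDiff ℝ ∞ f)
    (hw : ContDiff ℝ ∞ w) :
    HasDerivAt (fun s : ℝ => c (fun z => f z + s • w z) x) (var c f w x) 0 := by
  obtain ⟨N, g, hg, e⟩ := hc
  rw [var_rep hg e hf hw]
  exact hasDerivAt_rep hg e hf hw

theorem var_congr {c d : (E2 → R4) → E2 → X} (e : ∀ f x, ContDiff ℝ ∞ f → c f x = d f x)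
    (hf : ContDiff ℝ ∞ f) (hw : ContDiff ℝ ∞ w) : var c f w x = var d f w x := by
  unfold var
  rw [funext fun s => e (fun z => f z + s • w z) x (contDiff_line hf hw _)]

theorem var_const (a : X) : var (fun _ _ => a) f w x = 0 := by simp [var]

theorem var_add {c d : (E2 → R4) → E2 → X} (hc : JetFn c) (hd : JetFn d) (hf : ContDiff ℝ ∞ f)
    (hw : ContDiff ℝ ∞ w) :
    var (fun f x => c f x + d f x) f w x = var c f w x + var d f w x :=
  ((hasDerivAt_var hc hf hw).add (hasDerivAt_var hd hf hw)).deriv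

theorem var_sub {c d : (E2 → R4) → E2 → X} (hc : JetFn c) (hd : JetFn d) (hf : ContDiff ℝ ∞ f)
    (hw : ContDiff ℝ ∞ w) :
    var (fun f x => c f x - d f x) f w x = var c f w x - var d f w x :=
  ((hasDerivAt_var hc hf hw).sub (hasDerivAt_var hd hf hw)).deriv

theorem var_neg {c : (E2 → R4) → E2 → X} (hc : JetFn c) (hf : ContDiff ℝ ∞ f)
    (hw : ContDiff ℝ ∞ w) : var (fun f x => -c f x) f w x = -var c f w x :=
  (hasDerivAt_var hc hf hw).neg.deriv

theorem var_bilin {c : (E2 → R4) → E2 → X} {d : (E2 → R4) → E2 → Y} (hc : JetFn c) (hd : JetFn d)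
    (hf : ContDiff ℝ ∞ f) (hw : ContDiff ℝ ∞ w) (B : X →L[ℝ] Y →L[ℝ] Z) :
    var (fun f x => B (c f x) (d f x)) f w x =
      B (var c f w x) (d f x) + B (c f x) (var d f w x) := by
  have h := B.hasDerivAt_of_bilinear (u := fun s : ℝ => c (fun z => f z + s • w z) x)
    (v := fun s : ℝ => d (fun z => f z + s • w z) x) (fun _ => hasDerivAt_var (x := x) hc hf hw)
    fun _ => hasDerivAt_var hd hf hw
  rw [var, h.deriv, add_comm]
  simp

theorem var_mul {a b : (E2 → R4) → E2 → ℝ} (ha : JetFn a) (hb : JetFn b) (hf : ContDiff ℝ ∞ f)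
    (hw : ContDiff ℝ ∞ w) :
    var (fun f x => a f x * b f x) f w x = var a f w x * b f x + a f x * var b f w x :=
  var_bilin ha hb hf hw (ContinuousLinearMap.mul ℝ ℝ)

theorem var_inner {u v : (E2 → R4) → E2 → R4} (hu : JetFn u) (hv : JetFn v)
    (hf : ContDiff ℝ ∞ f) (hw : ContDiff ℝ ∞ w) :
    var (fun f x => ⟪u f x, v f x⟫) f w x = ⟪var u f w x, v f x⟫ + ⟪u f x, var v f w x⟫ :=
  var_bilin hu hv hf hw (innerSL ℝ)

theorem var_clm {c : (E2 → R4) → E2 → X} (hc : JetFn c) (hf : ContDiff ℝ ∞ f)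
    (hw : ContDiff ℝ ∞ w) (A : X →L[ℝ] Y) : var (fun f x => A (c f x)) f w x = A (var c f w x) :=
  (A.hasFDerivAt.comp_hasDerivAt 0 (hasDerivAt_var hc hf hw)).deriv

/-- Chain rule. -/
theorem var_comp {c : (E2 → R4) → E2 → X} (hc : JetFn c) (hf : ContDiff ℝ ∞ f)
    (hw : ContDiff ℝ ∞ w) {G : X → Y} (hG : Differentiable ℝ G) :
    var (fun f x => G (c f x)) f w x = fderiv ℝ G (c f x) (var c f w x) := by
  have h := hasDerivAt_var (x := x) hc hf hw
  refine (HasFDerivAt.comp_hasDerivAt_of_eq 0 (hG (c f x)).hasFDerivAt h ?_).deriv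
  simp

/-- The variation commutes with partial derivatives. -/
theorem var_pd {c : (E2 → R4) → E2 → X} (hc : JetFn c) (hf : ContDiff ℝ ∞ f)
    (hw : ContDiff ℝ ∞ w) (i : Fin 2) :
    var (fun f x => pd i (c f) x) f w x = pd i (var c f w) x := by
  obtain ⟨N, g, hg, e⟩ := hc
  have hsym : IsSymmSndFDerivAt ℝ g (jet N f x) :=
    ((hg.1.of_le (WithTop.coe_le_coe.2 le_top) : ContDiff ℝ 2 g).contDiffAt).isSymmSndFDerivAt
      (by simp)
  have pd_rep : ∀ F : E2 → R4, ContDiff ℝ ∞ F →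
      pd i (c F) x = fderiv ℝ g (jet N F x) (Jet.shift N i (jet (N + 1) F x)) := by
    intro F hF
    show fderiv ℝ (c F) x (ev i) = _
    rw [show c F = g ∘ jet N F from funext fun z => e F z hF,
      fderiv_comp x ((hg.1.differentiable (by simp)) _) (hasFDerivAt_jet hF N x).differentiableAt,
      ContinuousLinearMap.comp_apply, fderiv_jet hF]
  have hl : HasDerivAt (fun s : ℝ => pd i (c fun z => f z + s • w z) x)
      (fderiv ℝ (fderiv ℝ g) (jet N f x) (jet N w x) (Jet.shift N i (jet (N + 1) f x))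
        + fderiv ℝ g (jet N f x) (Jet.shift N i (jet (N + 1) w x))) 0 := by
    have h : (fun s : ℝ => pd i (c fun z => f z + s • w z) x) = fun s : ℝ =>
        fderiv ℝ g (jet N f x + s • jet N w x)
          (Jet.shift N i (jet (N + 1) f x) + s • Jet.shift N i (jet (N + 1) w x)) :=
      funext fun s => by
        rw [pd_rep _ (contDiff_line hf hw _), jet_add_smul hf hw, jet_add_smul hf hw,
          map_add, map_smul]
    rw [h]
    exact hasDerivAt_fderiv_line hg.1 _ _ _ _
  have hr : pd i (var c f w) x =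
      fderiv ℝ (fderiv ℝ g) (jet N f x) (Jet.shift N i (jet (N + 1) f x)) (jet N w x)
        + fderiv ℝ g (jet N f x) (Jet.shift N i (jet (N + 1) w x)) := by
    show fderiv ℝ (var c f w) x (ev i) = _
    rw [show var c f w = fun z => fderiv ℝ g (jet N f z) (jet N w z) from
      funext fun z => var_rep hg e hf hw]
    rw [(hasFDerivAt_fderiv_apply hg.1 (hasFDerivAt_jet hf N x) (hasFDerivAt_jet hw N x)).fderiv]
    simp only [ContinuousLinearMap.add_apply, ContinuousLinearMap.comp_apply,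
      ContinuousLinearMap.flip_apply, fderiv_jet hf, fderiv_jet hw]
    exact add_comm _ _
  rw [var, hl.deriv, hr, hsym.eq]

/-- Linear functions of the map. -/
theorem var_lin {c : (E2 → R4) → E2 → X}
    (h : ∀ f g x, ContDiff ℝ ∞ f → ContDiff ℝ ∞ g → ∀ s : ℝ,
      c (fun z => f z + s • g z) x = c f x + s • c g x)
    (hf : ContDiff ℝ ∞ f) (hw : ContDiff ℝ ∞ w) : var c f w x = c w x := by
  have e : (fun s : ℝ => c (fun z => f z + s • w z) x) = fun s => c f x + s • c w x :=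
    funext (h f w x hf hw)
  rw [var, e]
  have := ((hasDerivAt_id (0 : ℝ)).smul_const (c w x)).const_add (c f x)
  simpa using this.deriv

theorem var_pd_self (hf : ContDiff ℝ ∞ f) (hw : ContDiff ℝ ∞ w) (i : Fin 2) :
    var (fun f x => pd i f x) f w x = pd i w x :=
  var_lin (fun f g x hf hg s => by
    rw [pd_add hf (hg.const_smul s : ContDiff ℝ ∞ fun z => s • g z), pd_smul contDiff_const hg]
    simp [pd]) hf hw

theorem var_pd2_self (hf : ContDiff ℝ ∞ f) (hw : ContDiff ℝ ∞ w) (i j : Fin 2) :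
    var (fun f x => pd i (pd j f) x) f w x = pd i (pd j w) x := by
  rw [var_pd (c := fun f x => pd j f x) (JetFn.pd_self j) hf hw i]
  exact congrArg (fun F => pd i F x) (funext fun z => var_pd_self hf hw j)

theorem var_pd3_self (hf : ContDiff ℝ ∞ f) (hw : ContDiff ℝ ∞ w) (i j k : Fin 2) :
    var (fun f x => pd i (pd j (pd k f)) x) f w x = pd i (pd j (pd k w)) x := by
  rw [var_pd (c := fun f x => pd j (pd k f) x) ((JetFn.pd_self k).pd j) hf hw i]
  exact congrArg (fun F => pd i F x) (funext fun z => var_pd2_self hf hw j k)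

/-- The variation is additive in the direction. -/
theorem var_add_dir {c : (E2 → R4) → E2 → X} (hc : JetFn c) (hf : ContDiff ℝ ∞ f)
    {u v : E2 → R4} (hu : ContDiff ℝ ∞ u) (hv : ContDiff ℝ ∞ v) :
    var c f (fun z => u z + v z) x = var c f u x + var c f v x := by
  obtain ⟨N, g, hg, e⟩ := hc
  have h := jet_add_smul hu hv N 1 x
  simp only [one_smul] at h
  rw [var_rep hg e hf (hu.add hv), var_rep hg e hf hu, var_rep hg e hf hv, h, map_add]

/-- Directions flat to high order give no variation. -/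
theorem var_eq_zero {c : (E2 → R4) → E2 → X} (hc : JetAt N c) (hf : ContDiff ℝ ∞ f)
    (hw : ContDiff ℝ ∞ w) {n : ℕ} (hv : Van n w x) (hN : N < n) : var c f w x = 0 := by
  obtain ⟨g, hg, e⟩ := hc
  rw [var_rep hg e hf hw, hv.jet_eq hw hN, map_zero]

/-- The top part of the variation of a derivative. -/
theorem var_pd_top {c : (E2 → R4) → E2 → X} (hc : JetAt N c) (hf : ContDiff ℝ ∞ f)
    (hw : ContDiff ℝ ∞ w) {n : ℕ} (hv : Van n w x) (hN : N < n) (i : Fin 2) :
    var (fun f x => pd i (c f) x) f w x = var c f (pd i w) x := by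
  obtain ⟨g, hg, e⟩ := hc
  rw [var_pd ⟨N, g, hg, e⟩ hf hw i, var_rep hg e hf (contDiff_pd hw i)]
  show fderiv ℝ (var (fun f x => c f x) f w) x (ev i) = _
  rw [show var (fun f x => c f x) f w = fun z => fderiv ℝ g (jet N f z) (jet N w z) from
    funext fun z => var_rep hg e hf hw]
  rw [(hasFDerivAt_fderiv_apply hg.1 (hasFDerivAt_jet hf N x) (hasFDerivAt_jet hw N x)).fderiv]
  simp [jet_pd hw, fderiv_jet hw, hv.jet_eq hw hN]

end Var

end Vale.Agent.P205F
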