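import Vale.Agent.P205F.GoodProb.Alg

/-!
# P205, GoodProb: the linearised metric as a variation

`var` of an iterated derivative of a metric component is the derivative of `Lin`; the products
`⟪F_c, F_ab⟫` and Gauss' expression `⟪F_xx, F_yy⟫ - |F_xy|²` are derivatives of the metric.
-/

namespace Vale.Agent.P205F

open scoped ContDiff RealInnerProductSpace

variable {f w : E2 → R4} {x : E2}

/-- A component of the metric. -/
noncomputable def mk3 (k : Fin 3) : SF := fun f x => met f x k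

theorem JetAt.mk3 (k : Fin 3) : JetAt 1 (P205F.mk3 k) := by
  have g := fun a b : Fin 2 => (JetAt.pd_self a).inner (JetAt.pd_self b)
  fin_cases k
  · exact g 0 0
  · exact g 0 1
  · exact g 1 1

theorem var_mk3 (hf : ContDiff ℝ ∞ f) (hw : ContDiff ℝ ∞ w) (k : Fin 3) :
    var (mk3 k) f w x = Lin f w x k := by
  have h := fun a b : Fin 2 => var_inner (x := x) (JetFn.pd_self a) (JetFn.pd_self b) hf hw
  simp only [var_pd_self hf hw] at h
  fin_cases k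
  · refine (h 0 0).trans ?_
    simp [Lin, real_inner_comm (pd 0 w x)]
    ring
  · refine (h 0 1).trans ?_
    simp [Lin, real_inner_comm (pd 0 w x)]
    ring
  · refine (h 1 1).trans ?_
    simp [Lin, real_inner_comm (pd 1 w x)]
    ring

theorem contDiff_Lin (hf : ContDiff ℝ ∞ f) (hw : ContDiff ℝ ∞ w) : ContDiff ℝ ∞ (Lin f w) := by
  have a := contDiff_pd hf
  have b := contDiff_pd hw
  refine contDiff_pi.2 fun k => ?_
  fin_cases k
  · exact contDiff_const.mul ((a 0).inner ℝ (b 0))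
  · exact ((a 0).inner ℝ (b 1)).add ((a 1).inner ℝ (b 0))
  · exact contDiff_const.mul ((a 1).inner ℝ (b 1))

theorem pd_apply {ι : Type*} [Fintype ι] {G : E2 → ι → ℝ} (hG : ContDiff ℝ ∞ G) (i : Fin 2)
    (k : ι) (x : E2) : pd i G x k = pd i (fun z => G z k) x := by
  simp only [pd]
  rw [fderiv_pi fun j => ((contDiff_pi.1 hG j).differentiable (by simp)) x]
  rfl

theorem pdm_apply {ι : Type*} [Fintype ι] {G : E2 → ι → ℝ} (hG : ContDiff ℝ ∞ G) (i j : ℕ)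
    (k : ι) : (fun x => pdm i j G x k) = pdm i j fun z => G z k := by
  induction i with
  | zero =>
    induction j with
    | zero => rfl
    | succ j ih =>
      rw [← pd1_pdm hG, ← pd1_pdm (contDiff_pi.1 hG k), ← ih]
      exact funext fun x => pd_apply (contDiff_pdm hG 0 j) 1 k x
  | succ i ih =>
    rw [← pd0_pdm, ← pd0_pdm, ← ih]
    exact funext fun x => pd_apply (contDiff_pdm hG i j) 0 k x

theorem JetAt.pdm {N : ℕ} {c : SF} (hc : JetAt N c) (i j : ℕ) :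
    JetAt (N + (i + j)) fun f x => P205F.pdm i j (c f) x := by
  induction i with
  | zero =>
    induction j with
    | zero => exact hc
    | succ j ih =>
      refine ((ih.pd 1).congr fun f x hf => ?_).mono (by omega)
      rw [← pd1_pdm (hc.smooth hf)]
  | succ i ih =>
    refine ((ih.pd 0).congr fun f x _ => ?_).mono (by omega)
    rw [← pd0_pdm]

theorem var_pdm {N : ℕ} {c : SF} (hc : JetAt N c) (hf : ContDiff ℝ ∞ f) (hw : ContDiff ℝ ∞ w)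
    (i j : ℕ) : (fun x => var (fun f x => pdm i j (c f) x) f w x) = pdm i j (var c f w) := by
  have hv : ContDiff ℝ ∞ (var c f w) := by
    obtain ⟨g, hg, e⟩ := hc
    rw [show var c f w = fun z => fderiv ℝ g (jet N f z) (jet N w z) from
      funext fun z => var_rep hg e hf hw]
    exact ((hg.1.fderiv_right (m := ∞) (by exact_mod_cast le_top)).comp
      (contDiff_jet hf N)).clm_apply (contDiff_jet hw N)
  induction i with
  | zero =>
    induction j with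
    | zero => rfl
    | succ j ih =>
      rw [← pd1_pdm hv, ← ih]
      funext y
      rw [var_congr (d := fun f x => pd 1 (fun z => pdm 0 j (c f) z) x)
        (fun f x hf => by rw [← pd1_pdm (hc.smooth hf)]) hf hw]
      exact var_pd (hc.pdm 0 j).jetFn hf hw 1
  | succ i ih =>
    rw [← pd0_pdm, ← ih]
    funext y
    rw [var_congr (d := fun f x => pd 0 (fun z => pdm i j (c f) z) x)
      (fun f x _ => by rw [← pd0_pdm]) hf hw]
    exact var_pd (hc.pdm i j).jetFn hf hw 0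

/-- Derivatives of `Lin` are variations. -/
theorem var_pdm_mk3 (hf : ContDiff ℝ ∞ f) (hw : ContDiff ℝ ∞ w) (i j : ℕ) (k : Fin 3) :
    var (fun f x => pdm i j (mk3 k f) x) f w x = pdm i j (Lin f w) x k := by
  rw [congrFun (var_pdm (JetAt.mk3 k) hf hw i j) x,
    show var (mk3 k) f w = fun z => Lin f w z k from funext fun z => var_mk3 hf hw k]
  exact (congrFun (pdm_apply (contDiff_Lin hf hw) i j k) x).symm

theorem abs_var_pdm_mk3 (hf : ContDiff ℝ ∞ f) (hw : ContDiff ℝ ∞ w) {i j : ℕ} {ζ : ℝ}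
    (h : ‖pdm i j (Lin f w) x‖ ≤ ζ) (k : Fin 3) :
    |var (fun f x => pdm i j (mk3 k f) x) f w x| ≤ ζ := by
  rw [var_pdm_mk3 hf hw, ← Real.norm_eq_abs]
  exact (norm_le_pi_norm _ k).trans h

/-- Derivatives of the metric components. -/
theorem pd_mk3 (hf : ContDiff ℝ ∞ f) (i : Fin 2) (x : E2) :
    pd i (mk3 0 f) x = 2 * ⟪pd 0 f x, pd i (pd 0 f) x⟫ ∧
      pd i (mk3 1 f) x = ⟪pd i (pd 0 f) x, pd 1 f x⟫ + ⟪pd 0 f x, pd i (pd 1 f) x⟫ ∧
      pd i (mk3 2 f) x = 2 * ⟪pd 1 f x, pd i (pd 1 f) x⟫ := by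
  have h := fun a b : Fin 2 => pd_inner (contDiff_pd hf a) (contDiff_pd hf b) i x
  refine ⟨(h 0 0).trans ?_, h 0 1, (h 1 1).trans ?_⟩
  · rw [real_inner_comm (pd 0 f x)]; ring
  · rw [real_inner_comm (pd 1 f x)]; ring

/-- `⟪F_c, F_ab⟫` from the first derivatives of the metric. -/
theorem inner_first_second (hf : ContDiff ℝ ∞ f) (x : E2) :
    ⟪pd 0 f x, fxx f x⟫ = pd 0 (mk3 0 f) x / 2 ∧
      ⟪pd 0 f x, fxy f x⟫ = pd 1 (mk3 0 f) x / 2 ∧
      ⟪pd 0 f x, fyy f x⟫ = pd 1 (mk3 1 f) x - pd 0 (mk3 2 f) x / 2 ∧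
      ⟪pd 1 f x, fxx f x⟫ = pd 0 (mk3 1 f) x - pd 1 (mk3 0 f) x / 2 ∧
      ⟪pd 1 f x, fxy f x⟫ = pd 0 (mk3 2 f) x / 2 ∧
      ⟪pd 1 f x, fyy f x⟫ = pd 1 (mk3 2 f) x / 2 := by
  obtain ⟨a₀, b₀, c₀⟩ := pd_mk3 hf 0 x
  obtain ⟨a₁, b₁, c₁⟩ := pd_mk3 hf 1 x
  rw [a₀, b₀, c₀, a₁, b₁, c₁, pd_comm hf 1 0 x]
  simp only [fxx, fxy, fyy, real_inner_comm (pd 1 f x) (pd 0 (pd 0 f) x),
    real_inner_comm (pd 1 f x) (pd 0 (pd 1 f) x)]
  refine ⟨?_, ?_, ?_, ?_, ?_, ?_⟩ <;> ring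

/-- Gauss' expression. -/
noncomputable def gaussE : SF := fun f x => ⟪fxx f x, fyy f x⟫ - ⟪fxy f x, fxy f x⟫

theorem JetAt.gaussE : JetAt 2 P205F.gaussE :=
  (JetAt.fxx.inner JetAt.fyy).sub (JetAt.fxy.inner JetAt.fxy)

/-- Gauss' expression from the second derivatives of the metric. -/
theorem gaussE_eq (hf : ContDiff ℝ ∞ f) (x : E2) : gaussE f x =
    -(pdm 0 2 (mk3 0 f) x - 2 * pdm 1 1 (mk3 1 f) x + pdm 2 0 (mk3 2 f) x) / 2 := by
  have p := contDiff_pd hf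
  have pp := fun i j => contDiff_pd (p j) i
  have e₀ : pdm 0 2 (mk3 0 f) x = 2 * (⟪pd 1 (pd 0 f) x, pd 1 (pd 0 f) x⟫
      + ⟪pd 0 f x, pd 1 (pd 1 (pd 0 f)) x⟫) := by
    show pd 1 (pd 1 (mk3 0 f)) x = _
    rw [show pd 1 (mk3 0 f) = fun z => 2 * ⟪pd 0 f z, pd 1 (pd 0 f) z⟫ from
      funext fun z => (pd_mk3 hf 1 z).1, pd_const_mul _ ((p 0).inner ℝ (pp 1 0)),
      pd_inner (p 0) (pp 1 0)]
  have e₂ : pdm 2 0 (mk3 2 f) x = 2 * (⟪pd 0 (pd 1 f) x, pd 0 (pd 1 f) x⟫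
      + ⟪pd 1 f x, pd 0 (pd 0 (pd 1 f)) x⟫) := by
    show pd 0 (pd 0 (mk3 2 f)) x = _
    rw [show pd 0 (mk3 2 f) = fun z => 2 * ⟪pd 1 f z, pd 0 (pd 1 f) z⟫ from
      funext fun z => (pd_mk3 hf 0 z).2.2, pd_const_mul _ ((p 1).inner ℝ (pp 0 1)),
      pd_inner (p 1) (pp 0 1)]
  have e₁ : pdm 1 1 (mk3 1 f) x =
      ⟪pd 0 (pd 1 (pd 0 f)) x, pd 1 f x⟫ + ⟪pd 1 (pd 0 f) x, pd 0 (pd 1 f) x⟫
        + (⟪pd 0 (pd 0 f) x, pd 1 (pd 1 f) x⟫ + ⟪pd 0 f x, pd 0 (pd 1 (pd 1 f)) x⟫) := by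
    show pd 0 (pd 1 (mk3 1 f)) x = _
    rw [show pd 1 (mk3 1 f) =
        fun z => ⟪pd 1 (pd 0 f) z, pd 1 f z⟫ + ⟪pd 0 f z, pd 1 (pd 1 f) z⟫ from
      funext fun z => (pd_mk3 hf 1 z).2.1,
      pd_add ((pp 1 0).inner ℝ (p 1)) ((p 0).inner ℝ (pp 1 1)), pd_inner (pp 1 0) (p 1),
      pd_inner (p 0) (pp 1 1)]
  have c : ∀ z, pd 1 (pd 0 f) z = pd 0 (pd 1 f) z := pd_comm hf 1 0
  have c' : pd 1 (pd 0 f) = pd 0 (pd 1 f) := funext c
  rw [e₀, e₁, e₂, c', pd_comm (p 1) 1 0 x, real_inner_comm (pd 0 (pd 0 (pd 1 f)) x) (pd 1 f x)]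
  simp only [gaussE, fxx, fxy, fyy]
  ring

/-- `G · E` splits into the normal part and first metric derivatives. -/
theorem gdet_gaussE (f : E2 → R4) (x : E2) : gdet f x * gaussE f x =
    ⟪nv f x (fxx f x), nu1 f x⟫ - ⟪nv f x (fxy f x), nv f x (fxy f x)⟫
      + ⟪pd 0 f x, pd 0 f x⟫ * (⟪pd 1 f x, fxx f x⟫ * ⟪pd 1 f x, fyy f x⟫
          - ⟪pd 1 f x, fxy f x⟫ * ⟪pd 1 f x, fxy f x⟫)
      + ⟪pd 1 f x, pd 1 f x⟫ * (⟪pd 0 f x, fxx f x⟫ * ⟪pd 0 f x, fyy f x⟫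
          - ⟪pd 0 f x, fxy f x⟫ * ⟪pd 0 f x, fxy f x⟫)
      - ⟪pd 0 f x, pd 1 f x⟫ * (⟪pd 0 f x, fxx f x⟫ * ⟪pd 1 f x, fyy f x⟫
          + ⟪pd 0 f x, fyy f x⟫ * ⟪pd 1 f x, fxx f x⟫
          - 2 * (⟪pd 0 f x, fxy f x⟫ * ⟪pd 1 f x, fxy f x⟫)) := by
  rw [nu1_eq, inner_nv_nv', inner_nv_nv', gaussE]
  ring

end Vale.Agent.P205F
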