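import Vale.Agent.P205F.GoodProb.JetAt
import Vale.Agent.P205F.GoodAlg.BSmall
import Vale.Agent.P205F.GoodAlg.G1
import Vale.Agent.P205F.GoodAlg.G2Limit

/-!
# P205, GoodProb: the jet orders of the quantities of GoodAlg
-/

namespace Vale.Agent.P205F

open scoped ContDiff RealInnerProductSpace

namespace JetAt

theorem pd_self (i : Fin 2) : JetAt 1 fun f x => P205F.pd i f x := JetAt.self.pd i
theorem pd2_self (i j : Fin 2) : JetAt 2 fun f x => P205F.pd i (P205F.pd j f) x := (pd_self j).pd i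
theorem pd3_self (i j k : Fin 2) :
    JetAt 3 fun f x => P205F.pd i (P205F.pd j (P205F.pd k f)) x := (pd2_self j k).pd i
theorem fxx : JetAt 2 fun f x => P205F.fxx f x := pd2_self 0 0
theorem fxy : JetAt 2 fun f x => P205F.fxy f x := pd2_self 0 1
theorem fyy : JetAt 2 fun f x => P205F.fyy f x := pd2_self 1 1

theorem coord {N : ℕ} {c : (E2 → R4) → E2 → R4} (h : JetAt N c) (i : Fin 4) :
    JetAt N fun f x => c f x i :=
  h.clm (EuclideanSpace.proj i)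

theorem vec4 {N : ℕ} {a b c d : SF} (ha : JetAt N a) (hb : JetAt N b) (hc : JetAt N c)
    (hd : JetAt N d) : JetAt N fun f x => (!₂[a f x, b f x, c f x, d f x] : R4) := by
  refine (((((ha.smul (JetAt.const (EuclideanSpace.single (0 : Fin 4) (1 : ℝ) : R4))).add
    (hb.smul (JetAt.const (EuclideanSpace.single (1 : Fin 4) (1 : ℝ) : R4)))).add
    (hc.smul (JetAt.const (EuclideanSpace.single (2 : Fin 4) (1 : ℝ) : R4)))).add
    (hd.smul (JetAt.const (EuclideanSpace.single (3 : Fin 4) (1 : ℝ) : R4)))).congr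
    fun f x _ => ?_).mono (by omega)
  ext i
  fin_cases i <;> simp

theorem cross {N M P : ℕ} {a b c : (E2 → R4) → E2 → R4} (ha : JetAt N a) (hb : JetAt M b)
    (hc : JetAt P c) : JetAt (max (max N M) P) fun f x => P205F.cross (a f x) (b f x) (c f x) := by
  have h : N ≤ max (max N M) P ∧ M ≤ max (max N M) P ∧ P ≤ max (max N M) P := by omega
  have A := fun i => (ha.mono h.1).coord i
  have B := fun i => (hb.mono h.2.1).coord i
  have C := fun i => (hc.mono h.2.2).coord i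
  have m : ∀ i j : Fin 4, JetAt (max (max N M) P) fun f x =>
      b f x i * c f x j - b f x j * c f x i := fun i j =>
    (((B i).mul (C j)).sub ((B j).mul (C i))).mono (by omega)
  exact vec4 (((((A 1).mul (m 2 3)).sub ((A 2).mul (m 1 3))).add ((A 3).mul (m 1 2))).mono (by omega))
    ((((((A 0).mul (m 2 3)).sub ((A 2).mul (m 0 3))).add ((A 3).mul (m 0 2))).neg).mono (by omega))
    (((((A 0).mul (m 1 3)).sub ((A 1).mul (m 0 3))).add ((A 3).mul (m 0 1))).mono (by omega))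
    ((((((A 0).mul (m 1 2)).sub ((A 1).mul (m 0 2))).add ((A 2).mul (m 0 1))).neg).mono (by omega))

theorem nu1 : JetAt 2 fun f x => P205F.nu1 f x := cross (pd_self 0) (pd_self 1) fyy
theorem nu2 : JetAt 2 fun f x => P205F.nu2 f x := cross (pd_self 0) (pd_self 1) nu1
theorem kk : JetAt 2 P205F.kk := fxx.inner nu1
theorem DD : JetAt 2 P205F.DD := (JetAt.const (2 : ℝ)).mul (fxy.inner nu1)
theorem dd : JetAt 2 P205F.dd := fxx.inner nu2
theorem cc : JetAt 2 P205F.cc := fxy.inner nu2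
theorem bb : JetAt 2 P205F.bb := fyy.inner nu2

theorem gdet : JetAt 1 P205F.gdet :=
  ((((pd_self 0).inner (pd_self 0)).mul ((pd_self 1).inner (pd_self 1))).sub
    (((pd_self 0).inner (pd_self 1)).mul ((pd_self 0).inner (pd_self 1)))).congr fun f x _ => by
    simp [P205F.gdet, pow_two]

theorem tanv (i : Fin 2) : JetAt 1 fun f x => P205F.tanv f x i := by
  have g := fun a b : Fin 2 => (pd_self a).inner (pd_self b)
  fin_cases i
  · exact ((g 1 1).smul (pd_self 0)).sub ((g 0 1).smul (pd_self 1))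
  · exact ((g 0 0).smul (pd_self 1)).sub ((g 0 1).smul (pd_self 0))

theorem gam (i : Fin 2) (j : Fin 3) : JetAt 2 fun f x => P205F.gam f x i j := by
  fin_cases j
  · exact (tanv i).inner fxx
  · exact (JetAt.const (2 : ℝ)).mul ((tanv i).inner fxy)
  · exact (tanv i).inner fyy

theorem bb2 : JetAt 2 fun f x => P205F.bb f x ^ 2 := (bb.mul bb).congr fun f x _ => pow_two _
theorem Del : JetAt 2 P205F.Del :=
  (gdet.mul (bb.mul bb)).congr fun f x _ => by simp [P205F.Del, pow_two]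
theorem A10 : JetAt 2 P205F.A10 := (gdet.mul bb).mul dd
theorem A11 : JetAt 2 P205F.A11 := (((JetAt.const (2 : ℝ)).mul gdet).mul bb).mul cc
theorem B00 : JetAt 2 P205F.B00 := (bb2.mul (gam 0 0)).neg.add ((bb.mul (gam 0 2)).mul dd)
theorem B01 : JetAt 2 P205F.B01 :=
  (bb2.mul (gam 0 1)).neg.add ((((JetAt.const (2 : ℝ)).mul bb).mul (gam 0 2)).mul cc)
theorem B10 : JetAt 3 P205F.B10 :=
  ((gdet.mul ((bb.mul (dd.pd 1)).sub ((bb.pd 1).mul dd))).sub
    (bb2.mul (gam 1 0))).add ((bb.mul (gam 1 2)).mul dd)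
theorem B11 : JetAt 3 P205F.B11 :=
  ((((JetAt.const (2 : ℝ)).mul gdet).mul ((bb.mul (cc.pd 1)).sub ((bb.pd 1).mul cc))).sub
    (bb2.mul (gam 1 1))).add ((((JetAt.const (2 : ℝ)).mul bb).mul (gam 1 2)).mul cc)

/-! ### The rows of G1 -/

theorem pD : JetAt 2 P205F.pD := Del.mul (DD.mul DD)
theorem qD : JetAt 2 P205F.qD := (Del.mul (DD.mul kk)).neg
theorem alD : JetAt 3 P205F.alD :=
  (Del.mul ((DD.mul (kk.pd 1)).sub ((DD.pd 1).mul kk))).add
    (DD.mul ((B00.mul DD).sub (B01.mul kk)))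
theorem piD : JetAt 2 P205F.piD :=
  (DD.mul (((Del.mul (kk.mul kk)).sub (A11.mul (kk.mul DD))).add (A10.mul (DD.mul DD)))).neg
theorem beD : JetAt 3 P205F.beD :=
  (((DD.mul (DD.mul ((B11.mul kk).sub (B10.mul DD)))).sub
    (Del.mul (DD.mul ((DD.mul (kk.pd 0)).sub ((DD.pd 0).mul kk))))).sub (kk.mul alD)).add
    (A11.mul (DD.mul ((DD.mul (kk.pd 1)).sub ((DD.pd 1).mul kk))))

theorem pK : JetAt 2 P205F.pK := Del.mul (kk.mul kk)
theorem qK : JetAt 2 P205F.qK := (A10.mul (kk.mul DD)).sub (A11.mul (kk.mul kk))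
theorem alK : JetAt 3 P205F.alK :=
  (A10.mul (((kk.pd 1).mul DD).sub (kk.mul (DD.pd 1)))).add
    (kk.mul ((kk.mul B11).sub (B10.mul DD)))
theorem piK : JetAt 2 P205F.piK :=
  kk.mul (((Del.mul (kk.mul kk)).sub (A11.mul (kk.mul DD))).add (A10.mul (DD.mul DD)))
theorem beK : JetAt 3 P205F.beK :=
  ((kk.mul (kk.mul ((B00.mul DD).sub (kk.mul B01)))).sub
    (Del.mul (kk.mul ((kk.mul (DD.pd 0)).sub ((kk.pd 0).mul DD))))).sub (DD.mul alK)

theorem rows {p q α : SF} {r : SF × SF} (hp : JetAt 2 p) (hq : JetAt 2 q) (hα : JetAt 3 α)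
    (h₁ : JetAt 2 r.1) (h₂ : JetAt 3 r.2) (n : ℕ) :
    JetAt (n + 2) (P205F.rows p q α r n).1 ∧ JetAt (n + 3) (P205F.rows p q α r n).2 := by
  induction n with
  | zero => exact ⟨h₁, h₂⟩
  | succ n ih =>
    obtain ⟨hπ, hβ⟩ := ih
    refine ⟨?_, ?_⟩
    · exact ((hp.mul ((hp.mul (hπ.pd 0)).add (hq.mul (hπ.pd 1)))).add
        (hπ.mul (((hp.mul hα).add ((hp.pd 1).mul hq)).sub (hp.mul (hq.pd 1))))).mono (by omega)
    · exact (((hp.mul ((hp.mul (hβ.pd 0)).add (hq.mul (hβ.pd 1)))).add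
        (hπ.mul ((hp.mul (hα.pd 1)).sub ((hp.pd 1).mul hα)))).add
          (hβ.mul (hp.mul hα))).mono (by omega)

/-! ### Small `II(∂y,∂y)` -/

theorem omega' {N M : ℕ} {u v : (E2 → R4) → E2 → R4} (hu : JetAt N u) (hv : JetAt M v) :
    JetAt (max (max (max 1 1) N) M) fun f x => P205F.omega f x (u f x) (v f x) :=
  (cross (pd_self 0) (pd_self 1) hu).inner hv

theorem D2 : JetAt 2 P205F.D2 := omega' fxx fxy
theorem E1 : JetAt 2 P205F.E1 := omega' fyy fxy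
theorem EB : JetAt 2 P205F.EB := omega' fxx fyy
theorem sPhi : JetAt 3 P205F.sPhi :=
  (gdet.mul ((((JetAt.const (-2 : ℝ)).mul ((D2.mul (E1.pd 0)).sub ((D2.pd 0).mul E1)))).sub
    ((D2.mul (EB.pd 1)).sub ((D2.pd 1).mul EB)))).add (D2.mul
    (((((JetAt.const (-2 : ℝ)).mul (gam 0 0)).mul E1).sub
      ((gam 0 1).mul EB)).add (((JetAt.const (2 : ℝ)).mul D2).mul (gam 0 2))))
theorem sPsi : JetAt 3 P205F.sPsi :=
  (gdet.mul ((D2.mul (EB.pd 0)).sub ((D2.pd 0).mul EB))).neg.add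
    (D2.mul (((((JetAt.const (-2 : ℝ)).mul (gam 1 0)).mul E1).sub
      ((gam 1 1).mul EB)).add (((JetAt.const (2 : ℝ)).mul D2).mul (gam 1 2))))
theorem sA1 : JetAt 2 P205F.sA1 := (((JetAt.const (-2 : ℝ)).mul gdet).mul D2).mul E1
theorem sA2 : JetAt 2 P205F.sA2 := (((JetAt.const (-1 : ℝ)).mul gdet).mul D2).mul EB
theorem sC2 : JetAt 2 P205F.sC2 := (((JetAt.const (2 : ℝ)).mul gdet).mul D2).mul D2
theorem sP : JetAt 3 P205F.sP := (sC2.mul sPhi).sub (sA2.mul sPsi)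
theorem sQ : JetAt 2 P205F.sQ := (sC2.mul sA1).sub (sA2.mul sA2)
theorem sL0 : JetAt 4 P205F.sL0 :=
  (sC2.mul (((sC2.mul (sP.pd 1)).add (sA2.mul (sP.pd 0))).sub (sP.mul sPsi))).add
    (sQ.mul (((sC2.pd 0).mul sPsi).sub (sC2.mul (sPsi.pd 0))))
theorem sL1 : JetAt 3 P205F.sL1 :=
  (sC2.mul ((sC2.mul (sQ.pd 1)).add (sA2.mul (sQ.pd 0)))).add
    (sQ.mul ((((sC2.pd 0).mul sA2).sub (sC2.mul (sA2.pd 0))).sub (sC2.mul sPsi)))
theorem sDen : JetAt 4 P205F.sDen := (sP.mul sL1).sub (sQ.mul sL0)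

/-! ### The minor of G2 -/

theorem nA0 : JetAt 2 P205F.nA0 := DD.mul A10
theorem nA1 : JetAt 2 P205F.nA1 := (Del.mul kk).neg.add (DD.mul A11)
theorem rB0 : JetAt 3 P205F.rB0 := ((Del.mul (kk.pd 0)).add (kk.mul B00)).add (DD.mul B10)
theorem rB1 : JetAt 3 P205F.rB1 := ((Del.mul (DD.pd 0)).add (kk.mul B01)).add (DD.mul B11)
theorem Gc0 : JetAt 3 P205F.Gc0 :=
  (((((Del.mul Del).mul (nA0.pd 0)).add
    (Del.mul ((nA1.mul (A10.pd 1)).add ((nA0.mul B00).add (nA1.mul B10))))).sub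
    ((Del.pd 1).mul (nA1.mul A10))).add (Del.mul (rB1.mul A10))).sub
    ((Del.mul A11).mul ((nA0.pd 1).add rB0)) |>.add
    (((JetAt.const (2 : ℝ)).mul ((Del.mul Del).mul A10)).mul (kk.pd 1))
theorem Gc1 : JetAt 3 P205F.Gc1 :=
  (((((Del.mul Del).mul (nA1.pd 0)).add
    (Del.mul (((nA1.mul (A11.pd 1)).sub (nA0.mul (Del.pd 1))).add
      ((nA0.mul B01).add (nA1.mul B11))))).sub
    ((Del.pd 1).mul ((nA1.mul A11).sub (nA0.mul Del)))).add
    (Del.mul ((rB1.mul A11).sub (rB0.mul Del)))).sub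
    ((Del.mul A11).mul ((nA1.pd 1).add rB1)) |>.add
    (((JetAt.const (2 : ℝ)).mul ((Del.mul Del).mul A10)).mul (DD.pd 1))
theorem Hc0 : JetAt 4 P205F.Hc0 :=
  (((((Del.mul Del).mul (rB0.pd 0)).add
    (Del.mul ((nA0.mul (B00.pd 1)).add (nA1.mul (B10.pd 1))))).sub
    ((Del.pd 1).mul ((nA0.mul B00).add (nA1.mul B10)))).add
    (Del.mul ((rB0.mul B00).add (rB1.mul B10)))).sub
    ((Del.mul A11).mul (rB0.pd 1)) |>.add (((Del.mul Del).mul A10).mul ((kk.pd 1).pd 1))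
theorem Hc1 : JetAt 4 P205F.Hc1 :=
  (((((Del.mul Del).mul (rB1.pd 0)).add
    (Del.mul ((nA0.mul (B01.pd 1)).add (nA1.mul (B11.pd 1))))).sub
    ((Del.pd 1).mul ((nA0.mul B01).add (nA1.mul B11)))).add
    (Del.mul ((rB0.mul B01).add (rB1.mul B11)))).sub
    ((Del.mul A11).mul (rB1.pd 1)) |>.add (((Del.mul Del).mul A10).mul ((DD.pd 1).pd 1))

/-- A row with coefficients of order `N`. -/
structure _root_.Vale.Agent.P205F.LinRow.At (R : LinRow) (N : ℕ) : Prop where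
  u₀ : JetAt N R.u₀
  u₁ : JetAt N R.u₁
  v₀ : JetAt N R.v₀
  v₁ : JetAt N R.v₁

theorem quad {R S : LinRow} {N : ℕ} (hR : R.At N) (hS : S.At N) (j : Fin 3) :
    JetAt N (P205F.quad R S j) := by
  fin_cases j
  · exact ((hR.u₀.mul hS.u₁).sub (hR.u₁.mul hS.u₀)).mono (by omega)
  · exact (((hR.u₀.mul hS.v₁).sub (hR.u₁.mul hS.v₀)).add
      ((hR.v₀.mul hS.u₁).sub (hR.v₁.mul hS.u₀))).mono (by omega)
  · exact ((hR.v₀.mul hS.v₁).sub (hR.v₁.mul hS.v₀)).mono (by omega)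

theorem rowN (N : ℕ) : P205F.rowN.At N :=
  ⟨(const 1).mono N.zero_le, (const 0).mono N.zero_le, (const 0).mono N.zero_le,
    (const 1).mono N.zero_le⟩

theorem rowPsi : P205F.rowPsi.At 4 := by
  have a := (Del.mul kk).neg.add (A11.mul DD)
  have b := (A11.mul Gc0).sub (A10.mul Gc1)
  exact ⟨((a.mul Hc0).add ((Del.mul Gc0).mul (kk.pd 1))).sub (Gc1.mul rB0),
    ((a.mul Hc1).add ((Del.mul Gc0).mul (DD.pd 1))).sub (Gc1.mul rB1),
    ((((A10.mul DD).mul Hc0).neg).sub (b.mul (kk.pd 1))).add (Gc0.mul rB0),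
    ((((A10.mul DD).mul Hc1).neg).sub (b.mul (DD.pd 1))).add (Gc0.mul rB1)⟩

theorem phiU (i : Fin 2) : JetAt 5 (P205F.phiU i) :=
  let q := quad (rowN 4) rowPsi
  ((((q 0).pd i).mul kk).add (((q 1).pd i).mul DD)).add
    (((JetAt.const (2 : ℝ)).mul (q 0)).mul (kk.pd i)) |>.add ((q 1).mul (DD.pd i))
theorem phiV (i : Fin 2) : JetAt 5 (P205F.phiV i) :=
  let q := quad (rowN 4) rowPsi
  ((((q 2).pd i).mul DD).add ((q 1).mul (kk.pd i))).add
    (((JetAt.const (2 : ℝ)).mul (q 2)).mul (DD.pd i))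

theorem rowR0 : P205F.rowR0.At 5 :=
  ⟨Del.mul (phiU 0), Del.mul (phiU 1), Del.mul (phiV 0), Del.mul (phiV 1)⟩

theorem minor013 : JetAt 5 (P205F.minor 0 1 3) := by
  have p : P205F.rowPsi.At 5 := ⟨rowPsi.u₀.mono (by omega), rowPsi.u₁.mono (by omega),
    rowPsi.v₀.mono (by omega), rowPsi.v₁.mono (by omega)⟩
  have a := quad (rowN 5) p
  have b := quad (rowN 5) rowR0
  have c := quad p rowR0
  exact ((a 0).mul (((b 1).mul (c 2)).sub ((b 2).mul (c 1)))).sub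
    ((a 1).mul (((b 0).mul (c 2)).sub ((b 2).mul (c 0)))) |>.add
    ((a 2).mul (((b 0).mul (c 1)).sub ((b 1).mul (c 0))))

theorem Qf (t : ℝ) : JetAt 3 (P205F.Qf t) :=
  let e := fun i : Fin 2 => (DD.pd i).add ((JetAt.const t).mul (kk.pd i))
  Del.mul (((Del.mul ((e 0).mul (e 0))).sub (A11.mul ((e 0).mul (e 1)))).add
    (A10.mul ((e 1).mul (e 1))))

end JetAt

end Vale.Agent.P205F
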