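import Vale.Agent.P205F.InterfacesTwist
import Vale.Agent.P205F.GoodAlg.Base

/-!
# P205, GoodProb: jets from mixed partial derivatives, test monomials

The multilinear jets are bounded by the mixed partials `pdm`; `mono x₀ a b v` is the monomial whose
only nonzero mixed partial at `x₀` is `∂x^a ∂y^b = v`.
-/

namespace Vale.Agent.P205F

open scoped ContDiff Nat

variable {X : Type*} [NormedAddCommGroup X] [NormedSpace ℝ X]

theorem contDiff_pd_iter {f : E2 → X} (hf : ContDiff ℝ ∞ f) (i : Fin 2) :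
    ∀ n : ℕ, ContDiff ℝ ∞ ((pd i)^[n] f)
  | 0 => hf
  | n + 1 => by
    rw [Function.iterate_succ_apply']
    exact contDiff_pd (contDiff_pd_iter hf i n) i

theorem contDiff_pdm {f : E2 → X} (hf : ContDiff ℝ ∞ f) (i j : ℕ) : ContDiff ℝ ∞ (pdm i j f) :=
  contDiff_pd_iter (contDiff_pd_iter hf 1 j) 0 i

theorem pd_iter_comm {f : E2 → X} (hf : ContDiff ℝ ∞ f) (n : ℕ) :
    pd 1 ((pd 0)^[n] f) = (pd 0)^[n] (pd 1 f) := by
  induction n generalizing f with
  | zero => rfl
  | succ n ih =>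
    rw [Function.iterate_succ_apply, Function.iterate_succ_apply, ih (contDiff_pd hf 0)]
    exact congrArg _ (funext fun x => pd_comm hf 1 0 x)

theorem pd0_pdm (f : E2 → X) (i j : ℕ) : pd 0 (pdm i j f) = pdm (i + 1) j f := by
  simp only [pdm, Function.iterate_succ_apply']

theorem pd1_pdm {f : E2 → X} (hf : ContDiff ℝ ∞ f) (i j : ℕ) :
    pd 1 (pdm i j f) = pdm i (j + 1) f := by
  simp only [pdm, pd_iter_comm (contDiff_pd_iter hf 1 j), Function.iterate_succ_apply']

theorem pdm_pd0 {f : E2 → X} (hf : ContDiff ℝ ∞ f) (i j : ℕ) :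
    pdm i j (pd 0 f) = pdm (i + 1) j f := by
  induction j generalizing i with
  | zero => simp [pdm, Function.iterate_succ_apply]
  | succ j ih => rw [← pd1_pdm (contDiff_pd hf 0), ih, pd1_pdm hf]

theorem pdm_pd1 (f : E2 → X) (i j : ℕ) : pdm i j (pd 1 f) = pdm i (j + 1) f := by
  simp only [pdm, Function.iterate_succ_apply]

/-- A jet entry is a mixed partial, with the same pattern for every map. -/
theorem iteratedFDeriv_ev : ∀ (k : ℕ) (σ : Fin k → Fin 2), ∃ i j, i + j = k ∧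
    ∀ f : E2 → X, ContDiff ℝ ∞ f → ∀ x,
      iteratedFDeriv ℝ k f x (fun a => ev (σ a)) = pdm i j f x := by
  intro k
  induction k with
  | zero => exact fun σ => ⟨0, 0, rfl, fun f _ x => by simp [pdm]⟩
  | succ k ih =>
    intro σ
    obtain ⟨i, j, hij, h⟩ := ih (Fin.tail σ)
    have key : ∀ f : E2 → X, ContDiff ℝ ∞ f → ∀ x,
        iteratedFDeriv ℝ (k + 1) f x (fun a => ev (σ a)) = pd (σ 0) (pdm i j f) x := by
      intro f hf x
      have hd : DifferentiableAt ℝ (fun z => iteratedFDeriv ℝ k f z) x :=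
        ((hf.iteratedFDeriv_right (m := ∞) (by exact_mod_cast le_top)).differentiable (by simp)) x
      rw [iteratedFDeriv_succ_apply_left]
      simp only [pd]
      rw [show pdm i j f = fun z => iteratedFDeriv ℝ k f z (fun a => ev (Fin.tail σ a)) from
        funext fun z => (h f hf z).symm, fderiv_continuousMultilinear_apply_const_apply hd]
      rfl
    obtain h0 | h1 : σ 0 = 0 ∨ σ 0 = 1 := by omega
    · exact ⟨i + 1, j, by omega, fun f hf x => by rw [key f hf, h0, pd0_pdm]⟩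
    · exact ⟨i, j + 1, by omega, fun f hf x => by rw [key f hf, h1, pd1_pdm hf]⟩

theorem sum_ev (m : E2) : m = ∑ i : Fin 2, m i • ev i := by
  ext i
  fin_cases i <;> simp [ev, Fin.sum_univ_two]

/-- Jets are bounded by mixed partials. -/
theorem norm_iteratedFDeriv_le_pdm {f : E2 → X} (hf : ContDiff ℝ ∞ f) {k : ℕ} {x : E2} {B : ℝ}
    (hB : 0 ≤ B) (h : ∀ i j, i + j = k → ‖pdm i j f x‖ ≤ B) :
    ‖iteratedFDeriv ℝ k f x‖ ≤ 2 ^ k * B := by
  refine ContinuousMultilinearMap.opNorm_le_bound (by positivity) fun m => ?_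
  have e : m = fun a => ∑ i : Fin 2, (m a) i • ev i := funext fun a => sum_ev (m a)
  rw [congrArg (iteratedFDeriv ℝ k f x) e, ContinuousMultilinearMap.map_sum]
  refine (norm_sum_le_of_le (n := fun _ => B * ∏ a, ‖m a‖) _ fun σ _ => ?_).trans_eq ?_
  · obtain ⟨i, j, hij, hσ⟩ := iteratedFDeriv_ev (X := X) k σ
    rw [ContinuousMultilinearMap.map_smul_univ, hσ f hf, norm_smul, mul_comm, norm_prod]
    exact mul_le_mul (h i j hij) (Finset.prod_le_prod (fun _ _ => norm_nonneg _)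
      fun a _ => PiLp.norm_apply_le (m a) (σ a)) (Finset.prod_nonneg fun _ _ => norm_nonneg _) hB
  · simp [mul_assoc]

theorem iteratedFDeriv_eq_zero_of_pdm {f : E2 → X} (hf : ContDiff ℝ ∞ f) {k : ℕ} {x : E2}
    (h : ∀ i j, i + j = k → pdm i j f x = 0) : iteratedFDeriv ℝ k f x = 0 := by
  have := norm_iteratedFDeriv_le_pdm hf (k := k) (x := x) le_rfl fun i j hij => by rw [h i j hij]; simp
  simpa using this

/-- Jets are close if the mixed partials are. -/
theorem norm_jet_sub_le {f g : E2 → R4} (hf : ContDiff ℝ ∞ f) (hg : ContDiff ℝ ∞ g) {N : ℕ}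
    {x y : E2} {B : ℝ} (hB : 0 ≤ B)
    (h : ∀ i j, i + j ≤ N → ‖pdm i j f x - pdm i j g y‖ ≤ B) :
    ‖jet N f x - jet N g y‖ ≤ 2 ^ N * B := by
  refine (pi_norm_le_iff_of_nonneg (by positivity)).2 fun k => ?_
  have hk : (k : ℕ) ≤ N := Nat.lt_succ_iff.1 k.isLt
  refine le_trans ?_ (mul_le_mul_of_nonneg_right (pow_le_pow_right₀ (by norm_num : (1 : ℝ) ≤ 2) hk) hB)
  refine ContinuousMultilinearMap.opNorm_le_bound (by positivity) fun m => ?_
  have e : m = fun a => ∑ i : Fin 2, (m a) i • ev i := funext fun a => sum_ev (m a)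
  rw [congrArg ((jet N f x - jet N g y) k) e, ContinuousMultilinearMap.map_sum]
  refine (norm_sum_le_of_le (n := fun _ => B * ∏ a, ‖m a‖) _ fun σ _ => ?_).trans_eq ?_
  · obtain ⟨i, j, hij, hσ⟩ := iteratedFDeriv_ev (X := R4) (k : ℕ) σ
    rw [ContinuousMultilinearMap.map_smul_univ, norm_smul, mul_comm, norm_prod]
    refine mul_le_mul ?_ (Finset.prod_le_prod (fun _ _ => norm_nonneg _)
      fun a _ => PiLp.norm_apply_le (m a) (σ a)) (Finset.prod_nonneg fun _ _ => norm_nonneg _) hB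
    show ‖iteratedFDeriv ℝ (k : ℕ) f x (fun a => ev (σ a))
      - iteratedFDeriv ℝ (k : ℕ) g y (fun a => ev (σ a))‖ ≤ B
    rw [hσ f hf, hσ g hg]
    exact h _ _ (hij.trans_le hk)
  · simp [mul_assoc]

/-! ### Test monomials -/

/-- The monomial with the single jet `∂x^a ∂y^b = v` at `x₀`. -/
noncomputable def mono (x₀ : E2) (a b : ℕ) (v : R4) : E2 → R4 := fun z =>
  ((z 0 - x₀ 0) ^ a / (a ! : ℝ) * ((z 1 - x₀ 1) ^ b / (b ! : ℝ))) • v

theorem contDiff_mono (x₀ : E2) (a b : ℕ) (v : R4) : ContDiff ℝ ∞ (mono x₀ a b v) := by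
  unfold mono; fun_prop

theorem pd_coord (c : ℝ) (i j : Fin 2) (n : ℕ) (z : E2) :
    pd j (fun z : E2 => (z i - c) ^ n / (n ! : ℝ)) z =
      if i = j then (if n = 0 then 0 else (z i - c) ^ (n - 1) / ((n - 1) ! : ℝ)) else 0 := by
  have h : HasFDerivAt (fun z : E2 => z i - c) (EuclideanSpace.proj i : E2 →L[ℝ] ℝ) z :=
    ((EuclideanSpace.proj i : E2 →L[ℝ] ℝ).hasFDerivAt).sub_const c
  have h2 := ((h.pow n).mul_const ((n ! : ℝ))⁻¹)
  simp only [pd, div_eq_mul_inv]
  rw [h2.fderiv]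
  cases n with
  | zero => simp
  | succ m =>
    by_cases hij : i = j
    · subst hij
      simp [ev, Nat.factorial_succ]
      field_simp
    · simp [ev, hij, Ne.symm hij]

theorem pd_mono (x₀ : E2) (a b : ℕ) (v : R4) :
    pd 0 (mono x₀ (a + 1) b v) = mono x₀ a b v ∧ pd 1 (mono x₀ a (b + 1) v) = mono x₀ a b v ∧
      pd 0 (mono x₀ 0 b v) = 0 ∧ pd 1 (mono x₀ a 0 v) = 0 := by
  have hc : ∀ (i : Fin 2) (c : ℝ) (n : ℕ), ContDiff ℝ ∞ fun z : E2 => (z i - c) ^ n / (n ! : ℝ) :=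
    fun i c n => by fun_prop
  have key : ∀ a b (j : Fin 2) z, pd j (mono x₀ a b v) z =
      (pd j (fun z : E2 => (z 0 - x₀ 0) ^ a / (a ! : ℝ)) z * ((z 1 - x₀ 1) ^ b / (b ! : ℝ))
        + (z 0 - x₀ 0) ^ a / (a ! : ℝ) * pd j (fun z : E2 => (z 1 - x₀ 1) ^ b / (b ! : ℝ)) z) • v := by
    intro a b j z
    unfold mono
    rw [pd_smul ((hc 0 _ a).mul (hc 1 _ b)) contDiff_const, pd_mul (hc 0 _ a) (hc 1 _ b)]
    simp [pd]
  refine ⟨?_, ?_, ?_, ?_⟩ <;> funext z <;> rw [key, pd_coord, pd_coord] <;> simp [mono]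

theorem pdm_zero (i j : ℕ) : pdm i j (0 : E2 → X) = 0 := by
  have h : ∀ (k : Fin 2) (n : ℕ), (pd k)^[n] (0 : E2 → X) = 0 := fun k n => by
    induction n with
    | zero => rfl
    | succ n ih => rw [Function.iterate_succ_apply', ih]; funext z; simp [pd]
  simp [pdm, h]

theorem pdm_mono (x₀ : E2) (a b : ℕ) (v : R4) (i j : ℕ) :
    pdm i j (mono x₀ a b v) x₀ = if i = a ∧ j = b then v else 0 := by
  induction j generalizing b with
  | zero =>
    induction i generalizing a with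
    | zero =>
      rcases a with _ | a <;> rcases b with _ | b <;> simp [pdm, mono]
    | succ i ih =>
      rw [← pdm_pd0 (contDiff_mono x₀ a b v)]
      cases a with
      | zero => rw [(pd_mono x₀ 0 b v).2.2.1, pdm_zero]; simp
      | succ a => rw [(pd_mono x₀ a b v).1, ih]; simp
  | succ j ih =>
    rw [← pdm_pd1]
    cases b with
    | zero => rw [(pd_mono x₀ a 0 v).2.2.2, pdm_zero]; simp
    | succ b => rw [(pd_mono x₀ a b v).2.1, ih]; simp

end Vale.Agent.P205F
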