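import Vale.Agent.P205F.GoodProb.Data
import Vale.Agent.P205F.GoodAlg.BSmall

/-!
# P205, GoodProb: the two regimes

`N = (k, D)` is either of size at least `M^-σ` (`G1Stmt`: pairs of rows) or smaller (`G2Stmt`:
`g2Den 0 1 3 0` and `sDen`). Each regime rules out a set of parameters of small measure.
`GoodProbStmt` follows from both.
-/

namespace Vale.Agent.P205F

open scoped ContDiff
open Filter MeasureTheory Prob

variable {d : ℕ}

/-- The parameters with a bad point. -/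
def Bad (F : (Fin d → ℝ) → E2 → R4) (K : Set E2) (P : (E2 → R4) → E2 → Prop) : Set (Fin d → ℝ) :=
  {l | l ∈ cube d ∧ ∃ x ∈ K, P (F l) x}

/-- All pair determinants of the rows are at most `M^-e`. -/
def PairsSmall (e M : ℕ) (f : E2 → R4) (x : E2) : Prop :=
  ∀ m ≤ 4, ∀ n ≤ 4,
    |bb f x * (DD f x *
      ((rowsD m).1 f x * (rowsD n).2 f x - (rowsD n).1 f x * (rowsD m).2 f x))| ≤ ((M : ℝ) ^ e)⁻¹ ∧
    |bb f x * (kk f x *
      ((rowsK m).1 f x * (rowsK n).2 f x - (rowsK n).1 f x * (rowsK m).2 f x))| ≤ ((M : ℝ) ^ e)⁻¹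

/-- The two identities of the small regime are at most `M^-e`. -/
def DescentSmall (e M : ℕ) (f : E2 → R4) (x : E2) : Prop :=
  |bb f x * g2Den 0 1 3 0 f x| ≤ ((M : ℝ) ^ e)⁻¹ ∧ |2 * D2 f x * sDen f x| ≤ ((M : ℝ) ^ e)⁻¹

/-- `N` not small: some pair of rows is not small, outside a small set of parameters. -/
def G1Stmt (b : Bool) : Prop :=
  ∀ A σ : ℕ, ∃ s : ℕ, ∀ V : ℕ, ∃ e : ℕ, ∀ (d : ℕ) (K : Set E2) (C δ : ℝ), IsCompact K → 0 < δ →
    ∀ᶠ M : ℕ in atTop, ∀ F : (Fin d → ℝ) → E2 → R4, Setup b F K C A V s M →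
      volume (Bad F K fun f x =>
        ((M : ℝ) ^ σ)⁻¹ ≤ max |kk f x| |DD f x| ∧ PairsSmall e M f x) ≤ ENNReal.ofReal δ

/-- `N` small: one of the two identities is not small, outside a small set of parameters. -/
def G2Stmt (b : Bool) : Prop :=
  ∀ A : ℕ, ∃ σ s : ℕ, ∀ V : ℕ, ∃ e : ℕ, ∀ (d : ℕ) (K : Set E2) (C δ : ℝ), IsCompact K → 0 < δ →
    ∀ᶠ M : ℕ in atTop, ∀ F : (Fin d → ℝ) → E2 → R4, Setup b F K C A V s M →
      volume (Bad F K fun f x =>
        max |kk f x| |DD f x| ≤ ((M : ℝ) ^ σ)⁻¹ ∧ DescentSmall e M f x) ≤ ENNReal.ofReal δ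

/-- More precise slow and fine directions are also less precise ones. -/
theorem Setup.mono_s {b : Bool} {F : (Fin d → ℝ) → E2 → R4} {K : Set E2} {C : ℝ} {A V s s' M : ℕ}
    (h : Setup b F K C A V s' M) (hs : s ≤ s') (hM : 1 ≤ M) : Setup b F K C A V s M := by
  have h1 : (1 : ℝ) ≤ M := by exact_mod_cast hM
  have hle : ((M : ℝ) ^ s')⁻¹ ≤ ((M : ℝ) ^ s)⁻¹ :=
    inv_anti₀ (by positivity) (pow_le_pow_right₀ h1 hs)
  refine ⟨h.bdd, h.pt, fun l hl x hx τ hτ => ?_, fun l hl x hx n i hn hn' hi τ hτ hb hτ1 => ?_⟩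
  · obtain ⟨v, hv, hw⟩ := h.slow l hl x hx τ hτ
    exact ⟨v, hv, hw.smooth, hw.jets, hw.first, hw.all, hw.two, hw.free,
      fun hb i j hij => (hw.linT hb i j hij).trans hle, hw.linF⟩
  · obtain ⟨v, hv, hw⟩ := h.fine l hl x hx n i hn hn' hi τ hτ hb hτ1
    exact ⟨v, hv, hw.smooth, hw.jets, fun i' j' hij => (hw.low i' j' hij).trans hle,
      fun i' hi' σ hσ hσb hσ1 => (hw.top i' hi' σ hσ hσb hσ1).trans hle,
      fun i' j' hij => (hw.lin i' j' hij).trans hle, fun hb i' hi' => (hw.linT hb i' hi').trans hle,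
      fun hb i' hi' => (hw.absT hb i' hi').trans hle⟩

end Vale.Agent.P205F
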